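import Mathlib

/-! P262: constants and the structure describing a normalized family. -/

namespace P262

open Finset

/-- number of hard functionals, as a real number -/
noncomputable def hC (d : ℕ) : ℝ := d + d * d
noncomputable def cE (d : ℕ) : ℝ := 6 + 4 * hC d
noncomputable def cG (d : ℕ) : ℝ := 1 + 16 * hC d
noncomputable def q1 (d : ℕ) : ℝ := 2 * (d + cE d)
noncomputable def q (d : ℕ) : ℝ := 2 * q1 d + 1
noncomputable def D1 (d : ℕ) : ℝ := 4 * hC d + 1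
noncomputable def T1 (d : ℕ) : ℝ := 2 * D1 d + 1
noncomputable def lam (d : ℕ) : ℝ := 10000 * (d : ℝ) ^ 5

/-- A normalized family: zero sum, in the unit ball, with diagonal Gram sum in coordinates,
sorted by the special level `kk`; `ka a` is the activation level of the direction `a`. -/
structure Sys (d N : ℕ) where
  v : Fin N → Fin d → ℝ
  μ : Fin d → ℝ
  kk : Fin N → ℕ
  ka : Fin d → ℕ
  hd : 1 ≤ d
  norm_le : ∀ i, ∑ a, v i a ^ 2 ≤ 1
  gram : ∀ a b, ∑ i, v i a * v i b = if a = b then μ a else 0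
  mono : Monotone kk
  big : ∀ i a, v i a ^ 2 * 2 ^ kk i ≤ 2 * μ a
  cnt : ∀ t, ((univ.filter (fun i => kk i = t)).card : ℝ) ≤ d * 2 ^ t
  sum_zero : ∀ a, ∑ i, v i a = 0
  ka_lt : ∀ a, μ a < lam d ^ 2 * 2 ^ ka a
  ka_le : ∀ a k, k < ka a → lam d ^ 2 * 2 ^ ka a ≤ 2 * μ a

variable {d N : ℕ}

/-- nominal second moment of a block of level `k` in direction `a` -/
noncomputable def Sys.mu (S : Sys d N) (a : Fin d) (k : ℕ) : ℝ := S.μ a / 2 ^ k

noncomputable def Sys.sig (S : Sys d N) (k : ℕ) : ℝ :=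
  min 1 (∑ a ∈ univ.filter (fun a => k < S.ka a), (3 / 4 : ℝ) ^ (S.ka a - 1 - k))

noncomputable def Sys.xi (S : Sys d N) (k : ℕ) : ℝ := 2 * d * T1 d * S.sig k ^ 2 / lam d ^ 2

noncomputable def Sys.th (S : Sys d N) (k : ℕ) : ℝ := ∑ j ∈ range k, 2 * S.xi j

noncomputable def Sys.g (S : Sys d N) (a : Fin d) (k : ℕ) : ℝ := S.mu a k + cG d

/-- the local invariants of a node `W` of level `k` with boundaries `P`, `Q` -/
structure Node (S : Sys d N) (k : ℕ) (W : Finset (Fin N)) (P Q : Fin d → ℝ) : Prop where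
  sum : ∀ a, Q a = P a + ∑ i ∈ W, S.v i a
  rank : ∀ i ∈ W, S.kk i ≤ k → ((W.filter (fun j => j < i)).card : ℝ) * 2 ^ k ≤ q d * 2 ^ S.kk i
  nsp : ((W.filter (fun i => S.kk i ≤ k)).card : ℝ) ≤ q d
  small : ∀ i ∈ W, ∀ a, S.v i a ^ 2 ≤ 4 * q d * S.mu a k
  cls : ∀ t, k ≤ t → ((W.filter (fun i => S.kk i = t)).card : ℝ) * 2 ^ k
    ≤ (1 + S.th k) * (d * 2 ^ t + cE d * 2 ^ k)
  mom : ∀ a b, |∑ i ∈ W, S.v i a * S.v i b - (if a = b then S.mu a k else 0)|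
    ≤ cG d + S.th k * Real.sqrt (S.g a k * S.g b k)
  rich : ∀ a, k < S.ka a → |P a| ≤ D1 d ∧ |Q a| ≤ D1 d

/-- the quantitative output of one splitting step -/
structure StepRel (S : Sys d N) (L : ℕ) (k : ℕ) (P Q R v z : Fin d → ℝ) : Prop where
  rich : ∀ a, k < S.ka a → R a = z a / 2
  poor : ∀ a, S.ka a ≤ k → |R a - (P a + Q a) / 2| ≤ |v a| / 2 + S.sig k / (4 * d) + |z a| / 2
  hv : ∑ a, v a ^ 2 ≤ 1
  z1 : ∑ a ∈ univ.filter (fun a => S.ka a ≤ k ∧ k < S.ka a + L), z a ^ 2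
      ≤ 32 * ((univ.filter (fun a => S.ka a ≤ k ∧ k < S.ka a + L)).card : ℝ)
  z2 : ∀ t, ∑ a ∈ univ.filter (fun a => k < S.ka a ∧ S.ka a ≤ t), z a ^ 2
      ≤ 32 * (1 + Real.log d) * ((univ.filter (fun a => k < S.ka a ∧ S.ka a ≤ t)).card : ℝ)
  dead : ∀ a, 3 / 2 * |v a| + 1 / 2 * |z a| ≤ (10 * hC d * q d) * Real.sqrt (S.mu a k)

end P262
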