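import Mathlib
import Vale.Agent.P262.Defs

/-! P262: numeric facts about `sig`, `xi`, `th`, `mu`, `g`. -/

namespace P262

open Finset

variable {d N : ℕ} (S : Sys d N)

theorem Sys.muZero_nonneg (a : Fin d) : 0 ≤ S.μ a := by
  have h := S.gram a a
  rw [if_pos rfl] at h
  rw [← h]
  exact Finset.sum_nonneg (fun i _ => mul_self_nonneg _)

theorem Sys.mu_nonneg (a : Fin d) (k : ℕ) : 0 ≤ S.mu a k := by
  unfold Sys.mu
  exact div_nonneg (S.muZero_nonneg a) (by positivity)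

theorem Sys.mu_succ (a : Fin d) (k : ℕ) : S.mu a (k + 1) = S.mu a k / 2 := by
  unfold Sys.mu
  rw [pow_succ, div_mul_eq_div_div]

theorem Sys.sig_nonneg (k : ℕ) : 0 ≤ S.sig k := by
  unfold Sys.sig
  exact le_min zero_le_one (Finset.sum_nonneg (fun a _ => by positivity))

theorem Sys.sig_le_one (k : ℕ) : S.sig k ≤ 1 := min_le_left _ _

theorem geom_part_le (m K : ℕ) :
    ∑ k ∈ (range K).filter (fun k => k < m), (3 / 4 : ℝ) ^ (m - 1 - k) ≤ 4 := by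
  have h1 : ∑ k ∈ (range K).filter (fun k => k < m), (3 / 4 : ℝ) ^ (m - 1 - k)
      ≤ ∑ k ∈ range m, (3 / 4 : ℝ) ^ (m - 1 - k) := by
    apply Finset.sum_le_sum_of_subset_of_nonneg
    · intro k hk
      rw [Finset.mem_filter] at hk
      exact Finset.mem_range.mpr hk.2
    · intro k _ _
      positivity
  have h2 : ∑ k ∈ range m, (3 / 4 : ℝ) ^ (m - 1 - k) = ∑ k ∈ range m, (3 / 4 : ℝ) ^ k :=
    Finset.sum_range_reflect (fun k => (3 / 4 : ℝ) ^ k) m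
  have h3 : ∑ k ∈ range m, (3 / 4 : ℝ) ^ k ≤ 4 := by
    rw [geom_sum_eq (by norm_num)]
    have : (0 : ℝ) ≤ (3 / 4 : ℝ) ^ m := by positivity
    rw [div_le_iff_of_neg (by norm_num)]
    linarith
  linarith

theorem Sys.sum_sig_le (K : ℕ) : ∑ k ∈ range K, S.sig k ≤ 4 * d := by
  have h1 : ∑ k ∈ range K, S.sig k ≤ ∑ k ∈ range K,
      ∑ a ∈ univ.filter (fun a => k < S.ka a), (3 / 4 : ℝ) ^ (S.ka a - 1 - k) :=
    Finset.sum_le_sum (fun k _ => min_le_right _ _)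
  have h2 : ∑ k ∈ range K,
      ∑ a ∈ univ.filter (fun a => k < S.ka a), (3 / 4 : ℝ) ^ (S.ka a - 1 - k)
      = ∑ a, ∑ k ∈ (range K).filter (fun k => k < S.ka a), (3 / 4 : ℝ) ^ (S.ka a - 1 - k) := by
    simp_rw [Finset.sum_filter]
    exact Finset.sum_comm
  have h3 : ∑ a, ∑ k ∈ (range K).filter (fun k => k < S.ka a), (3 / 4 : ℝ) ^ (S.ka a - 1 - k)
      ≤ ∑ _a : Fin d, (4 : ℝ) := Finset.sum_le_sum (fun a _ => geom_part_le _ _)
  have h4 : ∑ _a : Fin d, (4 : ℝ) = 4 * d := by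
    rw [Finset.sum_const, Finset.card_univ, Fintype.card_fin, nsmul_eq_mul, mul_comm]
  linarith

theorem lam_pos (hd : 1 ≤ d) : 0 < lam d := by
  unfold lam
  have : (0 : ℝ) < d := by exact_mod_cast hd
  positivity

theorem one_le_lam (hd : 1 ≤ d) : 1 ≤ lam d := by
  unfold lam
  have : (1 : ℝ) ≤ d := by exact_mod_cast hd
  have : (1 : ℝ) ≤ (d : ℝ) ^ 5 := one_le_pow₀ this
  linarith

theorem Sys.pow_le_mu {a : Fin d} {k : ℕ} (h : k < S.ka a) :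
    lam d ^ 2 * 2 ^ (S.ka a - 1 - k) ≤ S.mu a k := by
  have h1 := S.ka_le a k h
  unfold Sys.mu
  rw [le_div_iff₀ (by positivity)]
  have e : S.ka a = (S.ka a - 1 - k) + k + 1 := by omega
  have e2 : (2 : ℝ) ^ S.ka a = 2 ^ (S.ka a - 1 - k) * 2 ^ k * 2 := by
    conv_lhs => rw [e]
    rw [pow_succ, pow_add]
  rw [e2] at h1
  nlinarith [h1]

theorem Sys.le_sig {a : Fin d} {k : ℕ} (h : k < S.ka a) :
    (3 / 4 : ℝ) ^ (S.ka a - 1 - k) ≤ S.sig k := by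
  unfold Sys.sig
  apply le_min
  · exact pow_le_one₀ (by norm_num) (by norm_num)
  · have hm : a ∈ univ.filter (fun a => k < S.ka a) := by simp [h]
    exact Finset.single_le_sum (f := fun a => (3 / 4 : ℝ) ^ (S.ka a - 1 - k))
      (fun b _ => by positivity) hm

theorem Sys.lam_le_sig {a : Fin d} {k : ℕ} (h : k < S.ka a) :
    lam d ^ 2 ≤ S.sig k ^ 2 * S.mu a k := by
  have h1 := S.pow_le_mu h
  have h2 := S.le_sig h
  set m := S.ka a - 1 - k with hm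
  have h3 : ((3 / 4 : ℝ) ^ m) ^ 2 ≤ S.sig k ^ 2 :=
    pow_le_pow_left₀ (by positivity) h2 2
  have h4 : (1 : ℝ) ≤ ((3 / 4 : ℝ) ^ m) ^ 2 * 2 ^ m := by
    rw [← pow_mul, mul_comm m 2, pow_mul, ← mul_pow]
    exact one_le_pow₀ (by norm_num)
  calc lam d ^ 2 = lam d ^ 2 * 1 := (mul_one _).symm
    _ ≤ lam d ^ 2 * (((3 / 4 : ℝ) ^ m) ^ 2 * 2 ^ m) :=
        mul_le_mul_of_nonneg_left h4 (sq_nonneg _)
    _ = ((3 / 4 : ℝ) ^ m) ^ 2 * (lam d ^ 2 * 2 ^ m) := by ring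
    _ ≤ S.sig k ^ 2 * S.mu a k :=
        mul_le_mul h3 h1 (by positivity) (sq_nonneg _)

theorem Sys.lam_le_mu {a : Fin d} {k : ℕ} (h : k < S.ka a) : lam d ^ 2 ≤ S.mu a k := by
  have h1 := S.pow_le_mu h
  have h2 : (1 : ℝ) ≤ 2 ^ (S.ka a - 1 - k) := one_le_pow₀ (by norm_num)
  nlinarith [sq_nonneg (lam d)]

theorem Sys.mu_le_pow {a : Fin d} {k : ℕ} (h : S.ka a ≤ k) :
    S.mu a k ≤ lam d ^ 2 * (1 / 2) ^ (k - S.ka a) := by
  have h1 := (S.ka_lt a).le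
  unfold Sys.mu
  rw [div_le_iff₀ (by positivity)]
  have e : k = S.ka a + (k - S.ka a) := by omega
  have e2 : (2 : ℝ) ^ k = 2 ^ S.ka a * 2 ^ (k - S.ka a) := by
    conv_lhs => rw [e]
    rw [pow_add]
  rw [e2]
  have e3 : (1 / 2 : ℝ) ^ (k - S.ka a) * 2 ^ (k - S.ka a) = 1 := by
    rw [← mul_pow]; norm_num
  calc S.μ a ≤ lam d ^ 2 * 2 ^ S.ka a := h1
    _ = lam d ^ 2 * 2 ^ S.ka a * ((1 / 2 : ℝ) ^ (k - S.ka a) * 2 ^ (k - S.ka a)) := by
        rw [e3, mul_one]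
    _ = lam d ^ 2 * (1 / 2) ^ (k - S.ka a) * (2 ^ S.ka a * 2 ^ (k - S.ka a)) := by ring

theorem Sys.mu_le_lam {a : Fin d} {k : ℕ} (h : S.ka a ≤ k) : S.mu a k ≤ lam d ^ 2 := by
  have h1 := S.mu_le_pow h
  have h2 : (1 / 2 : ℝ) ^ (k - S.ka a) ≤ 1 := pow_le_one₀ (by norm_num) (by norm_num)
  nlinarith [sq_nonneg (lam d)]

theorem Sys.sqrt_mu_le {a : Fin d} {k : ℕ} (h : S.ka a ≤ k) :
    Real.sqrt (S.mu a k) ≤ lam d * (3 / 4 : ℝ) ^ (k - S.ka a) := by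
  have h1 := S.mu_le_pow h
  have hl := (lam_pos S.hd).le
  apply Real.sqrt_le_iff.mpr
  refine ⟨by positivity, ?_⟩
  have h2 : (1 / 2 : ℝ) ^ (k - S.ka a) ≤ ((3 / 4 : ℝ) ^ (k - S.ka a)) ^ 2 := by
    rw [← pow_mul, mul_comm (k - S.ka a) 2, pow_mul]
    exact pow_le_pow_left₀ (by norm_num) (by norm_num) _
  rw [mul_pow]
  exact h1.trans (mul_le_mul_of_nonneg_left h2 (sq_nonneg _))

theorem hC_nonneg : 0 ≤ hC d := by unfold hC; positivity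
theorem cG_pos : 0 < cG d := by
  have := hC_nonneg (d := d)
  unfold cG; linarith
theorem D1_pos : 0 < D1 d := by
  have := hC_nonneg (d := d)
  unfold D1; linarith
theorem T1_pos : 0 < T1 d := by
  have := D1_pos (d := d)
  unfold T1; linarith

theorem Sys.xi_nonneg (k : ℕ) : 0 ≤ S.xi k := by
  have := (T1_pos (d := d)).le
  unfold Sys.xi
  positivity

theorem Sys.th_nonneg (k : ℕ) : 0 ≤ S.th k := by
  unfold Sys.th
  exact Finset.sum_nonneg (fun j _ => mul_nonneg (by norm_num) (S.xi_nonneg j))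

theorem Sys.th_succ (k : ℕ) : S.th (k + 1) = S.th k + 2 * S.xi k := by
  unfold Sys.th
  rw [Finset.sum_range_succ]

theorem one_le_q (hd : 1 ≤ d) : 1 ≤ q d := by
  have h := hC_nonneg (d := d)
  have hd' : (0 : ℝ) ≤ d := by positivity
  unfold q q1 cE
  linarith

theorem Sys.g_nonneg (a : Fin d) (k : ℕ) : 0 ≤ S.g a k := by
  unfold Sys.g
  exact add_nonneg (S.mu_nonneg a k) cG_pos.le

theorem cG_le_lam (hd : 1 ≤ d) : cG d ≤ lam d ^ 2 := by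
  have h1 : (1 : ℝ) ≤ d := by exact_mod_cast hd
  have h2 : (1 : ℝ) ≤ (d : ℝ) ^ 10 := one_le_pow₀ h1
  have h3 : (d : ℝ) * d ≤ (d : ℝ) ^ 10 := by
    calc (d : ℝ) * d = (d : ℝ) ^ 2 := by ring
      _ ≤ (d : ℝ) ^ 10 := pow_le_pow_right₀ h1 (by norm_num)
  have h4 : (d : ℝ) ≤ (d : ℝ) ^ 10 := by
    calc (d : ℝ) = (d : ℝ) ^ 1 := by ring
      _ ≤ (d : ℝ) ^ 10 := pow_le_pow_right₀ h1 (by norm_num)
  unfold cG hC lam
  have e : (10000 * (d : ℝ) ^ 5) ^ 2 = 100000000 * (d : ℝ) ^ 10 := by ring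
  rw [e]
  nlinarith

theorem Sys.g_le_poor {a : Fin d} {k : ℕ} (h : S.ka a ≤ k) : S.g a k ≤ 2 * lam d ^ 2 := by
  have h1 := S.mu_le_lam h
  have h2 := cG_le_lam S.hd
  unfold Sys.g
  linarith

theorem Sys.g_le_rich {a : Fin d} {k : ℕ} (h : k < S.ka a) : S.g a k ≤ 2 * S.mu a k := by
  have h1 := S.lam_le_mu h
  have h2 := cG_le_lam S.hd
  unfold Sys.g
  linarith

end P262
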