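import Mathlib
import Vale.Agent.P262.Defs
import Vale.Agent.P262.ThetaA

/-! P262: numeric facts about `sig`, `xi`, `th`, `mu`, `g`. -/

namespace P262

open Finset

variable {d N : ℕ} (S : Sys d N)

theorem hC_le (hd : 1 ≤ d) : hC d ≤ 2 * (d : ℝ) ^ 2 := by
  have h1 : (1 : ℝ) ≤ d := by exact_mod_cast hd
  unfold hC
  nlinarith

theorem T1_le (hd : 1 ≤ d) : T1 d ≤ 19 * (d : ℝ) ^ 2 := by
  have h1 : (1 : ℝ) ≤ d := by exact_mod_cast hd
  have h2 := hC_le hd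
  unfold T1 D1
  nlinarith

theorem cGq_le (hd : 1 ≤ d) : cG d + (q d + 1) ≤ 95 * (d : ℝ) ^ 2 := by
  have h1 : (1 : ℝ) ≤ d := by exact_mod_cast hd
  have h2 := hC_le hd
  unfold cG q q1 cE
  nlinarith

theorem Sys.sig_sq_le (k : ℕ) : S.sig k ^ 2 ≤ S.sig k := by
  have h1 := S.sig_nonneg k
  have h2 := S.sig_le_one k
  nlinarith

theorem Sys.th_le (k : ℕ) : S.th k ≤ 16 * (d : ℝ) ^ 2 * T1 d / lam d ^ 2 := by
  have hl := lam_pos S.hd
  have hT := T1_pos (d := d)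
  have h0 : S.th k = 4 * d * T1 d / lam d ^ 2 * ∑ j ∈ range k, S.sig j ^ 2 := by
    unfold Sys.th Sys.xi
    rw [Finset.mul_sum]
    refine Finset.sum_congr rfl (fun j _ => ?_)
    ring
  have h1 : ∑ j ∈ range k, S.sig j ^ 2 ≤ 4 * d :=
    (Finset.sum_le_sum (fun j _ => S.sig_sq_le j)).trans (S.sum_sig_le k)
  rw [h0]
  calc 4 * d * T1 d / lam d ^ 2 * ∑ j ∈ range k, S.sig j ^ 2
      ≤ 4 * d * T1 d / lam d ^ 2 * (4 * d) := mul_le_mul_of_nonneg_left h1 (by positivity)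
    _ = 16 * (d : ℝ) ^ 2 * T1 d / lam d ^ 2 := by ring

theorem Sys.th_le' (k : ℕ) : S.th k * (d : ℝ) ^ 6 ≤ 1 / 300000 := by
  have h1 : (1 : ℝ) ≤ d := by exact_mod_cast S.hd
  have hdp : (0 : ℝ) < d := by linarith
  have h2 := S.th_le k
  have h3 := T1_le S.hd
  have hl := lam_pos S.hd
  calc S.th k * (d : ℝ) ^ 6 ≤ 16 * (d : ℝ) ^ 2 * T1 d / lam d ^ 2 * (d : ℝ) ^ 6 :=
        mul_le_mul_of_nonneg_right h2 (by positivity)
    _ ≤ 16 * (d : ℝ) ^ 2 * (19 * (d : ℝ) ^ 2) / lam d ^ 2 * (d : ℝ) ^ 6 := by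
        gcongr
    _ = 304 / 100000000 := by
        unfold lam
        field_simp
        ring
    _ ≤ 1 / 300000 := by norm_num

theorem Sys.th_le'' (k : ℕ) : S.th k * (d : ℝ) ≤ 1 / 300000 := by
  have h1 : (1 : ℝ) ≤ d := by exact_mod_cast S.hd
  have h2 := S.th_le' k
  have h3 : (d : ℝ) ≤ (d : ℝ) ^ 6 := le_self_pow₀ h1 (by norm_num)
  exact (mul_le_mul_of_nonneg_left h3 (S.th_nonneg k)).trans h2

theorem Sys.th_le_one (k : ℕ) : S.th k ≤ 1 := by
  have h1 : (1 : ℝ) ≤ d := by exact_mod_cast S.hd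
  have h2 := S.th_le'' k
  have h3 := S.th_nonneg k
  nlinarith

theorem lam_sq_ge (hd : 1 ≤ d) : 100000000 * (d : ℝ) ^ 3 ≤ lam d ^ 2 := by
  have h1 : (1 : ℝ) ≤ d := by exact_mod_cast hd
  have h2 : (d : ℝ) ^ 3 ≤ (d : ℝ) ^ 10 := pow_le_pow_right₀ h1 (by norm_num)
  have e : lam d ^ 2 = 100000000 * (d : ℝ) ^ 10 := by unfold lam; ring
  rw [e]; linarith

theorem lam_sq_ge' (hd : 1 ≤ d) : 100000000 * (d : ℝ) ^ 7 ≤ lam d ^ 2 := by
  have h1 : (1 : ℝ) ≤ d := by exact_mod_cast hd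
  have h2 : (d : ℝ) ^ 7 ≤ (d : ℝ) ^ 10 := pow_le_pow_right₀ h1 (by norm_num)
  have e : lam d ^ 2 = 100000000 * (d : ℝ) ^ 10 := by unfold lam; ring
  rw [e]; linarith

theorem Sys.xi_le (k : ℕ) : S.xi k ≤ 1 / 2 := by
  have h1 : (1 : ℝ) ≤ d := by exact_mod_cast S.hd
  have hT := (T1_pos (d := d)).le
  have h3 := T1_le S.hd
  have hl := lam_pos S.hd
  have h4 := lam_sq_ge S.hd
  have h5 : S.sig k ^ 2 ≤ 1 := (S.sig_sq_le k).trans (S.sig_le_one k)
  unfold Sys.xi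
  rw [div_le_iff₀ (by positivity)]
  calc 2 * d * T1 d * S.sig k ^ 2 ≤ 2 * d * (19 * (d : ℝ) ^ 2) * 1 := by gcongr
    _ = 38 * (d : ℝ) ^ 3 := by ring
    _ ≤ 1 / 2 * (100000000 * (d : ℝ) ^ 3) := by
        have : (0 : ℝ) ≤ (d : ℝ) ^ 3 := by positivity
        linarith
    _ ≤ 1 / 2 * lam d ^ 2 := by linarith

/-- near-diagonality needed in `restore` -/
theorem Sys.diag_bound {a b : Fin d} {k : ℕ} (ha : k < S.ka a) (hb : k < S.ka b) :
    cG d + S.th k * Real.sqrt (S.g a k * S.g b k) + (q d + 1)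
      ≤ 1 / (2 * d) * Real.sqrt (S.mu a k * S.mu b k) := by
  have h1 : (1 : ℝ) ≤ d := by exact_mod_cast S.hd
  have hdp : (0 : ℝ) < d := by linarith
  have hl := lam_pos S.hd
  have hc := cGq_le S.hd
  have ht := S.th_le'' k
  have ht0 := S.th_nonneg k
  set X := Real.sqrt (S.mu a k * S.mu b k) with hX
  have hX0 : 0 ≤ X := Real.sqrt_nonneg _
  have hXl : lam d ^ 2 ≤ X := by
    rw [hX]
    apply Real.le_sqrt_of_sq_le
    rw [sq (lam d ^ 2)]
    exact mul_le_mul (S.lam_le_mu ha) (S.lam_le_mu hb) (by positivity) (S.mu_nonneg a k)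
  have hG : Real.sqrt (S.g a k * S.g b k) ≤ 2 * X := by
    apply Real.sqrt_le_iff.mpr
    refine ⟨by positivity, ?_⟩
    rw [mul_pow, hX, Real.sq_sqrt (mul_nonneg (S.mu_nonneg a k) (S.mu_nonneg b k))]
    calc S.g a k * S.g b k ≤ (2 * S.mu a k) * (2 * S.mu b k) :=
          mul_le_mul (S.g_le_rich ha) (S.g_le_rich hb) (S.g_nonneg b k)
            (mul_nonneg (by norm_num) (S.mu_nonneg a k))
      _ = 2 ^ 2 * (S.mu a k * S.mu b k) := by ring
  have h2 : S.th k * Real.sqrt (S.g a k * S.g b k) ≤ S.th k * (2 * X) :=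
    mul_le_mul_of_nonneg_left hG ht0
  have h3 : 95 * (d : ℝ) ^ 2 * (4 * d) ≤ X := by
    have := lam_sq_ge S.hd
    have h7 : (0 : ℝ) ≤ (d : ℝ) ^ 3 := by positivity
    calc 95 * (d : ℝ) ^ 2 * (4 * d) = 380 * (d : ℝ) ^ 3 := by ring
      _ ≤ 100000000 * (d : ℝ) ^ 3 := by linarith
      _ ≤ X := by linarith
  have h4 : S.th k * (2 * X) * (4 * d) ≤ X := by
    have : S.th k * (2 * X) * (4 * d) = 8 * X * (S.th k * d) := by ring
    rw [this]
    have h8 : 8 * X * (S.th k * d) ≤ 8 * X * (1 / 300000) :=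
      mul_le_mul_of_nonneg_left ht (by positivity)
    linarith
  have h5 : 1 / (2 * (d : ℝ)) * X = X / (4 * d) + X / (4 * d) := by
    field_simp
    ring
  have h6 : 95 * (d : ℝ) ^ 2 ≤ X / (4 * d) := by
    rw [le_div_iff₀ (by positivity)]; exact h3
  have h7 : S.th k * (2 * X) ≤ X / (4 * d) := by
    rw [le_div_iff₀ (by positivity)]; exact h4
  rw [h5]
  linarith

/-- the drift is at most `sig k / (4 d)` -/
theorem Sys.drift_const (k : ℕ) :
    1 / 2 * ((d : ℝ) * ((cG d + (q d + 1)) * (2 * d * T1 d * S.sig k ^ 2 / lam d ^ 2)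
      + S.th k * (4 * d * T1 d * S.sig k))) ≤ S.sig k / (4 * d) := by
  have h1 : (1 : ℝ) ≤ d := by exact_mod_cast S.hd
  have hdp : (0 : ℝ) < d := by linarith
  have hl := lam_pos S.hd
  have hc := cGq_le S.hd
  have ht := S.th_le' k
  have ht0 := S.th_nonneg k
  have hT := T1_le S.hd
  have hT0 := (T1_pos (d := d)).le
  have hs0 := S.sig_nonneg k
  have hs2 := S.sig_sq_le k
  have hc0 : 0 ≤ cG d + (q d + 1) := by
    have := cG_pos (d := d)
    have := one_le_q S.hd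
    linarith
  rw [le_div_iff₀ (by positivity)]
  have hA : (cG d + (q d + 1)) * (2 * d * T1 d * S.sig k ^ 2 / lam d ^ 2) * (d : ℝ) ^ 2
      ≤ S.sig k * (1 / 10) := by
    have e : (cG d + (q d + 1)) * (2 * d * T1 d * S.sig k ^ 2 / lam d ^ 2) * (d : ℝ) ^ 2
      = ((cG d + (q d + 1)) * (2 * d * T1 d * S.sig k ^ 2) * (d : ℝ) ^ 2) / lam d ^ 2 := by
      ring
    rw [e, div_le_iff₀ (by positivity)]
    calc (cG d + (q d + 1)) * (2 * d * T1 d * S.sig k ^ 2) * (d : ℝ) ^ 2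
        ≤ (95 * (d : ℝ) ^ 2) * (2 * d * (19 * (d : ℝ) ^ 2) * S.sig k) * (d : ℝ) ^ 2 := by
          gcongr
      _ = S.sig k * (3610 * (d : ℝ) ^ 7) := by ring
      _ ≤ S.sig k * (1 / 10 * (100000000 * (d : ℝ) ^ 7)) := by
          have : (0 : ℝ) ≤ (d : ℝ) ^ 7 := by positivity
          exact mul_le_mul_of_nonneg_left (by linarith) hs0
      _ ≤ S.sig k * (1 / 10 * lam d ^ 2) := by
          have := lam_sq_ge' S.hd
          exact mul_le_mul_of_nonneg_left (by linarith) hs0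
      _ = S.sig k * (1 / 10) * lam d ^ 2 := by ring
  have hB : S.th k * (4 * d * T1 d * S.sig k) * (d : ℝ) ^ 2 ≤ S.sig k * (1 / 10) := by
    calc S.th k * (4 * d * T1 d * S.sig k) * (d : ℝ) ^ 2
        ≤ S.th k * (4 * d * (19 * (d : ℝ) ^ 2) * S.sig k) * (d : ℝ) ^ 2 := by gcongr
      _ = 76 * S.sig k * (S.th k * (d : ℝ) ^ 5) := by ring
      _ ≤ 76 * S.sig k * (S.th k * (d : ℝ) ^ 6) := by
          have : (d : ℝ) ^ 5 ≤ (d : ℝ) ^ 6 := pow_le_pow_right₀ h1 (by norm_num)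
          gcongr
      _ ≤ 76 * S.sig k * (1 / 300000) := by gcongr
      _ ≤ S.sig k * (1 / 10) := by linarith
  have e : 1 / 2 * ((d : ℝ) * ((cG d + (q d + 1)) * (2 * d * T1 d * S.sig k ^ 2 / lam d ^ 2)
      + S.th k * (4 * d * T1 d * S.sig k))) * (4 * d)
      = 2 * ((cG d + (q d + 1)) * (2 * d * T1 d * S.sig k ^ 2 / lam d ^ 2) * (d : ℝ) ^ 2)
        + 2 * (S.th k * (4 * d * T1 d * S.sig k) * (d : ℝ) ^ 2) := by ring
  rw [e]
  linarith

/-- one-step recursion of the second moments -/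
theorem Sys.mom_step {a b : Fin d} {k : ℕ} {M M' : ℝ}
    (Ma Mb : ℝ) (_hMa0 : 0 ≤ Ma) (hMb0 : 0 ≤ Mb)
    (hMa : |Ma - S.mu a k| ≤ cG d + S.th k * S.g a k)
    (hMb : |Mb - S.mu b k| ≤ cG d + S.th k * S.g b k)
    (hM : |M - (if a = b then S.mu a k else 0)| ≤ cG d + S.th k * Real.sqrt (S.g a k * S.g b k))
    (h : |M' - M / 2| ≤ 1 / 2 + 4 * hC d + 1 / 2 * (S.xi k * Real.sqrt (Ma * Mb))) :
    |M' - (if a = b then S.mu a (k + 1) else 0)|
      ≤ cG d + S.th (k + 1) * Real.sqrt (S.g a (k + 1) * S.g b (k + 1)) := by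
  have hc := cG_pos (d := d)
  have ht0 := S.th_nonneg k
  have ht1 := S.th_le_one k
  have hx0 := S.xi_nonneg k
  have hga := S.g_nonneg a k
  have hgb := S.g_nonneg b k
  have hMa2 : Ma ≤ 2 * S.g a k := by
    have h1 := (abs_le.mp hMa).2
    have h2 : S.th k * S.g a k ≤ 1 * S.g a k := mul_le_mul_of_nonneg_right ht1 hga
    have h3 : S.g a k = S.mu a k + cG d := rfl
    linarith
  have hMb2 : Mb ≤ 2 * S.g b k := by
    have h1 := (abs_le.mp hMb).2
    have h2 : S.th k * S.g b k ≤ 1 * S.g b k := mul_le_mul_of_nonneg_right ht1 hgb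
    have h3 : S.g b k = S.mu b k + cG d := rfl
    linarith
  set G := Real.sqrt (S.g a k * S.g b k) with hG
  set G' := Real.sqrt (S.g a (k + 1) * S.g b (k + 1)) with hG'
  have hG0 : 0 ≤ G := Real.sqrt_nonneg _
  have hG'0 : 0 ≤ G' := Real.sqrt_nonneg _
  have hMM : Real.sqrt (Ma * Mb) ≤ 2 * G := by
    apply Real.sqrt_le_iff.mpr
    refine ⟨by positivity, ?_⟩
    rw [mul_pow, hG, Real.sq_sqrt (mul_nonneg hga hgb)]
    calc Ma * Mb ≤ (2 * S.g a k) * (2 * S.g b k) :=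
          mul_le_mul hMa2 hMb2 hMb0 (by positivity)
      _ = 2 ^ 2 * (S.g a k * S.g b k) := by ring
  have hga' : S.g a k / 2 ≤ S.g a (k + 1) := by
    unfold Sys.g
    rw [S.mu_succ]
    linarith
  have hgb' : S.g b k / 2 ≤ S.g b (k + 1) := by
    unfold Sys.g
    rw [S.mu_succ]
    linarith
  have hGG : G ≤ 2 * G' := by
    rw [hG]
    apply Real.sqrt_le_iff.mpr
    refine ⟨by positivity, ?_⟩
    rw [mul_pow, hG', Real.sq_sqrt (mul_nonneg (S.g_nonneg a _) (S.g_nonneg b _))]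
    calc S.g a k * S.g b k = 2 ^ 2 * ((S.g a k / 2) * (S.g b k / 2)) := by ring
      _ ≤ 2 ^ 2 * (S.g a (k + 1) * S.g b (k + 1)) := by
          have := mul_le_mul hga' hgb' (by positivity) (S.g_nonneg a (k + 1))
          linarith
  have hδ : (if a = b then S.mu a (k + 1) else 0) = (if a = b then S.mu a k else 0) / 2 := by
    split_ifs with hab
    · exact S.mu_succ a k
    · simp
  rw [hδ]
  set δ : ℝ := (if a = b then S.mu a k else 0) with hδd
  have htri : |M' - δ / 2| ≤ |M' - M / 2| + |M - δ| / 2 := by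
    have e : M' - δ / 2 = (M' - M / 2) + (M - δ) / 2 := by ring
    rw [e]
    refine (abs_add_le _ _).trans ?_
    rw [abs_div, abs_of_pos (show (0 : ℝ) < 2 by norm_num)]
  have hth : S.th (k + 1) = S.th k + 2 * S.xi k := S.th_succ k
  rw [hth]
  have h5 : S.xi k * Real.sqrt (Ma * Mb) ≤ S.xi k * (4 * G') :=
    mul_le_mul_of_nonneg_left (by linarith) hx0
  have h6 : S.th k * G ≤ S.th k * (2 * G') := mul_le_mul_of_nonneg_left hGG ht0
  have hcG : cG d = 1 + 16 * hC d := rfl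
  have hC0 := hC_nonneg (d := d)
  nlinarith [htri, hM, h, h5, h6]

end P262
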