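import Mathlib
import Vale.Agent.P262.Theta

/-! P262: the invariants pass to the children. -/

namespace P262

open Finset

/-- properties of the signs used to split `W.erase m` -/
structure Signs {d N : ℕ} (S : Sys d N) (k : ℕ) (W : Finset (Fin N)) (m : Fin N)
    (s : Fin N → ℝ) : Prop where
  sign : ∀ i, s i = 1 ∨ s i = -1
  mom : ∀ a b, |∑ i ∈ W.erase m, s i * (S.v i a * S.v i b)|
    ≤ 8 * hC d + S.xi k * Real.sqrt ((∑ i ∈ W, S.v i a * S.v i a) * (∑ i ∈ W, S.v i b * S.v i b))
  cls : ∀ t, k < t → |∑ i ∈ (W.erase m).filter (fun i => S.kk i = t), s i|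
    ≤ S.xi k * ((W.filter (fun i => S.kk i = t)).card : ℝ) + cE d
  rank : ∀ i ∈ (W.erase m).filter (fun j => S.kk j ≤ k),
    2 * (((W.erase m).filter (fun j => S.kk j ≤ k)).filter (fun j => j < i ∧ s j = s i)).card
      ≤ (((W.erase m).filter (fun j => S.kk j ≤ k)).filter (fun j => j < i)).card
  cnt : ∀ c : ℝ, 2 * (((W.erase m).filter (fun j => S.kk j ≤ k)).filter (fun j => s j = c)).card
      ≤ ((W.erase m).filter (fun j => S.kk j ≤ k)).card + 1

theorem Signs.neg {d N : ℕ} {S : Sys d N} {k : ℕ} {W : Finset (Fin N)} {m : Fin N}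
    {s : Fin N → ℝ} (h : Signs S k W m s) : Signs S k W m (fun i => - s i) := by
  refine ⟨?_, ?_, ?_, ?_, ?_⟩
  · intro i
    rcases h.sign i with h1 | h1
    · right; simp [h1]
    · left; simp [h1]
  · intro a b
    have e : ∑ i ∈ W.erase m, -s i * (S.v i a * S.v i b)
        = -∑ i ∈ W.erase m, s i * (S.v i a * S.v i b) := by
      rw [← Finset.sum_neg_distrib]
      exact Finset.sum_congr rfl fun i _ => by ring
    rw [e, abs_neg]
    exact h.mom a b
  · intro t ht
    rw [Finset.sum_neg_distrib, abs_neg]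
    exact h.cls t ht
  · intro i hi
    have := h.rank i hi
    simpa only [neg_inj] using this
  · intro c
    have := h.cnt (-c)
    have e : ∀ j, (-s j = c) ↔ (s j = -c) := fun j => neg_eq_iff_eq_neg
    simpa only [e] using this

theorem card_plus {ι : Type*} (A : Finset ι) (s : ι → ℝ) (hs : ∀ i, s i = 1 ∨ s i = -1)
    (f : ι → ℝ) :
    ∑ i ∈ A.filter (fun i => s i = 1), f i = (∑ i ∈ A, f i + ∑ i ∈ A, s i * f i) / 2 := by
  classical
  rw [Finset.sum_filter, ← Finset.sum_add_distrib, Finset.sum_div]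
  refine Finset.sum_congr rfl fun i _ => ?_
  rcases hs i with h | h
  · simp [h]
  · have h2 : ¬ ((-1 : ℝ) = 1) := by norm_num
    simp [h, h2]

theorem child {d N : ℕ} (S : Sys d N) (k : ℕ) (W : Finset (Fin N)) (P Q : Fin d → ℝ)
    (hN : Node S k W P Q) (m : Fin N) (hm : m ∈ W) (hmin : ∀ i ∈ W, m ≤ i)
    (s : Fin N → ℝ) (hs : Signs S k W m s) (P' Q' : Fin d → ℝ)
    (hsum : ∀ a, Q' a = P' a + ∑ i ∈ (W.erase m).filter (fun i => s i = 1), S.v i a)
    (hrich : ∀ a, k + 1 < S.ka a → |P' a| ≤ D1 d ∧ |Q' a| ≤ D1 d) :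
    Node S (k + 1) ((W.erase m).filter (fun i => s i = 1)) P' Q' := by
  classical
  have hd1 : (1 : ℝ) ≤ d := by exact_mod_cast S.hd
  have hq1 : 1 ≤ q d := one_le_q S.hd
  have hhC : 0 ≤ hC d := by unfold hC; positivity
  have hcE : 0 ≤ cE d := by unfold cE; linarith
  have hxi := S.xi_nonneg k
  have hth0 := S.th_nonneg k
  have hth1 := S.th_le_one k
  have hths := S.th_succ k
  have hth1' := S.th_le_one (k + 1)
  have h2k : (0 : ℝ) < 2 ^ k := by positivity
  set W0 : Finset (Fin N) := W.erase m with hW0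
  set W1 : Finset (Fin N) := W0.filter (fun i => s i = 1) with hW1
  have hlt : ∀ i ∈ W0, m < i := by
    intro i hi
    rw [hW0, Finset.mem_erase] at hi
    exact lt_of_le_of_ne (hmin i hi.2) (Ne.symm hi.1)
  have hsub : W0 ⊆ W := Finset.erase_subset _ _
  -- class sizes
  have hclsW : ∀ t, k < t → ((W1.filter (fun i => S.kk i = t)).card : ℝ)
      ≤ ((1 + S.xi k) * ((W.filter (fun i => S.kk i = t)).card : ℝ) + cE d) / 2 := by
    intro t ht
    have e1 : W1.filter (fun i => S.kk i = t)
        = (W0.filter (fun i => S.kk i = t)).filter (fun i => s i = 1) := by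
      ext i; simp only [hW1, Finset.mem_filter]; tauto
    have e2 := card_plus (W0.filter (fun i => S.kk i = t)) s hs.sign (fun _ => (1 : ℝ))
    simp only [Finset.sum_const, nsmul_eq_mul, mul_one] at e2
    rw [e1, e2]
    have h1 := (abs_le.1 (hs.cls t ht)).2
    have h2 : ((W0.filter (fun i => S.kk i = t)).card : ℝ)
        ≤ ((W.filter (fun i => S.kk i = t)).card : ℝ) := by
      exact_mod_cast Finset.card_le_card (Finset.filter_subset_filter _ hsub)
    linarith
  have hfac : (1 + S.xi k) * (1 + S.th k) ≤ 1 + S.th (k + 1) := by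
    rw [hths]; nlinarith
  -- number of special elements
  have hnsp : ((W1.filter (fun i => S.kk i ≤ k + 1)).card : ℝ) ≤ q d := by
    have e1 : W1.filter (fun i => S.kk i ≤ k + 1)
        = ((W0.filter (fun j => S.kk j ≤ k)).filter (fun j => s j = 1))
          ∪ W1.filter (fun i => S.kk i = k + 1) := by
      ext i
      simp only [hW1, Finset.mem_filter, Finset.mem_union]
      constructor
      · rintro ⟨⟨h1, h2⟩, h3⟩
        rcases Nat.lt_or_ge k (S.kk i) with h | h
        · right; exact ⟨⟨h1, h2⟩, by omega⟩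
        · left; exact ⟨⟨h1, h⟩, h2⟩
      · rintro (⟨⟨h1, h2⟩, h3⟩ | ⟨⟨h1, h2⟩, h3⟩)
        · exact ⟨⟨h1, h3⟩, by omega⟩
        · exact ⟨⟨h1, h2⟩, by omega⟩
    have h1 : ((W1.filter (fun i => S.kk i ≤ k + 1)).card : ℝ)
        ≤ (((W0.filter (fun j => S.kk j ≤ k)).filter (fun j => s j = 1)).card : ℝ)
          + ((W1.filter (fun i => S.kk i = k + 1)).card : ℝ) := by
      rw [e1]; exact_mod_cast Finset.card_union_le _ _
    have h2 : 2 * (((W0.filter (fun j => S.kk j ≤ k)).filter (fun j => s j = 1)).card : ℝ)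
        ≤ ((W0.filter (fun j => S.kk j ≤ k)).card : ℝ) + 1 := by
      exact_mod_cast hs.cnt 1
    have h3 : ((W0.filter (fun j => S.kk j ≤ k)).card : ℝ) ≤ q d := by
      refine le_trans ?_ hN.nsp
      exact_mod_cast Finset.card_le_card (Finset.filter_subset_filter _ hsub)
    have h4 := hclsW (k + 1) (Nat.lt_succ_self k)
    have h5 := hN.cls (k + 1) (Nat.le_succ k)
    have h6 : ((W.filter (fun i => S.kk i = k + 1)).card : ℝ)
        ≤ (1 + S.th k) * (2 * d + cE d) := by
      have : ((W.filter (fun i => S.kk i = k + 1)).card : ℝ) * 2 ^ k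
          ≤ ((1 + S.th k) * (2 * d + cE d)) * 2 ^ k := by
        refine le_trans h5 (le_of_eq ?_)
        rw [pow_succ]; ring
      exact le_of_mul_le_mul_right this h2k
    have h7 : (1 + S.xi k) * ((W.filter (fun i => S.kk i = k + 1)).card : ℝ)
        ≤ 2 * (2 * d + cE d) := by
      have h8 : (1 + S.xi k) * ((W.filter (fun i => S.kk i = k + 1)).card : ℝ)
          ≤ (1 + S.xi k) * ((1 + S.th k) * (2 * d + cE d)) :=
        mul_le_mul_of_nonneg_left h6 (by linarith)
      have h9 : (1 + S.xi k) * ((1 + S.th k) * (2 * d + cE d))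
          = ((1 + S.xi k) * (1 + S.th k)) * (2 * d + cE d) := by ring
      have h10 : ((1 + S.xi k) * (1 + S.th k)) * (2 * d + cE d) ≤ 2 * (2 * d + cE d) := by
        apply mul_le_mul_of_nonneg_right _ (by linarith)
        linarith
      linarith
    have hq : q d = 2 * (2 * (d + cE d)) + 1 := rfl
    rw [hq] at h3 ⊢
    linarith
  refine ⟨hsum, ?_, hnsp, ?_, ?_, ?_, hrich⟩
  · -- rank
    intro i hi hik
    rcases Nat.lt_or_ge k (S.kk i) with h | h
    · have hkk : S.kk i = k + 1 := by omega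
      have h1 : W1.filter (fun j => j < i) ⊆ W1.filter (fun i => S.kk i ≤ k + 1) := by
        intro j hj
        rw [Finset.mem_filter] at hj ⊢
        exact ⟨hj.1, (S.mono hj.2.le).trans hkk.le⟩
      have h2 : ((W1.filter (fun j => j < i)).card : ℝ) ≤ q d :=
        le_trans (by exact_mod_cast Finset.card_le_card h1) hnsp
      rw [hkk]
      exact mul_le_mul_of_nonneg_right h2 (by positivity)
    · have hiW1 := hi
      rw [hW1, Finset.mem_filter] at hi
      have hiU : i ∈ W0.filter (fun j => S.kk j ≤ k) := Finset.mem_filter.2 ⟨hi.1, h⟩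
      have h1 := hs.rank i hiU
      have h2 : W1.filter (fun j => j < i)
          ⊆ (W0.filter (fun j => S.kk j ≤ k)).filter (fun j => j < i ∧ s j = s i) := by
        intro j hj
        rw [hW1, Finset.mem_filter, Finset.mem_filter] at hj
        rw [Finset.mem_filter, Finset.mem_filter]
        exact ⟨⟨hj.1.1, (S.mono hj.2.le).trans h⟩, hj.2, by rw [hj.1.2, hi.2]⟩
      have h3 : (W0.filter (fun j => S.kk j ≤ k)).filter (fun j => j < i)
          ⊆ W.filter (fun j => j < i) := by
        intro j hj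
        rw [Finset.mem_filter, Finset.mem_filter] at hj
        exact Finset.mem_filter.2 ⟨hsub hj.1.1, hj.2⟩
      have h4 : 2 * (W1.filter (fun j => j < i)).card ≤ (W.filter (fun j => j < i)).card :=
        le_trans (Nat.mul_le_mul_left 2 (Finset.card_le_card h2))
          (le_trans h1 (Finset.card_le_card h3))
      have h5 : 2 * ((W1.filter (fun j => j < i)).card : ℝ)
          ≤ ((W.filter (fun j => j < i)).card : ℝ) := by exact_mod_cast h4
      have h6 := hN.rank i (hsub hi.1) h
      calc ((W1.filter (fun j => j < i)).card : ℝ) * 2 ^ (k + 1)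
          = (2 * ((W1.filter (fun j => j < i)).card : ℝ)) * 2 ^ k := by rw [pow_succ]; ring
        _ ≤ ((W.filter (fun j => j < i)).card : ℝ) * 2 ^ k :=
            mul_le_mul_of_nonneg_right h5 h2k.le
        _ ≤ q d * 2 ^ S.kk i := h6
  · -- small
    intro i hi a
    rw [hW1, Finset.mem_filter] at hi
    have hbig := S.big i a
    rw [S.mu_succ a k]
    have hmu : S.mu a k * 2 ^ k = S.μ a := by
      unfold Sys.mu; field_simp
    have hmu0 := S.mu_nonneg a k
    have hv0 : 0 ≤ S.v i a ^ 2 := sq_nonneg _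
    have goal : S.v i a ^ 2 ≤ 2 * q d * S.mu a k := by
      rcases Nat.lt_or_ge k (S.kk i) with h | h
      · have h1 : (2 : ℝ) ^ (k + 1) ≤ 2 ^ S.kk i :=
          pow_le_pow_right₀ (by norm_num) h
        have h2 : S.v i a ^ 2 * 2 ^ (k + 1) ≤ 2 * (S.mu a k * 2 ^ k) := by
          rw [hmu]
          exact le_trans (mul_le_mul_of_nonneg_left h1 hv0) hbig
        have h3 : S.v i a ^ 2 ≤ S.mu a k := by
          rw [pow_succ (2 : ℝ) k] at h2
          have h4 : S.v i a ^ 2 * (2 ^ k * 2) ≤ S.mu a k * (2 ^ k * 2) := by linarith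
          exact le_of_mul_le_mul_right h4 (by positivity)
        nlinarith
      · have hr := hN.rank i (hsub hi.1) h
        have hone : (1 : ℝ) ≤ ((W.filter (fun j => j < i)).card : ℝ) := by
          have : m ∈ W.filter (fun j => j < i) := Finset.mem_filter.2 ⟨hm, hlt i hi.1⟩
          exact_mod_cast Finset.card_pos.2 ⟨m, this⟩
        have h1 : (2 : ℝ) ^ k ≤ q d * 2 ^ S.kk i := by
          refine le_trans ?_ hr
          nlinarith
        have h2 : S.v i a ^ 2 * 2 ^ k ≤ (2 * q d * S.mu a k) * 2 ^ k := by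
          calc S.v i a ^ 2 * 2 ^ k ≤ S.v i a ^ 2 * (q d * 2 ^ S.kk i) :=
                mul_le_mul_of_nonneg_left h1 hv0
            _ = q d * (S.v i a ^ 2 * 2 ^ S.kk i) := by ring
            _ ≤ q d * (2 * S.μ a) := mul_le_mul_of_nonneg_left hbig (by linarith)
            _ = (2 * q d * S.mu a k) * 2 ^ k := by rw [← hmu]; ring
        exact le_of_mul_le_mul_right h2 h2k
    linarith
  · -- cls
    intro t ht
    have h1 := hclsW t (by omega)
    have h2 := hN.cls t (by omega)
    have hn0 : (0 : ℝ) ≤ ((W.filter (fun i => S.kk i = t)).card : ℝ) := by positivity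
    have hpos : (0 : ℝ) ≤ d * 2 ^ t + cE d * 2 ^ k := by positivity
    calc ((W1.filter (fun i => S.kk i = t)).card : ℝ) * 2 ^ (k + 1)
        ≤ ((1 + S.xi k) * ((W.filter (fun i => S.kk i = t)).card : ℝ) + cE d) / 2
            * 2 ^ (k + 1) := mul_le_mul_of_nonneg_right h1 (by positivity)
      _ = (1 + S.xi k) * (((W.filter (fun i => S.kk i = t)).card : ℝ) * 2 ^ k)
            + cE d * 2 ^ k := by rw [pow_succ]; ring
      _ ≤ (1 + S.xi k) * ((1 + S.th k) * (d * 2 ^ t + cE d * 2 ^ k)) + cE d * 2 ^ k := by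
          have := mul_le_mul_of_nonneg_left h2 (by linarith : (0 : ℝ) ≤ 1 + S.xi k)
          linarith
      _ = ((1 + S.xi k) * (1 + S.th k)) * (d * 2 ^ t + cE d * 2 ^ k) + cE d * 2 ^ k := by
          ring
      _ ≤ (1 + S.th (k + 1)) * (d * 2 ^ t + cE d * 2 ^ k) + cE d * 2 ^ k := by
          have := mul_le_mul_of_nonneg_right hfac hpos
          linarith
      _ ≤ (1 + S.th (k + 1)) * (d * 2 ^ t + cE d * 2 ^ (k + 1)) := by
          have h3 := S.th_nonneg (k + 1)
          have h4 : 0 ≤ cE d * 2 ^ k := by positivity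
          rw [pow_succ]
          nlinarith
  · -- mom
    intro a b
    have hgg : ∀ c : Fin d, Real.sqrt (S.g c k * S.g c k) = S.g c k := fun c =>
      Real.sqrt_mul_self (S.g_nonneg c k)
    have hdiag : ∀ c : Fin d, |∑ i ∈ W, S.v i c * S.v i c - S.mu c k|
        ≤ cG d + S.th k * S.g c k := by
      intro c
      have h1 := hN.mom c c
      rw [if_pos rfl, hgg c] at h1
      exact h1
    refine S.mom_step (M := ∑ i ∈ W, S.v i a * S.v i b)
      (∑ i ∈ W, S.v i a * S.v i a) (∑ i ∈ W, S.v i b * S.v i b)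
      (Finset.sum_nonneg fun i _ => mul_self_nonneg _)
      (Finset.sum_nonneg fun i _ => mul_self_nonneg _) (hdiag a) (hdiag b) (hN.mom a b) ?_
    have e1 := card_plus W0 s hs.sign (fun i => S.v i a * S.v i b)
    have e2 : ∑ i ∈ W, S.v i a * S.v i b
        = ∑ i ∈ W0, S.v i a * S.v i b + S.v m a * S.v m b := by
      rw [hW0, Finset.sum_erase_eq_sub hm]; ring
    have hvm : |S.v m a * S.v m b| ≤ 1 := by
      have h1 : ∀ c, |S.v m c| ≤ 1 := by
        intro c
        have h2 : S.v m c ^ 2 ≤ 1 := le_trans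
          (Finset.single_le_sum (f := fun a => S.v m a ^ 2) (fun a _ => sq_nonneg _)
            (Finset.mem_univ c)) (S.norm_le m)
        exact abs_le_one_iff_mul_self_le_one.2 (by nlinarith)
      rw [abs_mul]
      exact mul_le_one₀ (h1 a) (abs_nonneg _) (h1 b)
    have h3 := hs.mom a b
    rw [hW1, e1, e2]
    have e3 : (∑ i ∈ W0, S.v i a * S.v i b + ∑ i ∈ W0, s i * (S.v i a * S.v i b)) / 2
        - (∑ i ∈ W0, S.v i a * S.v i b + S.v m a * S.v m b) / 2
        = (∑ i ∈ W0, s i * (S.v i a * S.v i b)) / 2 - (S.v m a * S.v m b) / 2 := by ring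
    rw [e3]
    rw [abs_le] at h3 hvm ⊢
    constructor <;> linarith [h3.1, h3.2, hvm.1, hvm.2]

end P262
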