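import Mathlib

/-! P262: sums over paired items. -/

namespace P262

open Finset

theorem item_sum {ι : Type*} [LinearOrder ι] (S : Finset ι) (p : ι → ι)
    (hp1 : ∀ i ∈ S, p i ∈ S) (hp2 : ∀ i ∈ S, p (p i) = i) (x f : ι → ℝ) :
    ∑ i ∈ S, (if i ≤ p i then x i else - x (p i)) * f i
      = ∑ i ∈ S, x i * (if i < p i then f i - f (p i) else if p i = i then f i else 0) := by
  have h1 : ∑ i ∈ S, (if i ≤ p i then x i else - x (p i)) * f i
      = ∑ i ∈ S, (if i ≤ p i then x i * f i else 0)
        + ∑ i ∈ S, (if i ≤ p i then 0 else - x (p i) * f i) := by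
    rw [← Finset.sum_add_distrib]
    refine Finset.sum_congr rfl fun i _ => ?_
    split_ifs <;> ring
  have h2 : ∑ i ∈ S, (if i ≤ p i then 0 else - x (p i) * f i)
      = ∑ i ∈ S, (if p i ≤ i then 0 else - x i * f (p i)) := by
    refine Finset.sum_nbij' p p (fun i hi => hp1 i hi) (fun i hi => hp1 i hi)
      (fun i hi => hp2 i hi) (fun i hi => hp2 i hi) (fun i hi => ?_)
    rw [hp2 i hi]
  rw [h1, h2, ← Finset.sum_add_distrib]
  refine Finset.sum_congr rfl fun i _ => ?_
  rcases lt_trichotomy i (p i) with h | h | h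
  · rw [if_pos h.le, if_neg (not_le.2 h), if_pos h]; ring
  · rw [if_pos h.le, if_pos h.ge, if_neg (by rw [← h]; exact lt_irrefl _), if_pos h.symm]; ring
  · rw [if_neg (not_le.2 h), if_pos h.le, if_neg (not_lt.2 h.le), if_neg h.ne]; ring

end P262
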