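import Mathlib

/-! P262, module D: pairing of consecutive elements. -/

namespace P262

open Finset

/-- Every finite set `S` in a linear order has an involution `p` pairing consecutive elements
(at most the largest element being a fixed point) such that signs that are opposite on the
pairs are balanced on all initial segments. -/
theorem exists_pairing {ι : Type*} [LinearOrder ι] (S : Finset ι) :
    ∃ p : ι → ι, (∀ i ∈ S, p i ∈ S) ∧ (∀ i ∈ S, p (p i) = i) ∧
      ∀ s : ι → ℝ, (∀ i, s i = 1 ∨ s i = -1) → (∀ i ∈ S, p i ≠ i → s (p i) = - s i) →
        (∀ i ∈ S, 2 * (S.filter (fun j => j < i ∧ s j = s i)).card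
            ≤ (S.filter (fun j => j < i)).card) ∧
        (∀ c : ℝ, 2 * (S.filter (fun j => s j = c)).card ≤ S.card + 1) := by
  induction hn : S.card using Nat.strong_induction_on generalizing S with
  | _ n ih =>
    rcases Nat.lt_or_ge n 2 with hlt | hge
    · -- at most one element
      have hsub : ∀ i ∈ S, ∀ j ∈ S, i = j := by
        have : S.card ≤ 1 := by omega
        exact fun i hi j hj => Finset.card_le_one.1 this i hi j hj
      refine ⟨id, fun i hi => hi, fun i _ => rfl, fun s _ _ => ⟨fun i hi => ?_, fun c => ?_⟩⟩
      · have : S.filter (fun j => j < i ∧ s j = s i) = ∅ := by
          rw [Finset.filter_eq_empty_iff]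
          rintro j hj ⟨hji, _⟩
          rw [hsub j hj i hi] at hji
          exact lt_irrefl _ hji
        rw [this]
        simp
      · have h1 : (S.filter (fun j => s j = c)).card ≤ S.card := Finset.card_filter_le _ _
        omega
    · have hne : S.Nonempty := by
        rw [← Finset.card_pos]; omega
      set a := S.min' hne with ha
      have haS : a ∈ S := Finset.min'_mem _ _
      have hne2 : (S.erase a).Nonempty := by
        rw [← Finset.card_pos, Finset.card_erase_of_mem haS]; omega
      set b := (S.erase a).min' hne2 with hb
      have hbS' : b ∈ S.erase a := Finset.min'_mem _ _
      have hbS : b ∈ S := Finset.mem_of_mem_erase hbS'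
      have hba : b ≠ a := Finset.ne_of_mem_erase hbS'
      have hab : a < b := lt_of_le_of_ne (Finset.min'_le _ _ hbS) hba.symm
      set T := (S.erase a).erase b with hT
      have haT : a ∉ T := fun h =>
        (Finset.ne_of_mem_erase (Finset.mem_of_mem_erase h)) rfl
      have hbT : b ∉ T := fun h => (Finset.ne_of_mem_erase h) rfl
      have hTlt : ∀ j ∈ T, b < j := fun j hj =>
        lt_of_le_of_ne (Finset.min'_le _ _ (Finset.mem_of_mem_erase hj))
          (Finset.ne_of_mem_erase hj).symm
      have hS : S = insert a (insert b T) := by
        rw [hT, Finset.insert_erase hbS', Finset.insert_erase haS]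
      have hTS : ∀ j ∈ T, j ∈ S := fun j hj =>
        Finset.mem_of_mem_erase (Finset.mem_of_mem_erase hj)
      have haI : a ∉ insert b T := by
        rw [Finset.mem_insert]
        rintro (h | h)
        · exact hba h.symm
        · exact haT h
      have hcS : S.card = T.card + 2 := by
        rw [hS, Finset.card_insert_of_notMem haI, Finset.card_insert_of_notMem hbT]
      have hTa : ∀ j ∈ T, j ≠ a := fun j hj h => haT (h ▸ hj)
      have hTb : ∀ j ∈ T, j ≠ b := fun j hj h => hbT (h ▸ hj)
      obtain ⟨p, hp1, hp2, hp3⟩ := ih T.card (by omega) T rfl
      have hpa : ∀ j ∈ T, p j ≠ a := fun j hj => hTa _ (hp1 j hj)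
      have hpb : ∀ j ∈ T, p j ≠ b := fun j hj => hTb _ (hp1 j hj)
      refine ⟨fun i => if i = a then b else if i = b then a else p i, ?_, ?_, ?_⟩
      · intro i hi
        rw [hS, Finset.mem_insert, Finset.mem_insert] at hi
        rcases hi with h | h | h
        · simp only [h, if_true]; exact hbS
        · simp only [h, hba, if_false, if_true]; exact haS
        · simp only [hTa i h, hTb i h, if_false]; exact hTS _ (hp1 i h)
      · intro i hi
        rw [hS, Finset.mem_insert, Finset.mem_insert] at hi
        rcases hi with h | h | h
        · simp only [h, if_true, hba, if_false]
        · simp only [h, hba, if_false, if_true]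
        · simp only [hTa i h, hTb i h, hpa i h, hpb i h, if_false]; exact hp2 i h
      · intro s hs hopp
        have hsab : s b = - s a := by
          have := hopp a haS (by simp only [if_true]; exact hba)
          simpa using this
        have hsT : ∀ i ∈ T, p i ≠ i → s (p i) = - s i := by
          intro i hi hpi
          have := hopp i (hTS i hi) (by simp only [hTa i hi, hTb i hi, if_false]; exact hpi)
          simpa only [hTa i hi, hTb i hi, if_false] using this
        obtain ⟨h1, h2⟩ := hp3 s hs hsT
        have hne0 : ∀ i, s i ≠ 0 := by
          intro i h0
          rcases hs i with h | h <;> rw [h] at h0 <;> norm_num at h0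
        have hsabne : s a ≠ s b := by
          intro h
          rw [hsab] at h
          exact hne0 a (by linarith)
        constructor
        · intro i hi
          rw [hS, Finset.mem_insert, Finset.mem_insert] at hi
          rcases hi with h | h | h
          · have : S.filter (fun j => j < i ∧ s j = s i) = ∅ := by
              rw [Finset.filter_eq_empty_iff]
              rintro j hj ⟨hji, _⟩
              rw [h] at hji
              exact absurd (Finset.min'_le _ _ hj) (not_le.2 hji)
            rw [this]
            simp
          · have : S.filter (fun j => j < i ∧ s j = s i) = ∅ := by
              rw [Finset.filter_eq_empty_iff]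
              rintro j hj ⟨hji, hsj⟩
              rw [h] at hji hsj
              rw [hS, Finset.mem_insert, Finset.mem_insert] at hj
              rcases hj with h' | h' | h'
              · rw [h'] at hsj; exact hsabne hsj
              · rw [h'] at hji; exact lt_irrefl _ hji
              · exact absurd (hTlt j h') (not_lt.2 hji.le)
            rw [this]
            simp
          · have hbi : b < i := hTlt i h
            have hai : a < i := hab.trans hbi
            have e1 : S.filter (fun j => j < i) = insert a (insert b (T.filter (fun j => j < i))) := by
              rw [hS, Finset.filter_insert, if_pos hai, Finset.filter_insert, if_pos hbi]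
            have c1 : (S.filter (fun j => j < i)).card = (T.filter (fun j => j < i)).card + 2 := by
              rw [e1, Finset.card_insert_of_notMem, Finset.card_insert_of_notMem]
              · exact fun hh => hbT (Finset.mem_filter.1 hh).1
              · rw [Finset.mem_insert]
                rintro (hh | hh)
                · exact hba hh.symm
                · exact haT (Finset.mem_filter.1 hh).1
            have c2 : (S.filter (fun j => j < i ∧ s j = s i)).card
                ≤ (T.filter (fun j => j < i ∧ s j = s i)).card + 1 := by
              rw [hS, Finset.filter_insert, Finset.filter_insert]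
              by_cases h3 : s a = s i
              · have h4 : ¬ s b = s i := fun h4 => hsabne (h3.trans h4.symm)
                rw [if_pos ⟨hai, h3⟩, if_neg (fun hh => h4 hh.2)]
                exact Finset.card_insert_le _ _
              · rw [if_neg (fun hh => h3 hh.2)]
                by_cases h4 : s b = s i
                · rw [if_pos ⟨hbi, h4⟩]
                  exact Finset.card_insert_le _ _
                · rw [if_neg (fun hh => h4 hh.2)]
                  omega
            have := h1 i h
            omega
        · intro c
          have c2 : (S.filter (fun j => s j = c)).card
              ≤ (T.filter (fun j => s j = c)).card + 1 := by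
            rw [hS, Finset.filter_insert, Finset.filter_insert]
            by_cases h3 : s a = c
            · have h4 : ¬ s b = c := fun h4 => hsabne (h3.trans h4.symm)
              rw [if_pos h3, if_neg h4]
              exact Finset.card_insert_le _ _
            · rw [if_neg h3]
              by_cases h4 : s b = c
              · rw [if_pos h4]
                exact Finset.card_insert_le _ _
              · rw [if_neg h4]
                omega
          have := h2 c
          omega

end P262
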