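import Mathlib

/-! P262, module C: restoration in rich directions. -/

namespace P262

open Finset

/-- lower bound for the quadratic form of the nearly diagonal matrix `M` -/
theorem quad_lower {d : ℕ} (rich : Finset (Fin d)) (m : Fin d → ℝ) (hm' : ∀ a ∈ rich, 0 < m a)
    (M : Fin d → Fin d → ℝ)
    (hM : ∀ a ∈ rich, ∀ b ∈ rich, |M a b - (if a = b then m a else 0)|
      ≤ 1 / (2 * d) * Real.sqrt (m a * m b)) (w : Fin d → ℝ) :
    (1 / 2) * ∑ a ∈ rich, m a * w a ^ 2 ≤ ∑ a ∈ rich, w a * ∑ b ∈ rich, M a b * w b := by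
  classical
  have h1 : ∑ a ∈ rich, w a * ∑ b ∈ rich, M a b * w b = ∑ a ∈ rich, m a * w a ^ 2 +
      ∑ a ∈ rich, ∑ b ∈ rich, w a * w b * (M a b - if a = b then m a else 0) := by
    rw [← Finset.sum_add_distrib]
    refine Finset.sum_congr rfl fun a ha => ?_
    have h2 : m a * w a ^ 2 = ∑ b ∈ rich, w a * w b * (if a = b then m a else 0) := by
      rw [Finset.sum_eq_single a]
      · rw [if_pos rfl]; ring
      · intro b _ hb
        rw [if_neg (fun h => hb h.symm), mul_zero]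
      · intro h
        exact absurd ha h
    rw [h2, ← Finset.sum_add_distrib, Finset.mul_sum]
    refine Finset.sum_congr rfl fun b _ => by ring
  have h2 : -((1 / (2 * d)) * (∑ a ∈ rich, Real.sqrt (m a) * |w a|) ^ 2) ≤
      ∑ a ∈ rich, ∑ b ∈ rich, w a * w b * (M a b - if a = b then m a else 0) := by
    rw [sq, Finset.sum_mul_sum, Finset.mul_sum, ← Finset.sum_neg_distrib]
    refine Finset.sum_le_sum fun a ha => ?_
    rw [Finset.mul_sum, ← Finset.sum_neg_distrib]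
    refine Finset.sum_le_sum fun b hb => ?_
    have h3 := hM a ha b hb
    have h4 : |w a * w b * (M a b - if a = b then m a else 0)| ≤
        1 / (2 * d) * (Real.sqrt (m a) * |w a| * (Real.sqrt (m b) * |w b|)) := by
      rw [abs_mul, abs_mul]
      rw [Real.sqrt_mul (hm' a ha).le] at h3
      calc |w a| * |w b| * |M a b - if a = b then m a else 0|
          ≤ |w a| * |w b| * (1 / (2 * d) * (Real.sqrt (m a) * Real.sqrt (m b))) :=
            mul_le_mul_of_nonneg_left h3 (by positivity)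
        _ = _ := by ring
    exact neg_le_of_abs_le h4
  have h3 : (∑ a ∈ rich, Real.sqrt (m a) * |w a|) ^ 2 ≤ (rich.card : ℝ) *
      ∑ a ∈ rich, m a * w a ^ 2 := by
    refine (sq_sum_le_card_mul_sum_sq).trans (le_of_eq ?_)
    congr 1
    refine Finset.sum_congr rfl fun a ha => ?_
    rw [mul_pow, Real.sq_sqrt (hm' a ha).le, sq_abs]
  have h4 : 0 ≤ ∑ a ∈ rich, m a * w a ^ 2 :=
    Finset.sum_nonneg fun a ha => mul_nonneg (hm' a ha).le (sq_nonneg _)
  have h5 : (1 / (2 * (d : ℝ))) * rich.card ≤ 1 / 2 := by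
    have h6 : rich.card ≤ d := by
      have := Finset.card_le_univ rich
      rwa [Fintype.card_fin] at this
    rcases Nat.eq_zero_or_pos d with h0 | h0
    · subst h0; simp
    · have h7 : (0 : ℝ) < d := by exact_mod_cast h0
      have h8 : (rich.card : ℝ) ≤ d := by exact_mod_cast h6
      rw [div_mul_eq_mul_div, one_mul, div_le_div_iff₀ (by positivity) (by norm_num)]
      linarith
  have h6 : (1 / (2 * (d : ℝ))) * (∑ a ∈ rich, Real.sqrt (m a) * |w a|) ^ 2 ≤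
      1 / 2 * ∑ a ∈ rich, m a * w a ^ 2 := by
    calc (1 / (2 * (d : ℝ))) * (∑ a ∈ rich, Real.sqrt (m a) * |w a|) ^ 2
        ≤ (1 / (2 * (d : ℝ))) * ((rich.card : ℝ) * ∑ a ∈ rich, m a * w a ^ 2) :=
          mul_le_mul_of_nonneg_left h3 (by positivity)
      _ = ((1 / (2 * (d : ℝ))) * rich.card) * ∑ a ∈ rich, m a * w a ^ 2 := by ring
      _ ≤ _ := mul_le_mul_of_nonneg_right h5 h4
  rw [h1]
  linarith

/-- Solving `M w = T` on the rich coordinates, with bounds. -/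
theorem restore {ι : Type*} {d : ℕ} (O : Finset ι) (v : ι → Fin d → ℝ)
    (hv : ∀ i ∈ O, ∑ a, v i a ^ 2 ≤ 1) (rich : Finset (Fin d)) (m : Fin d → ℝ)
    (Λ σ T1 : ℝ) (hΛ : 0 < Λ) (hσ : 0 ≤ σ) (hT1 : 0 ≤ T1)
    (hm : ∀ a ∈ rich, Λ ≤ σ ^ 2 * m a) (hm' : ∀ a ∈ rich, 0 < m a)
    (hM : ∀ a ∈ rich, ∀ b ∈ rich, |∑ i ∈ O, v i a * v i b - (if a = b then m a else 0)|
      ≤ 1 / (2 * d) * Real.sqrt (m a * m b))
    (T : Fin d → ℝ) (hT : ∀ a, |T a| ≤ T1) :
    ∃ w : Fin d → ℝ, (∀ a, a ∉ rich → w a = 0) ∧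
      (∀ a ∈ rich, ∑ i ∈ O, (∑ b, w b * v i b) * v i a = T a) ∧
      ∑ a, m a * w a ^ 2 ≤ 4 * d * T1 ^ 2 * σ ^ 2 / Λ ∧
      (∀ a, |w a| ≤ 2 * d * T1 * σ ^ 2 / Λ) ∧
      (∀ i ∈ O, |∑ b, w b * v i b| ≤ 2 * d * T1 * σ ^ 2 / Λ) := by
  classical
  set M : Fin d → Fin d → ℝ := fun a b => ∑ i ∈ O, v i a * v i b with hMdef
  have key := quad_lower rich m hm' M hM
  -- the linear map
  let A : (Fin d → ℝ) →ₗ[ℝ] (Fin d → ℝ) :=
    { toFun := fun w a => if a ∈ rich then ∑ b ∈ rich, M a b * w b else w a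
      map_add' := by
        intro x y
        funext a
        by_cases ha : a ∈ rich
        · simp only [Pi.add_apply, if_pos ha, mul_add, Finset.sum_add_distrib]
        · simp only [Pi.add_apply, if_neg ha]
      map_smul' := by
        intro c x
        funext a
        by_cases ha : a ∈ rich
        · simp only [Pi.smul_apply, smul_eq_mul, if_pos ha, RingHom.id_apply, Finset.mul_sum]
          refine Finset.sum_congr rfl fun b _ => by ring
        · simp only [Pi.smul_apply, smul_eq_mul, if_neg ha, RingHom.id_apply] }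
  have hA : ∀ w a, A w a = if a ∈ rich then ∑ b ∈ rich, M a b * w b else w a := fun _ _ => rfl
  have hinj : Function.Injective A := by
    rw [← LinearMap.ker_eq_bot, LinearMap.ker_eq_bot']
    intro w hw
    have h1 : ∀ a, a ∉ rich → w a = 0 := by
      intro a ha
      have := congrFun hw a
      rwa [hA, if_neg ha] at this
    have h2 : ∀ a ∈ rich, ∑ b ∈ rich, M a b * w b = 0 := by
      intro a ha
      have := congrFun hw a
      rwa [hA, if_pos ha] at this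
    have h3 : ∑ a ∈ rich, w a * ∑ b ∈ rich, M a b * w b = 0 :=
      Finset.sum_eq_zero fun a ha => by rw [h2 a ha, mul_zero]
    have h4 := key w
    rw [h3] at h4
    have h5 : ∑ a ∈ rich, m a * w a ^ 2 = 0 := by
      apply le_antisymm
      · linarith
      · exact Finset.sum_nonneg fun a ha => mul_nonneg (hm' a ha).le (sq_nonneg _)
    have h6 := (Finset.sum_eq_zero_iff_of_nonneg
      (fun a ha => mul_nonneg (hm' a ha).le (sq_nonneg (w a)))).mp h5
    funext a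
    by_cases ha : a ∈ rich
    · have h7 := h6 a ha
      rcases mul_eq_zero.mp h7 with h8 | h8
      · exact absurd h8 (hm' a ha).ne'
      · simpa using h8
    · exact h1 a ha
  have hsurj : Function.Surjective A := LinearMap.injective_iff_surjective.mp hinj
  obtain ⟨w, hw⟩ := hsurj (fun a => if a ∈ rich then T a else 0)
  have hw0 : ∀ a, a ∉ rich → w a = 0 := by
    intro a ha
    have := congrFun hw a
    rwa [hA, if_neg ha, if_neg ha] at this
  have hwM : ∀ a ∈ rich, ∑ b ∈ rich, M a b * w b = T a := by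
    intro a ha
    have := congrFun hw a
    rwa [hA, if_pos ha, if_pos ha] at this
  -- main bound
  have hS : ∑ a ∈ rich, m a * w a ^ 2 ≤ 4 * d * T1 ^ 2 * σ ^ 2 / Λ := by
    have h1 := key w
    have h2 : ∑ a ∈ rich, w a * ∑ b ∈ rich, M a b * w b ≤
        ∑ a ∈ rich, (1 / 4 * (m a * w a ^ 2) + T1 ^ 2 * σ ^ 2 / Λ) := by
      refine Finset.sum_le_sum fun a ha => ?_
      rw [hwM a ha]
      have hma := hm' a ha
      have h3 : w a * T a ≤ 1 / 4 * (m a * w a ^ 2) + T a ^ 2 / m a := by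
        have h4 : 0 ≤ (1 / 2 * (m a * w a) - T a) ^ 2 / m a := div_nonneg (sq_nonneg _) hma.le
        have h5 : (1 / 2 * (m a * w a) - T a) ^ 2 / m a =
            1 / 4 * (m a * w a ^ 2) - w a * T a + T a ^ 2 / m a := by
          field_simp
          ring
        linarith
      have h4 : T a ^ 2 ≤ T1 ^ 2 := by
        rw [← sq_abs (T a)]
        exact pow_le_pow_left₀ (abs_nonneg _) (hT a) 2
      have h5 : T a ^ 2 / m a ≤ T1 ^ 2 * σ ^ 2 / Λ := by
        rw [div_le_div_iff₀ hma hΛ]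
        calc T a ^ 2 * Λ ≤ T1 ^ 2 * (σ ^ 2 * m a) :=
              mul_le_mul h4 (hm a ha) hΛ.le (sq_nonneg _)
          _ = _ := by ring
      linarith
    rw [Finset.sum_add_distrib, ← Finset.mul_sum, Finset.sum_const, nsmul_eq_mul] at h2
    have h6 : (rich.card : ℝ) ≤ d := by
      have := Finset.card_le_univ rich
      rw [Fintype.card_fin] at this
      exact_mod_cast this
    have h7 : (rich.card : ℝ) * (T1 ^ 2 * σ ^ 2 / Λ) ≤ d * (T1 ^ 2 * σ ^ 2 / Λ) :=
      mul_le_mul_of_nonneg_right h6 (by positivity)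
    have h8 : 4 * (d : ℝ) * T1 ^ 2 * σ ^ 2 / Λ = 4 * (d * (T1 ^ 2 * σ ^ 2 / Λ)) := by ring
    rw [h8]
    linarith
  have hSall : ∑ a, m a * w a ^ 2 = ∑ a ∈ rich, m a * w a ^ 2 := by
    symm
    apply Finset.sum_subset (Finset.subset_univ _)
    intro a _ ha
    rw [hw0 a ha]; ring
  -- the sum of squares
  have hd2 : (d : ℝ) ≤ (d : ℝ) ^ 2 := by
    rcases Nat.eq_zero_or_pos d with h0 | h0
    · subst h0; simp
    · have h7 : (1 : ℝ) ≤ d := by exact_mod_cast h0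
      nlinarith
  have hW2 : ∑ a, w a ^ 2 ≤ (2 * d * T1 * σ ^ 2 / Λ) ^ 2 := by
    have h1 : ∑ a, w a ^ 2 ≤ ∑ a, σ ^ 2 / Λ * (m a * w a ^ 2) := by
      refine Finset.sum_le_sum fun a _ => ?_
      by_cases ha : a ∈ rich
      · have h2 := hm a ha
        have h3 : 1 ≤ σ ^ 2 / Λ * m a := by
          rw [div_mul_eq_mul_div, le_div_iff₀ hΛ, one_mul]
          exact h2
        calc w a ^ 2 = 1 * w a ^ 2 := by ring
          _ ≤ (σ ^ 2 / Λ * m a) * w a ^ 2 := mul_le_mul_of_nonneg_right h3 (sq_nonneg _)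
          _ = _ := by ring
      · rw [hw0 a ha]; simp
    rw [← Finset.mul_sum, hSall] at h1
    have h2 : σ ^ 2 / Λ * ∑ a ∈ rich, m a * w a ^ 2 ≤
        σ ^ 2 / Λ * (4 * d * T1 ^ 2 * σ ^ 2 / Λ) :=
      mul_le_mul_of_nonneg_left hS (by positivity)
    have h3 : σ ^ 2 / Λ * (4 * d * T1 ^ 2 * σ ^ 2 / Λ) = (d : ℝ) * (4 * T1 ^ 2 * (σ ^ 2 / Λ) ^ 2) := by
      ring
    have h4 : (2 * (d : ℝ) * T1 * σ ^ 2 / Λ) ^ 2 = (d : ℝ) ^ 2 * (4 * T1 ^ 2 * (σ ^ 2 / Λ) ^ 2) := by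
      ring
    rw [h4]
    rw [h3] at h2
    exact (h1.trans h2).trans (mul_le_mul_of_nonneg_right hd2 (by positivity))
  have hW0 : 0 ≤ 2 * d * T1 * σ ^ 2 / Λ := by positivity
  refine ⟨w, hw0, ?_, ?_, ?_, ?_⟩
  · intro a ha
    rw [← hwM a ha]
    have h1 : ∀ i ∈ O, (∑ b, w b * v i b) * v i a = ∑ b ∈ rich, v i a * v i b * w b := by
      intro i _
      have h2 : ∑ b, w b * v i b = ∑ b ∈ rich, w b * v i b := by
        symm
        apply Finset.sum_subset (Finset.subset_univ _)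
        intro b _ hb
        rw [hw0 b hb]; ring
      rw [h2, Finset.sum_mul]
      refine Finset.sum_congr rfl fun b _ => by ring
    rw [Finset.sum_congr rfl h1, Finset.sum_comm]
    refine Finset.sum_congr rfl fun b _ => ?_
    rw [hMdef, Finset.sum_mul]
  · rw [hSall]; exact hS
  · intro a
    apply abs_le_of_sq_le_sq _ hW0
    refine le_trans ?_ hW2
    exact Finset.single_le_sum (f := fun a => w a ^ 2) (fun b _ => sq_nonneg _) (Finset.mem_univ a)
  · intro i hi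
    apply abs_le_of_sq_le_sq _ hW0
    refine le_trans ?_ hW2
    have h1 : (∑ b, w b * v i b) ^ 2 ≤ (∑ b, w b ^ 2) * ∑ b, v i b ^ 2 :=
      Finset.sum_mul_sq_le_sq_mul_sq _ _ _
    refine h1.trans ?_
    have h2 : 0 ≤ ∑ b, w b ^ 2 := Finset.sum_nonneg fun b _ => sq_nonneg _
    calc (∑ b, w b ^ 2) * ∑ b, v i b ^ 2 ≤ (∑ b, w b ^ 2) * 1 :=
          mul_le_mul_of_nonneg_left (hv i hi) h2
      _ = _ := by ring

/-- The drift caused in a poor direction `a`. -/
theorem drift_bound {ι : Type*} {d : ℕ} (O : Finset ι) (v : ι → Fin d → ℝ)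
    (rich : Finset (Fin d)) (m g : Fin d → ℝ) (Λ σ T1 A θ : ℝ) (hΛ : 0 < Λ) (hσ : 0 ≤ σ)
    (hT1 : 0 ≤ T1) (hA : 0 ≤ A) (hθ : 0 ≤ θ)
    (w : Fin d → ℝ) (hw0 : ∀ a, a ∉ rich → w a = 0)
    (hw1 : ∑ a, m a * w a ^ 2 ≤ 4 * d * T1 ^ 2 * σ ^ 2 / Λ)
    (hw2 : ∀ a, |w a| ≤ 2 * d * T1 * σ ^ 2 / Λ)
    (hm : ∀ a, 0 ≤ m a) (hg0 : ∀ a, 0 ≤ g a) (hg : ∀ a ∈ rich, g a ≤ 2 * m a) (a : Fin d)
    (hga : g a ≤ 2 * Λ)
    (hM : ∀ b ∈ rich, |∑ i ∈ O, v i a * v i b| ≤ A + θ * Real.sqrt (g a * g b)) :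
    |∑ i ∈ O, (∑ b, w b * v i b) * v i a|
      ≤ d * (A * (2 * d * T1 * σ ^ 2 / Λ) + θ * (4 * d * T1 * σ)) := by
  classical
  have hd1 : (1 : ℝ) ≤ d := by
    have : 1 ≤ d := by
      have := a.isLt
      omega
    exact_mod_cast this
  have h1 : ∑ i ∈ O, (∑ b, w b * v i b) * v i a =
      ∑ b ∈ rich, w b * ∑ i ∈ O, v i a * v i b := by
    have h2 : ∀ i ∈ O, (∑ b, w b * v i b) * v i a = ∑ b ∈ rich, w b * (v i a * v i b) := by
      intro i _
      have h3 : ∑ b, w b * v i b = ∑ b ∈ rich, w b * v i b := by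
        symm
        apply Finset.sum_subset (Finset.subset_univ _)
        intro b _ hb
        rw [hw0 b hb]; ring
      rw [h3, Finset.sum_mul]
      refine Finset.sum_congr rfl fun b _ => by ring
    rw [Finset.sum_congr rfl h2, Finset.sum_comm]
    refine Finset.sum_congr rfl fun b _ => ?_
    rw [Finset.mul_sum]
  rw [h1]
  set W : ℝ := 2 * d * T1 * σ ^ 2 / Λ with hW
  have hW0 : 0 ≤ W := by rw [hW]; positivity
  have hcard : (rich.card : ℝ) ≤ d := by
    have := Finset.card_le_univ rich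
    rw [Fintype.card_fin] at this
    exact_mod_cast this
  have h2 : |∑ b ∈ rich, w b * ∑ i ∈ O, v i a * v i b| ≤
      ∑ b ∈ rich, (W * A + θ * (2 * Real.sqrt Λ * (Real.sqrt (m b) * |w b|))) := by
    refine (Finset.abs_sum_le_sum_abs _ _).trans (Finset.sum_le_sum fun b hb => ?_)
    rw [abs_mul]
    have h3 : |w b| * |∑ i ∈ O, v i a * v i b| ≤ |w b| * (A + θ * Real.sqrt (g a * g b)) :=
      mul_le_mul_of_nonneg_left (hM b hb) (abs_nonneg _)
    refine h3.trans ?_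
    have h4 : |w b| * A ≤ W * A := mul_le_mul_of_nonneg_right (hw2 b) hA
    have h5 : Real.sqrt (g a * g b) ≤ 2 * Real.sqrt Λ * Real.sqrt (m b) := by
      have h6 : g a * g b ≤ (2 * Λ) * (2 * m b) :=
        mul_le_mul hga (hg b hb) (hg0 b) (by positivity)
      have h7 : (2 * Λ) * (2 * m b) = (2 * Real.sqrt Λ * Real.sqrt (m b)) ^ 2 := by
        rw [mul_pow, mul_pow, Real.sq_sqrt hΛ.le, Real.sq_sqrt (hm b)]
        ring
      rw [h7] at h6
      calc Real.sqrt (g a * g b) ≤ Real.sqrt ((2 * Real.sqrt Λ * Real.sqrt (m b)) ^ 2) :=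
            Real.sqrt_le_sqrt h6
        _ = _ := Real.sqrt_sq (by positivity)
    have h8 : |w b| * (θ * Real.sqrt (g a * g b)) ≤
        |w b| * (θ * (2 * Real.sqrt Λ * Real.sqrt (m b))) :=
      mul_le_mul_of_nonneg_left (mul_le_mul_of_nonneg_left h5 hθ) (abs_nonneg _)
    have h9 : |w b| * (θ * (2 * Real.sqrt Λ * Real.sqrt (m b))) =
        θ * (2 * Real.sqrt Λ * (Real.sqrt (m b) * |w b|)) := by ring
    rw [mul_add]
    linarith
  refine h2.trans ?_
  rw [Finset.sum_add_distrib, Finset.sum_const, nsmul_eq_mul, ← Finset.mul_sum, ← Finset.mul_sum]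
  have h3 : (rich.card : ℝ) * (W * A) ≤ d * (W * A) :=
    mul_le_mul_of_nonneg_right hcard (mul_nonneg hW0 hA)
  -- Cauchy-Schwarz
  have h4 : ∑ b ∈ rich, Real.sqrt (m b) * |w b| ≤ 2 * d * T1 * σ / Real.sqrt Λ := by
    have hsΛ : 0 < Real.sqrt Λ := Real.sqrt_pos.mpr hΛ
    apply le_of_sq_le_sq _ (by positivity)
    have h5 : (∑ b ∈ rich, Real.sqrt (m b) * |w b|) ^ 2 ≤ (rich.card : ℝ) *
        ∑ b ∈ rich, m b * w b ^ 2 := by
      refine (sq_sum_le_card_mul_sum_sq).trans (le_of_eq ?_)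
      congr 1
      refine Finset.sum_congr rfl fun b _ => ?_
      rw [mul_pow, Real.sq_sqrt (hm b), sq_abs]
    have h6 : ∑ b ∈ rich, m b * w b ^ 2 ≤ 4 * d * T1 ^ 2 * σ ^ 2 / Λ := by
      refine le_trans ?_ hw1
      exact Finset.sum_le_sum_of_subset_of_nonneg (Finset.subset_univ _)
        fun b _ _ => mul_nonneg (hm b) (sq_nonneg _)
    have h7 : 0 ≤ ∑ b ∈ rich, m b * w b ^ 2 :=
      Finset.sum_nonneg fun b _ => mul_nonneg (hm b) (sq_nonneg _)
    calc (∑ b ∈ rich, Real.sqrt (m b) * |w b|) ^ 2 ≤ (rich.card : ℝ) *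
          ∑ b ∈ rich, m b * w b ^ 2 := h5
      _ ≤ d * (4 * d * T1 ^ 2 * σ ^ 2 / Λ) := mul_le_mul hcard h6 h7 (by positivity)
      _ = (2 * d * T1 * σ / Real.sqrt Λ) ^ 2 := by
          rw [div_pow, Real.sq_sqrt hΛ.le]
          ring
  have h5 : 2 * Real.sqrt Λ * ∑ b ∈ rich, Real.sqrt (m b) * |w b| ≤ 4 * d * T1 * σ := by
    have hsΛ : 0 < Real.sqrt Λ := Real.sqrt_pos.mpr hΛ
    calc 2 * Real.sqrt Λ * ∑ b ∈ rich, Real.sqrt (m b) * |w b|
        ≤ 2 * Real.sqrt Λ * (2 * d * T1 * σ / Real.sqrt Λ) :=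
          mul_le_mul_of_nonneg_left h4 (by positivity)
      _ = 4 * d * T1 * σ := by
          field_simp
          ring
  have h6 : θ * (2 * Real.sqrt Λ * ∑ b ∈ rich, Real.sqrt (m b) * |w b|) ≤
      θ * (4 * d * T1 * σ) := mul_le_mul_of_nonneg_left h5 hθ
  have h7 : θ * (4 * d * T1 * σ) ≤ d * (θ * (4 * d * T1 * σ)) :=
    le_mul_of_one_le_left (by positivity) hd1
  have h8 : d * (A * W + θ * (4 * d * T1 * σ)) = d * (W * A) + d * (θ * (4 * d * T1 * σ)) := by
    ring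
  rw [h8]
  linarith

end P262
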