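import Mathlib

/-! P262, module B: Beck–Fiala stage (hard functionals exact, disjoint classes within 6). -/

namespace P262

open Finset

/-- Moving along `y` until the first coordinate becomes integral. -/
theorem move_boundary {ι : Type*} [Fintype ι] (x y : ι → ℝ) (hx : ∀ i, |x i| ≤ 1)
    (hy : ∃ i, y i ≠ 0) (hsupp : ∀ i, y i ≠ 0 → |x i| ≠ 1) :
    ∃ s : ℝ, 0 < s ∧ (∀ i, |x i + s * y i| ≤ 1) ∧ ∃ i, y i ≠ 0 ∧ |x i + s * y i| = 1 := by
  classical
  set S : Finset ι := univ.filter (fun i => y i ≠ 0) with hS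
  have hSne : S.Nonempty := by
    obtain ⟨i, hi⟩ := hy
    exact ⟨i, by simp [hS, hi]⟩
  set f : ι → ℝ := fun i => if 0 < y i then (1 - x i) / y i else (1 + x i) / (-y i) with hf
  obtain ⟨i0, hi0, hmin⟩ := S.exists_min_image f hSne
  have hlt : ∀ i, y i ≠ 0 → -1 < x i ∧ x i < 1 := by
    intro i hi
    have h1 := lt_of_le_of_ne (hx i) (hsupp i hi)
    exact abs_lt.1 h1
  have hfpos : ∀ i, y i ≠ 0 → 0 < f i := by
    intro i hi
    obtain ⟨h1, h2⟩ := hlt i hi
    simp only [hf]
    split_ifs with h
    · exact div_pos (by linarith) h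
    · have : y i < 0 := lt_of_le_of_ne (not_lt.1 h) hi
      exact div_pos (by linarith) (by linarith)
  have hi0' : y i0 ≠ 0 := by simpa [hS] using hi0
  have key : ∀ i, y i ≠ 0 → ∀ s : ℝ, 0 ≤ s → s ≤ f i → |x i + s * y i| ≤ 1 := by
    intro i hi s hs0 hs
    obtain ⟨h1, h2⟩ := hlt i hi
    simp only [hf] at hs
    split_ifs at hs with h
    · rw [le_div_iff₀ h] at hs
      rw [abs_le]
      constructor
      · nlinarith [mul_nonneg hs0 h.le]
      · linarith
    · have h3 : 0 < -y i := by
        have : y i < 0 := lt_of_le_of_ne (not_lt.1 h) hi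
        linarith
      rw [le_div_iff₀ h3] at hs
      rw [abs_le]
      constructor
      · nlinarith
      · nlinarith [mul_nonneg hs0 h3.le]
  refine ⟨f i0, hfpos i0 hi0', ?_, i0, hi0', ?_⟩
  · intro i
    by_cases hi : y i = 0
    · simpa [hi] using hx i
    · exact key i hi _ (hfpos i0 hi0').le (hmin i (by simp [hS, hi]))
  · simp only [hf]
    split_ifs with h
    · have : x i0 + (1 - x i0) / y i0 * y i0 = 1 := by
        rw [div_mul_cancel₀ _ hi0']; ring
      rw [this]; simp
    · have h4 : x i0 + (1 + x i0) / (-y i0) * y i0 = -1 := by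
        have h5 : -y i0 ≠ 0 := neg_ne_zero.2 hi0'
        field_simp
        ring
      rw [h4]; simp

/-- A nonzero vector supported on `Fr` in the kernel of fewer than `#Fr` functionals. -/
theorem exists_kernel {ι : Type*} [Fintype ι] [DecidableEq ι] {K : Type*} [Fintype K]
    (A : K → ι → ℝ) (Fr : Finset ι) (h : Fintype.card K < Fr.card) :
    ∃ y : ι → ℝ, (∃ i, y i ≠ 0) ∧ (∀ i, i ∉ Fr → y i = 0) ∧ ∀ k, ∑ i, y i * A k i = 0 := by
  classical
  let L : (Fr → ℝ) →ₗ[ℝ] (K → ℝ) :=
    { toFun := fun z k => ∑ i : Fr, z i * A k i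
      map_add' := by
        intro z w; funext k; simp [add_mul, Finset.sum_add_distrib]
      map_smul' := by
        intro c z; funext k; simp [Finset.mul_sum, mul_assoc] }
  have hker : LinearMap.ker L ≠ ⊥ := by
    apply LinearMap.ker_ne_bot_of_finrank_lt
    simpa using h
  obtain ⟨z, hz, hz0⟩ := (Submodule.ne_bot_iff _).1 hker
  refine ⟨fun i => if hi : i ∈ Fr then z ⟨i, hi⟩ else 0, ?_, ?_, ?_⟩
  · by_contra hcon
    push Not at hcon
    apply hz0
    funext i
    have := hcon i.1
    simpa [i.2] using this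
  · intro i hi
    simp [hi]
  · intro k
    have h1 : L z k = 0 := by
      rw [LinearMap.mem_ker.1 hz]; rfl
    have h2 : L z k = ∑ i : Fr, z i * A k i := rfl
    rw [h2] at h1
    have h3 : ∑ i, (if hi : i ∈ Fr then z ⟨i, hi⟩ else 0) * A k i
        = ∑ i ∈ Fr, (if hi : i ∈ Fr then z ⟨i, hi⟩ else 0) * A k i := by
      refine (Finset.sum_subset (subset_univ _) ?_).symm
      intro i _ hi
      simp [hi]
    show ∑ i, (if hi : i ∈ Fr then z ⟨i, hi⟩ else 0) * A k i = 0
    rw [h3, ← Finset.sum_coe_sort Fr, ← h1]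
    refine Finset.sum_congr rfl fun i _ => ?_
    simp

theorem stage1 {ι : Type*} [Fintype ι] [DecidableEq ι] {H : Type*} [Fintype H]
    (F : H → ι → ℝ) (cl : ι → ℕ) (x0 : ι → ℝ) (hx0 : ∀ i, |x0 i| ≤ 1) :
    ∃ x1 : ι → ℝ, (∀ i, |x1 i| ≤ 1) ∧ (∀ i, |x0 i| = 1 → x1 i = x0 i) ∧
      (∀ g, ∑ i, (x1 i - x0 i) * F g i = 0) ∧
      (∀ t, |∑ i ∈ univ.filter (fun i => cl i = t), (x1 i - x0 i)| ≤ 6) ∧
      (univ.filter (fun i => |x1 i| ≠ 1)).card ≤ 2 * Fintype.card H := by
  classical
  induction hn : (univ.filter (fun i => |x0 i| ≠ 1)).card using Nat.strong_induction_on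
    generalizing x0 with
  | _ n IH =>
  set Fr : Finset ι := univ.filter (fun i => |x0 i| ≠ 1) with hFr
  have hmem : ∀ i, i ∈ Fr ↔ |x0 i| ≠ 1 := by intro i; simp [hFr]
  by_cases hsmall : Fr.card ≤ 2 * Fintype.card H
  · exact ⟨x0, hx0, fun _ _ => rfl, by simp, by simp, hsmall⟩
  · push Not at hsmall
    set T : Finset ℕ := (Fr.image cl).filter (fun t => 4 ≤ (Fr.filter (fun i => cl i = t)).card)
      with hT
    have hTcard : 4 * T.card ≤ Fr.card := by
      calc 4 * T.card = ∑ _t ∈ T, 4 := by simp [mul_comm]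
        _ ≤ ∑ t ∈ T, (Fr.filter (fun i => cl i = t)).card := by
            refine Finset.sum_le_sum fun t ht => ?_
            exact (Finset.mem_filter.1 ht).2
        _ ≤ ∑ t ∈ Fr.image cl, (Fr.filter (fun i => cl i = t)).card :=
            Finset.sum_le_sum_of_subset (Finset.filter_subset _ _)
        _ = Fr.card := (Finset.card_eq_sum_card_image cl Fr).symm
    have hK : Fintype.card (H ⊕ T) < Fr.card := by
      rw [Fintype.card_sum, Fintype.card_coe]
      omega
    obtain ⟨y, hy0, hysupp, hyk⟩ := exists_kernel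
      (Sum.elim F (fun (t : T) i => if cl i = (t : ℕ) then (1 : ℝ) else 0)) Fr hK
    have hyF : ∀ g, ∑ i, y i * F g i = 0 := fun g => hyk (Sum.inl g)
    have hyT : ∀ t ∈ T, ∑ i ∈ univ.filter (fun i => cl i = t), y i = 0 := by
      intro t ht
      have h1 := hyk (Sum.inr ⟨t, ht⟩)
      simp only [Sum.elim_inr, mul_ite, mul_one, mul_zero] at h1
      rw [Finset.sum_filter]
      exact h1
    have hyfr : ∀ i, y i ≠ 0 → |x0 i| ≠ 1 := by
      intro i hi
      rw [← hmem]
      by_contra hcon
      exact hi (hysupp i hcon)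
    obtain ⟨s, _, hs1, i0, hi0, hi01⟩ := move_boundary x0 y hx0 hy0 hyfr
    set x' : ι → ℝ := fun i => x0 i + s * y i with hx'
    have hsame : ∀ i, |x0 i| = 1 → x' i = x0 i := by
      intro i hi
      have : y i = 0 := by
        by_contra hcon
        exact hyfr i hcon hi
      simp [hx', this]
    have hlt : (univ.filter (fun i => |x' i| ≠ 1)).card < n := by
      rw [← hn]
      apply Finset.card_lt_card
      rw [Finset.ssubset_iff_of_subset]
      · refine ⟨i0, (hmem i0).2 (hyfr i0 hi0), ?_⟩
        simp [hx', hi01]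
      · intro i hi
        rw [hmem]
        intro hcon
        have h1 : |x' i| ≠ 1 := by simpa using hi
        rw [hsame i hcon] at h1
        exact h1 hcon
    obtain ⟨x1, h1, h2, h3, h4, h5⟩ := IH _ hlt x' hs1 rfl
    have hx1same : ∀ i, |x0 i| = 1 → x1 i = x0 i := by
      intro i hi
      have e1 := hsame i hi
      rw [h2 i (by rw [e1]; exact hi), e1]
    refine ⟨x1, h1, hx1same, ?_, ?_, h5⟩
    · intro g
      have e : ∀ i, (x1 i - x0 i) * F g i = (x1 i - x' i) * F g i + s * (y i * F g i) := by
        intro i; simp only [hx']; ring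
      rw [Finset.sum_congr rfl fun i _ => e i, Finset.sum_add_distrib, h3 g, ← Finset.mul_sum,
        hyF g]
      simp
    · intro t
      by_cases hlive : 4 ≤ (Fr.filter (fun i => cl i = t)).card
      · have ht : t ∈ T := by
          rw [hT, Finset.mem_filter]
          refine ⟨?_, hlive⟩
          have : (Fr.filter (fun i => cl i = t)).Nonempty := by
            rw [← Finset.card_pos]; omega
          obtain ⟨i, hi⟩ := this
          rw [Finset.mem_filter] at hi
          exact Finset.mem_image.2 ⟨i, hi.1, hi.2⟩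
        have e : ∀ i, (x1 i - x0 i) = (x1 i - x' i) + s * y i := by
          intro i; simp only [hx']; ring
        rw [Finset.sum_congr rfl fun i _ => e i, Finset.sum_add_distrib, ← Finset.mul_sum,
          hyT t ht]
        simpa using h4 t
      · push Not at hlive
        have e : ∑ i ∈ univ.filter (fun i => cl i = t), (x1 i - x0 i)
            = ∑ i ∈ Fr.filter (fun i => cl i = t), (x1 i - x0 i) := by
          symm
          apply Finset.sum_subset
          · intro i hi
            rw [Finset.mem_filter] at hi ⊢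
            exact ⟨mem_univ _, hi.2⟩
          · intro i hi hi2
            rw [Finset.mem_filter] at hi hi2
            have h6 : i ∉ Fr := fun h => hi2 ⟨h, hi.2⟩
            rw [hmem, not_not] at h6
            rw [hx1same i h6, sub_self]
        rw [e]
        calc |∑ i ∈ Fr.filter (fun i => cl i = t), (x1 i - x0 i)|
            ≤ ∑ i ∈ Fr.filter (fun i => cl i = t), |x1 i - x0 i| :=
              Finset.abs_sum_le_sum_abs _ _
          _ ≤ ∑ _i ∈ Fr.filter (fun i => cl i = t), (2 : ℝ) := by
              refine Finset.sum_le_sum fun i _ => ?_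
              have a1 := abs_le.1 (h1 i)
              have a2 := abs_le.1 (hx0 i)
              rw [abs_le]
              constructor <;> linarith [a1.1, a1.2, a2.1, a2.2]
          _ = 2 * ((Fr.filter (fun i => cl i = t)).card : ℝ) := by
              rw [Finset.sum_const, nsmul_eq_mul, mul_comm]
          _ ≤ 6 := by
              have : ((Fr.filter (fun i => cl i = t)).card : ℝ) ≤ 3 := by
                exact_mod_cast Nat.lt_succ_iff.1 hlive
              linarith

end P262
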