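import Mathlib
import Vale.Agent.P262.Defs

/-! P262: every zero-sum family in the unit ball is, up to a rotation and a permutation, the
family of a `Sys`. -/

namespace P262

open Finset

/-- harmonic weights -/
theorem sum_inv_rank_le {ι : Type*} [DecidableEq ι] (s : Finset ι) (f : ι → ℕ) :
    ∑ a ∈ s, (1 : ℝ) / ((s.filter (fun b => f b ≤ f a)).card : ℝ) ≤ 1 + Real.log s.card := by
  have key : ∀ n : ℕ, ∀ s : Finset ι, s.card = n →
      ∑ a ∈ s, (1 : ℝ) / ((s.filter (fun b => f b ≤ f a)).card : ℝ) ≤ (harmonic n : ℝ) := by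
    intro n
    induction n with
    | zero =>
      intro s hs
      rw [Finset.card_eq_zero] at hs
      simp [hs]
    | succ n ih =>
      intro s hs
      have hne : s.Nonempty := by rw [← Finset.card_pos]; omega
      obtain ⟨m, hm, hmax⟩ := s.exists_max_image f hne
      have hcard : (s.erase m).card = n := by rw [Finset.card_erase_of_mem hm]; omega
      have h1 := ih (s.erase m) hcard
      rw [← Finset.add_sum_erase s _ hm, harmonic_succ]
      have h2 : s.filter (fun b => f b ≤ f m) = s := by
        rw [Finset.filter_eq_self]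
        exact fun b hb => hmax b hb
      rw [h2, hs]
      push_cast
      have h3 : ∑ a ∈ s.erase m, (1 : ℝ) / ((s.filter (fun b => f b ≤ f a)).card : ℝ)
          ≤ ∑ a ∈ s.erase m, (1 : ℝ) / (((s.erase m).filter (fun b => f b ≤ f a)).card : ℝ) := by
        refine Finset.sum_le_sum fun a ha => ?_
        have hpos : 0 < (((s.erase m).filter (fun b => f b ≤ f a)).card : ℝ) := by
          have : a ∈ (s.erase m).filter (fun b => f b ≤ f a) :=
            Finset.mem_filter.2 ⟨ha, le_refl _⟩
          exact_mod_cast Finset.card_pos.2 ⟨a, this⟩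
        refine one_div_le_one_div_of_le hpos ?_
        exact_mod_cast Finset.card_le_card
          (Finset.filter_subset_filter _ (Finset.erase_subset m s))
      have h4 : (1 : ℝ) / (n + 1) = ((n : ℝ) + 1)⁻¹ := one_div _
      linarith
  exact (key _ s rfl).trans (harmonic_le_one_add_log _)

/-- Main reduction: for a zero-sum family in the unit ball of `EuclideanSpace ℝ (Fin d)` there are a
system `S`, a permutation `σ` and a linear isometry `e` with `S.v (σ i) = e (w i)`. -/
theorem exists_sys {d N : ℕ} (hd : 1 ≤ d) (w : Fin N → EuclideanSpace ℝ (Fin d))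
    (hw : ∀ i, ‖w i‖ ≤ 1) (h0 : ∑ i, w i = 0) :
    ∃ (S : Sys d N) (σ : Equiv.Perm (Fin N))
      (e : EuclideanSpace ℝ (Fin d) ≃ₗᵢ[ℝ] EuclideanSpace ℝ (Fin d)),
      ∀ i a, S.v i a = e (w (σ i)) a := by
  classical
  -- the covariance operator
  let T : EuclideanSpace ℝ (Fin d) →ₗ[ℝ] EuclideanSpace ℝ (Fin d) :=
    { toFun := fun x => ∑ i, (inner ℝ (w i) x) • w i
      map_add' := fun x y => by
        simp only [inner_add_right, add_smul, Finset.sum_add_distrib]
      map_smul' := fun c x => by
        simp only [inner_smul_right, RingHom.id_apply, Finset.smul_sum, smul_smul] }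
  have hTapp : ∀ x, T x = ∑ i, (inner ℝ (w i) x) • w i := fun x => rfl
  have hT : T.IsSymmetric := by
    intro x y
    rw [hTapp, hTapp, sum_inner, inner_sum]
    refine Finset.sum_congr rfl fun i _ => ?_
    rw [real_inner_smul_left, real_inner_smul_right, real_inner_comm (w i) x]
    ring
  have hfin : Module.finrank ℝ (EuclideanSpace ℝ (Fin d)) = d := by simp
  let B := hT.eigenvectorBasis hfin
  let e : EuclideanSpace ℝ (Fin d) ≃ₗᵢ[ℝ] EuclideanSpace ℝ (Fin d) := B.repr
  have he : ∀ x a, e x a = inner ℝ (B a) x := fun x a => B.repr_apply_apply x a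
  set μ : Fin d → ℝ := fun a => ∑ i, (e (w i) a) ^ 2 with hμ
  have hgram : ∀ a b, ∑ i, e (w i) a * e (w i) b = if a = b then μ a else 0 := by
    intro a b
    by_cases hab : a = b
    · subst hab
      rw [if_pos rfl, hμ]
      exact Finset.sum_congr rfl fun i _ => by ring
    · rw [if_neg hab]
      have h1 : ∑ i, e (w i) a * e (w i) b = inner ℝ (B a) (T (B b)) := by
        rw [hTapp, inner_sum]
        refine Finset.sum_congr rfl fun i _ => ?_
        rw [real_inner_smul_right, he, he, real_inner_comm (B b) (w i)]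
        ring
      rw [h1, hT.apply_eigenvectorBasis hfin b, real_inner_smul_right]
      have h2 : inner ℝ (B a) (B b) = (0 : ℝ) := B.orthonormal.2 hab
      show _ * inner ℝ (B a) (B b) = 0
      rw [h2, mul_zero]
  have hμ0 : ∀ a, 0 ≤ μ a := fun a => Finset.sum_nonneg fun i _ => sq_nonneg _
  have hle : ∀ i a, (e (w i) a) ^ 2 ≤ μ a := fun i a =>
    Finset.single_le_sum (f := fun i => (e (w i) a) ^ 2) (fun i _ => sq_nonneg _)
      (Finset.mem_univ i)
  -- special levels
  let C : Fin N → ℕ → Prop := fun i t => ∀ a, (e (w i) a) ^ 2 * 2 ^ t ≤ 2 * μ a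
  have hC0 : ∀ i, C i 0 := by
    intro i a
    have := hle i a
    have := hμ0 a
    rw [pow_zero, mul_one]
    linarith
  let kk' : Fin N → ℕ := fun i => Nat.findGreatest (C i) N
  have hkC : ∀ i, C i (kk' i) := fun i => Nat.findGreatest_spec (P := C i) (Nat.zero_le N) (hC0 i)
  have hkN : ∀ i, kk' i ≤ N := fun i => Nat.findGreatest_le N
  have hkG : ∀ i, kk' i < N → ¬ C i (kk' i + 1) := fun i hi =>
    Nat.findGreatest_is_greatest (P := C i) (Nat.lt_succ_self _) hi
  let σ : Equiv.Perm (Fin N) := Tuple.sort kk'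
  have hmono : Monotone (kk' ∘ σ) := Tuple.monotone_sort kk'
  -- activation levels
  have hlam : 0 < lam d ^ 2 := by
    have : (0 : ℝ) < d := by exact_mod_cast hd
    unfold lam
    positivity
  have hex : ∀ a, ∃ k : ℕ, μ a < lam d ^ 2 * 2 ^ k := by
    intro a
    obtain ⟨k, hk⟩ := pow_unbounded_of_one_lt (μ a / lam d ^ 2) (one_lt_two : (1 : ℝ) < 2)
    refine ⟨k, ?_⟩
    rw [div_lt_iff₀ hlam] at hk
    linarith
  let ka : Fin d → ℕ := fun a => Nat.find (hex a)
  have hd0 : (1 : ℝ) ≤ d := by exact_mod_cast hd
  refine ⟨{ v := fun i a => e (w (σ i)) a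
            μ := μ
            kk := kk' ∘ σ
            ka := ka
            hd := hd
            norm_le := fun i => ?_
            gram := fun a b => ?_
            mono := hmono
            big := fun i a => hkC (σ i) a
            cnt := fun t => ?_
            sum_zero := fun a => ?_
            ka_lt := fun a => Nat.find_spec (hex a)
            ka_le := fun a k hk => ?_ }, σ, e, fun i a => rfl⟩
  · -- norm
    have h1 : ∑ a, (e (w (σ i)) a) ^ 2 = ‖w (σ i)‖ ^ 2 := by
      rw [← e.norm_map, EuclideanSpace.norm_sq_eq]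
      exact Finset.sum_congr rfl fun a _ => by rw [Real.norm_eq_abs, sq_abs]
    rw [h1]
    have := hw (σ i)
    have h0 := norm_nonneg (w (σ i))
    nlinarith
  · -- gram
    rw [← hgram a b]
    exact Equiv.sum_comp σ (fun i => e (w i) a * e (w i) b)
  · -- cnt
    have h1 : (univ.filter (fun i => (kk' ∘ σ) i = t)).card
        = (univ.filter (fun i => kk' i = t)).card := by
      refine Finset.card_bij (fun i _ => σ i) (fun i hi => ?_) (fun i _ j _ h => σ.injective h)
        (fun j hj => ⟨σ.symm j, ?_, σ.apply_symm_apply j⟩)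
      · rw [Finset.mem_filter] at hi ⊢
        exact ⟨Finset.mem_univ _, hi.2⟩
      · rw [Finset.mem_filter] at hj ⊢
        refine ⟨Finset.mem_univ _, ?_⟩
        rw [Function.comp_apply, σ.apply_symm_apply]
        exact hj.2
    rw [h1]
    rcases Nat.lt_or_ge t N with ht | ht
    · -- t < N
      have hsub : univ.filter (fun i => kk' i = t)
          ⊆ univ.biUnion (fun a : Fin d => univ.filter
            (fun i => μ a < (e (w i) a) ^ 2 * 2 ^ t)) := by
        intro i hi
        rw [Finset.mem_filter] at hi
        have h2 := hkG i (by rw [hi.2]; exact ht)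
        rw [hi.2] at h2
        have h3 : ∃ a, ¬ ((e (w i) a) ^ 2 * 2 ^ (t + 1) ≤ 2 * μ a) := by
          by_contra hcon
          push Not at hcon
          exact h2 hcon
        obtain ⟨a, ha⟩ := h3
        rw [Finset.mem_biUnion]
        refine ⟨a, Finset.mem_univ _, Finset.mem_filter.2 ⟨Finset.mem_univ _, ?_⟩⟩
        have e1 : (2 : ℝ) ^ (t + 1) = 2 ^ t * 2 := pow_succ 2 t
        rw [not_le, e1] at ha
        linarith
      have hone : ∀ a : Fin d, ((univ.filter
            (fun i => μ a < (e (w i) a) ^ 2 * 2 ^ t)).card : ℝ) ≤ 2 ^ t := by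
        intro a
        set A := univ.filter (fun i => μ a < (e (w i) a) ^ 2 * 2 ^ t) with hA
        by_contra hcon
        rw [not_le] at hcon
        have h4 : ∑ i ∈ A, μ a ≤ ∑ i ∈ A, (e (w i) a) ^ 2 * 2 ^ t :=
          Finset.sum_le_sum fun i hi => (Finset.mem_filter.1 hi).2.le
        have h5 : ∑ i ∈ A, (e (w i) a) ^ 2 * 2 ^ t ≤ μ a * 2 ^ t := by
          rw [← Finset.sum_mul]
          refine mul_le_mul_of_nonneg_right ?_ (by positivity)
          exact Finset.sum_le_univ_sum_of_nonneg fun i => sq_nonneg _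
        rw [Finset.sum_const, nsmul_eq_mul] at h4
        have hApos : 0 < A.card := by
          have : (0 : ℝ) < A.card := lt_trans (by positivity) hcon
          exact_mod_cast this
        obtain ⟨i, hi⟩ := Finset.card_pos.1 hApos
        have h6 := (Finset.mem_filter.1 hi).2
        have hμpos : 0 < μ a := by
          rcases (hμ0 a).lt_or_eq with h | h
          · exact h
          · exfalso
            have h7 := hle i a
            rw [← h] at h6 h7
            have h8 : (e (w i) a) ^ 2 = 0 := le_antisymm h7 (sq_nonneg _)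
            rw [h8, zero_mul] at h6
            exact lt_irrefl _ h6
        have h9 : (A.card : ℝ) * μ a ≤ μ a * 2 ^ t := h4.trans h5
        nlinarith
      calc ((univ.filter (fun i => kk' i = t)).card : ℝ)
          ≤ ((univ.biUnion (fun a : Fin d => univ.filter
            (fun i => μ a < (e (w i) a) ^ 2 * 2 ^ t))).card : ℝ) := by
            exact_mod_cast Finset.card_le_card hsub
        _ ≤ ∑ a : Fin d, ((univ.filter
            (fun i => μ a < (e (w i) a) ^ 2 * 2 ^ t)).card : ℝ) := by
            exact_mod_cast Finset.card_biUnion_le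
        _ ≤ ∑ _a : Fin d, (2 : ℝ) ^ t := Finset.sum_le_sum fun a _ => hone a
        _ = d * 2 ^ t := by simp
    · -- N ≤ t
      have h2 : (univ.filter (fun i => kk' i = t)).card ≤ N := by
        refine (Finset.card_filter_le _ _).trans ?_
        simp
      have h3 : (N : ℝ) ≤ 2 ^ t := by
        have h4 : N < 2 ^ N := Nat.lt_two_pow_self
        have h5 : 2 ^ N ≤ 2 ^ t := Nat.pow_le_pow_right (by norm_num) ht
        exact_mod_cast (h4.le.trans h5)
      calc ((univ.filter (fun i => kk' i = t)).card : ℝ) ≤ N := by exact_mod_cast h2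
        _ ≤ 2 ^ t := h3
        _ ≤ d * 2 ^ t := le_mul_of_one_le_left (by positivity) hd0
  · -- sum zero
    have h1 : ∑ i, e (w (σ i)) a = ∑ i, e (w i) a := Equiv.sum_comp σ (fun i => e (w i) a)
    rw [h1]
    have h2 : ∑ i, e (w i) a = e (∑ i, w i) a := by
      rw [map_sum]
      simp
    rw [h2, h0, map_zero]
    rfl
  · -- ka_le
    have hpos : 0 < ka a := lt_of_le_of_lt (Nat.zero_le _) hk
    have h1 : ¬ (μ a < lam d ^ 2 * 2 ^ (ka a - 1)) := Nat.find_min (hex a) (by
      show ka a - 1 < ka a
      omega)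
    rw [not_lt] at h1
    have h2 : (2 : ℝ) ^ (ka a) = 2 * 2 ^ (ka a - 1) := by
      rw [← pow_succ']
      congr 1
      omega
    rw [h2]
    nlinarith

end P262
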