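import Mathlib
import Vale.Agent.P262.Setup

/-! P262: the weights used in the rounding. -/

namespace P262

open Finset

theorem weights_lemma {d : ℕ} (hd : 1 ≤ d) (ka : Fin d → ℕ) (L k : ℕ) :
    ∃ α : Fin d → ℝ, (∀ a, 0 ≤ α a) ∧ ∀ z : Fin d → ℝ,
      ∑ a, α a * z a ^ 2 ≤ 16 * ∑ a, α a →
      (∑ a ∈ univ.filter (fun a => ka a ≤ k ∧ k < ka a + L), z a ^ 2
        ≤ 32 * ((univ.filter (fun a => ka a ≤ k ∧ k < ka a + L)).card : ℝ)) ∧
      (∀ t, ∑ a ∈ univ.filter (fun a => k < ka a ∧ ka a ≤ t), z a ^ 2
        ≤ 32 * (1 + Real.log d) * ((univ.filter (fun a => k < ka a ∧ ka a ≤ t)).card : ℝ)) := by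
  classical
  have hd1 : (1 : ℝ) ≤ d := by exact_mod_cast hd
  set ℓ : ℝ := 1 + Real.log d with hℓ
  have hℓ1 : 1 ≤ ℓ := by
    have := Real.log_nonneg hd1
    linarith
  set A : Finset (Fin d) := univ.filter (fun a => ka a ≤ k ∧ k < ka a + L) with hA
  set Rr : Finset (Fin d) := univ.filter (fun a => k < ka a) with hRr
  set β : Fin d → ℝ := fun a => if a ∈ A then ℓ / (A.card : ℝ) else 0 with hβ
  set γ : Fin d → ℝ := fun a =>
    if a ∈ Rr then 1 / ((Rr.filter (fun b => ka b ≤ ka a)).card : ℝ) else 0 with hγ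
  have hβ0 : ∀ a, 0 ≤ β a := by
    intro a; simp only [hβ]; split_ifs
    · positivity
    · exact le_rfl
  have hγ0 : ∀ a, 0 ≤ γ a := by
    intro a; simp only [hγ]; split_ifs
    · positivity
    · exact le_rfl
  have hβs : ∑ a, β a ≤ ℓ := by
    simp only [hβ]
    rw [← Finset.sum_filter, Finset.filter_mem_eq_inter, Finset.univ_inter, Finset.sum_const,
      nsmul_eq_mul]
    rcases Nat.eq_zero_or_pos A.card with h | h
    · rw [h]; simp; linarith
    · have : (A.card : ℝ) ≠ 0 := by positivity
      rw [mul_div_cancel₀ _ this]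
  have hγs : ∑ a, γ a ≤ ℓ := by
    simp only [hγ]
    rw [← Finset.sum_filter, Finset.filter_mem_eq_inter, Finset.univ_inter]
    rcases Nat.eq_zero_or_pos Rr.card with h | h
    · rw [Finset.card_eq_zero] at h
      rw [h]; simp; linarith
    · refine le_trans (sum_inv_rank_le Rr ka) ?_
      have h1 : (Rr.card : ℝ) ≤ d := by
        have : Rr.card ≤ d := by
          simpa using Finset.card_le_card (Finset.subset_univ Rr)
        exact_mod_cast this
      have h2 : Real.log Rr.card ≤ Real.log d :=
        Real.log_le_log (by exact_mod_cast h) h1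
      linarith
  refine ⟨fun a => β a + γ a, fun a => add_nonneg (hβ0 a) (hγ0 a), ?_⟩
  intro z hz
  have hsum : ∑ a, (β a + γ a) ≤ 2 * ℓ := by
    rw [Finset.sum_add_distrib]; linarith
  have hz32 : ∑ a, (β a + γ a) * z a ^ 2 ≤ 32 * ℓ := by linarith
  constructor
  · rcases Nat.eq_zero_or_pos A.card with h | h
    · rw [Finset.card_eq_zero] at h
      rw [h]; simp
    · have hA0 : (0 : ℝ) < A.card := by exact_mod_cast h
      have h1 : ∑ a ∈ A, ℓ / (A.card : ℝ) * z a ^ 2 ≤ 32 * ℓ := by
        refine le_trans ?_ hz32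
        calc ∑ a ∈ A, ℓ / (A.card : ℝ) * z a ^ 2
            ≤ ∑ a ∈ A, (β a + γ a) * z a ^ 2 := by
              refine Finset.sum_le_sum fun a ha => ?_
              have : β a = ℓ / (A.card : ℝ) := by simp only [hβ]; rw [if_pos ha]
              rw [← this]
              exact mul_le_mul_of_nonneg_right (by linarith [hγ0 a]) (sq_nonneg _)
          _ ≤ ∑ a, (β a + γ a) * z a ^ 2 :=
              Finset.sum_le_sum_of_subset_of_nonneg (Finset.subset_univ _)
                (fun a _ _ => mul_nonneg (add_nonneg (hβ0 a) (hγ0 a)) (sq_nonneg _))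
      rw [← Finset.mul_sum, div_mul_eq_mul_div, div_le_iff₀ hA0] at h1
      have hℓ0 : 0 < ℓ := by linarith
      have h2 : ℓ * ∑ a ∈ A, z a ^ 2 ≤ ℓ * (32 * (A.card : ℝ)) := by linarith
      exact le_of_mul_le_mul_left h2 hℓ0
  · intro t
    set B : Finset (Fin d) := univ.filter (fun a => k < ka a ∧ ka a ≤ t) with hB
    rcases Nat.eq_zero_or_pos B.card with h | h
    · rw [Finset.card_eq_zero] at h
      rw [h]; simp
    · have hB0 : (0 : ℝ) < B.card := by exact_mod_cast h
      have h1 : ∑ a ∈ B, 1 / (B.card : ℝ) * z a ^ 2 ≤ 32 * ℓ := by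
        refine le_trans ?_ hz32
        calc ∑ a ∈ B, 1 / (B.card : ℝ) * z a ^ 2
            ≤ ∑ a ∈ B, (β a + γ a) * z a ^ 2 := by
              refine Finset.sum_le_sum fun a ha => ?_
              refine mul_le_mul_of_nonneg_right ?_ (sq_nonneg _)
              have ha' : k < ka a ∧ ka a ≤ t := by simpa [hB] using ha
              have haR : a ∈ Rr := by simp [hRr, ha'.1]
              have hγa : γ a = 1 / ((Rr.filter (fun b => ka b ≤ ka a)).card : ℝ) := by
                simp only [hγ]; rw [if_pos haR]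
              have hsub : Rr.filter (fun b => ka b ≤ ka a) ⊆ B := by
                intro b hb
                rw [Finset.mem_filter] at hb
                have hb1 : k < ka b := by simpa [hRr] using hb.1
                simp only [hB, Finset.mem_filter, Finset.mem_univ, true_and]
                exact ⟨hb1, hb.2.trans ha'.2⟩
              have hpos : 0 < (Rr.filter (fun b => ka b ≤ ka a)).card :=
                Finset.card_pos.2 ⟨a, Finset.mem_filter.2 ⟨haR, le_rfl⟩⟩
              have h3 : 1 / (B.card : ℝ) ≤ γ a := by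
                rw [hγa]
                apply one_div_le_one_div_of_le
                · exact_mod_cast hpos
                · exact_mod_cast Finset.card_le_card hsub
              linarith [hβ0 a]
          _ ≤ ∑ a, (β a + γ a) * z a ^ 2 :=
              Finset.sum_le_sum_of_subset_of_nonneg (Finset.subset_univ _)
                (fun a _ _ => mul_nonneg (add_nonneg (hβ0 a) (hγ0 a)) (sq_nonneg _))
      rw [← Finset.mul_sum, div_mul_eq_mul_div, div_le_iff₀ hB0, one_mul] at h1
      linarith

end P262
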