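import Mathlib
import Vale.Agent.P262.Child
import Vale.Agent.P262.Weights
import Vale.Agent.P262.Round
import Vale.Agent.P262.Pairing
import Vale.Agent.P262.Items
import Vale.Agent.P262.Restore

/-! P262: construction of the signs of one splitting step. -/

namespace P262

open Finset

/-- value of a function on an item -/
noncomputable def item {N : ℕ} (O Sp : Finset (Fin N)) (p : Fin N → Fin N) (f : Fin N → ℝ)
    (i : Fin N) : ℝ :=
  if i ∈ O then f i
  else if i ∈ Sp then (if i < p i then f i - f (p i) else if p i = i then f i else 0) else 0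

/-- signs of the elements from the signs of the items -/
noncomputable def sg {N : ℕ} (O Sp : Finset (Fin N)) (p : Fin N → Fin N) (x : Fin N → ℝ)
    (i : Fin N) : ℝ :=
  if i ∈ O then x i else if i ∈ Sp then (if i ≤ p i then x i else - x (p i)) else 1

/-- starting point -/
noncomputable def st {N : ℕ} (O Sp : Finset (Fin N)) (p : Fin N → Fin N) (y : Fin N → ℝ)
    (i : Fin N) : ℝ :=
  if i ∈ O then y i else if i ∈ Sp then (if i ≤ p i then 0 else 1) else 1

theorem sum_sg {N : ℕ} (O Sp : Finset (Fin N)) (p : Fin N → Fin N) (hd : Disjoint O Sp)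
    (hp1 : ∀ i ∈ Sp, p i ∈ Sp) (hp2 : ∀ i ∈ Sp, p (p i) = i) (x f : Fin N → ℝ) :
    ∑ i ∈ O ∪ Sp, sg O Sp p x i * f i = ∑ i, x i * item O Sp p f i := by
  classical
  have h1 : ∑ i, x i * item O Sp p f i = ∑ i ∈ O ∪ Sp, x i * item O Sp p f i := by
    symm
    apply Finset.sum_subset (Finset.subset_univ _)
    intro i _ hi
    rw [Finset.mem_union, not_or] at hi
    simp [item, hi.1, hi.2]
  rw [h1, Finset.sum_union hd, Finset.sum_union hd]
  congr 1
  · apply Finset.sum_congr rfl
    intro i hi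
    simp [sg, item, hi]
  · have hnO : ∀ i ∈ Sp, i ∉ O := fun i hi hO => (Finset.disjoint_left.mp hd hO hi)
    have h2 := item_sum Sp p hp1 hp2 x f
    calc ∑ i ∈ Sp, sg O Sp p x i * f i
        = ∑ i ∈ Sp, (if i ≤ p i then x i else - x (p i)) * f i := by
          apply Finset.sum_congr rfl
          intro i hi
          simp [sg, hi, hnO i hi]
      _ = ∑ i ∈ Sp, x i * (if i < p i then f i - f (p i) else if p i = i then f i else 0) := h2
      _ = ∑ i ∈ Sp, x i * item O Sp p f i := by
          apply Finset.sum_congr rfl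
          intro i hi
          simp [item, hi, hnO i hi]

theorem sum_st {N : ℕ} (O Sp : Finset (Fin N)) (p : Fin N → Fin N)
    (y f : Fin N → ℝ) :
    ∑ i, st O Sp p y i * item O Sp p f i = ∑ i ∈ O, y i * f i := by
  classical
  symm
  have h1 : ∑ i ∈ O, y i * f i = ∑ i ∈ O, st O Sp p y i * item O Sp p f i := by
    apply Finset.sum_congr rfl
    intro i hi
    simp [st, item, hi]
  rw [h1]
  apply Finset.sum_subset (Finset.subset_univ _)
  intro i _ hi
  by_cases hS : i ∈ Sp
  · rcases lt_trichotomy i (p i) with h | h | h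
    · simp [st, item, hi, hS, h.le]
    · have : i ≤ p i := h.le
      simp [st, item, hi, hS, this]
    · have h1 : ¬ i < p i := not_lt.mpr h.le
      have h2 : p i ≠ i := ne_of_lt h
      simp [st, item, hi, hS, h1, h2]
  · simp [item, hi, hS]

theorem item_bound {N : ℕ} (O Sp : Finset (Fin N)) (p : Fin N → Fin N)
    (hp1 : ∀ i ∈ Sp, p i ∈ Sp) (f : Fin N → ℝ) (B : ℝ) (hB : 0 ≤ B)
    (hO : ∀ i ∈ O, |f i| ≤ B) (hS : ∀ i ∈ Sp, |f i| ≤ B) (i : Fin N) :
    |item O Sp p f i| ≤ 2 * B := by
  unfold item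
  split_ifs with h1 h2 h3 h4
  · linarith [hO i h1]
  · have := abs_sub (f i) (f (p i))
    linarith [hS i h2, hS (p i) (hp1 i h2), abs_sub (f i) (f (p i))]
  · linarith [hS i h2]
  · simpa using hB
  · simpa using hB

theorem abs_mul_le_one_of {d : ℕ} (v : Fin d → ℝ) (hv : ∑ a, v a ^ 2 ≤ 1) (a : Fin d) :
    |v a| ≤ 1 := by
  have h1 : v a ^ 2 ≤ ∑ a, v a ^ 2 :=
    Finset.single_le_sum (f := fun a => v a ^ 2) (fun b _ => sq_nonneg _) (Finset.mem_univ a)
  have h2 : v a ^ 2 ≤ 1 ^ 2 := by linarith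
  exact abs_le_of_sq_le_sq h2 (by norm_num) |> fun h => by
    simpa using h

/-- the features of the items -/
noncomputable def feat {d N : ℕ} (S : Sys d N) (O Sp : Finset (Fin N)) (p : Fin N → Fin N) :
    (Fin d ⊕ (Fin d × Fin d)) → Fin N → ℝ
  | Sum.inl a => item O Sp p (fun i => S.v i a)
  | Sum.inr ab => item O Sp p (fun i => S.v i ab.1 * S.v i ab.2)

theorem card_feat (d : ℕ) : (Fintype.card (Fin d ⊕ (Fin d × Fin d)) : ℝ) = hC d := by
  simp [hC]

theorem item_norm {d N : ℕ} (S : Sys d N) (O Sp : Finset (Fin N)) (p : Fin N → Fin N)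
    (i : Fin N) : ∑ a, item O Sp p (fun j => S.v j a) i ^ 2 ≤ 2 ^ 2 := by
  have h1 : ∀ j, ∑ a, S.v j a ^ 2 ≤ 1 := S.norm_le
  unfold item
  by_cases hO : i ∈ O
  · simp only [hO, if_true]
    linarith [h1 i]
  · by_cases hS : i ∈ Sp
    · simp only [hO, hS, if_true, if_false]
      by_cases h3 : i < p i
      · simp only [h3, if_true]
        have : ∀ a, (S.v i a - S.v (p i) a) ^ 2 ≤ 2 * S.v i a ^ 2 + 2 * S.v (p i) a ^ 2 := by
          intro a
          nlinarith [sq_nonneg (S.v i a + S.v (p i) a)]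
        calc ∑ a, (S.v i a - S.v (p i) a) ^ 2
            ≤ ∑ a, (2 * S.v i a ^ 2 + 2 * S.v (p i) a ^ 2) := Finset.sum_le_sum fun a _ => this a
          _ = 2 * ∑ a, S.v i a ^ 2 + 2 * ∑ a, S.v (p i) a ^ 2 := by
              rw [Finset.sum_add_distrib, Finset.mul_sum, Finset.mul_sum]
          _ ≤ 2 ^ 2 := by linarith [h1 i, h1 (p i)]
      · simp only [h3, if_false]
        by_cases h4 : p i = i
        · simp only [h4, if_true]
          linarith [h1 i]
        · simp [h4]
    · simp [hO, hS]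

/-- sums over `O` versus sums over `W` -/
theorem sum_O_W {N : ℕ} (W O Sp : Finset (Fin N)) (m : Fin N) (hm : m ∈ W)
    (hd : Disjoint O Sp) (hu : O ∪ Sp = W.erase m) (f : Fin N → ℝ) (hf : ∀ i, |f i| ≤ 1)
    (r : ℝ) (hr : (Sp.card : ℝ) ≤ r) (c A : ℝ) (h : |∑ i ∈ W, f i - c| ≤ A) :
    |∑ i ∈ O, f i - c| ≤ A + (r + 1) := by
  have h1 : ∑ i ∈ W, f i = f m + (∑ i ∈ O, f i + ∑ i ∈ Sp, f i) := by
    rw [← Finset.sum_union hd, hu, Finset.add_sum_erase _ _ hm]
  have h2 : |∑ i ∈ Sp, f i| ≤ Sp.card := by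
    calc |∑ i ∈ Sp, f i| ≤ ∑ i ∈ Sp, |f i| := Finset.abs_sum_le_sum_abs _ _
      _ ≤ ∑ i ∈ Sp, (1 : ℝ) := Finset.sum_le_sum fun i _ => hf i
      _ = Sp.card := by simp
  have h3 := hf m
  rw [h1] at h
  rw [abs_le] at *
  constructor <;> linarith [h.1, h.2, h2.1, h2.2, h3.1, h3.2]

theorem step_core {d N : ℕ} (S : Sys d N) (L k : ℕ) (W : Finset (Fin N)) (P Q : Fin d → ℝ)
    (hN : Node S k W P Q) (m : Fin N) (hm : m ∈ W) (_hmin : ∀ i ∈ W, m ≤ i) :
    ∃ (s : Fin N → ℝ) (z : Fin d → ℝ), Signs S k W m s ∧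
      (∀ a, k < S.ka a →
        (P a + Q a - S.v m a) / 2 + (∑ i ∈ W.erase m, s i * S.v i a) / 2 = z a / 2) ∧
      (∀ a, S.ka a ≤ k →
        |(∑ i ∈ W.erase m, s i * S.v i a) / 2 - z a / 2| ≤ S.sig k / (4 * d)) ∧
      (∀ a B, 0 ≤ B → (∀ i ∈ W.erase m, |S.v i a| ≤ B) → |z a| ≤ 8 * hC d * B) ∧
      (∑ a ∈ univ.filter (fun a => S.ka a ≤ k ∧ k < S.ka a + L), z a ^ 2
        ≤ 32 * ((univ.filter (fun a => S.ka a ≤ k ∧ k < S.ka a + L)).card : ℝ)) ∧
      (∀ t, ∑ a ∈ univ.filter (fun a => k < S.ka a ∧ S.ka a ≤ t), z a ^ 2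
        ≤ 32 * (1 + Real.log d) *
          ((univ.filter (fun a => k < S.ka a ∧ S.ka a ≤ t)).card : ℝ)) := by
  classical
  have hd1 : (1 : ℝ) ≤ d := by exact_mod_cast S.hd
  have hhC : 0 ≤ hC d := by unfold hC; positivity
  have hvabs : ∀ i a, |S.v i a| ≤ 1 := fun i a => abs_mul_le_one_of (S.v i) (S.norm_le i) a
  have hff : ∀ a b i, |S.v i a * S.v i b| ≤ 1 := by
    intro a b i
    rw [abs_mul]
    exact mul_le_one₀ (hvabs i a) (abs_nonneg _) (hvabs i b)
  have hT1 : 0 ≤ T1 d := by unfold T1 D1; positivity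
  have hD1 : 0 ≤ D1 d := by unfold D1; positivity
  have hlam : 0 < lam d := by unfold lam; positivity
  have hq1 : 1 ≤ q d := one_le_q S.hd
  -- the parts
  set O : Finset (Fin N) := (W.erase m).filter (fun i => k < S.kk i) with hO
  set Sp : Finset (Fin N) := (W.erase m).filter (fun i => S.kk i ≤ k) with hSp
  have hdisj : Disjoint O Sp := by
    rw [Finset.disjoint_left]
    intro i hi hi'
    rw [hO, Finset.mem_filter] at hi
    rw [hSp, Finset.mem_filter] at hi'
    exact absurd hi.2 (not_lt.mpr hi'.2)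
  have hunion : O ∪ Sp = W.erase m := by
    ext i
    rw [hO, hSp, Finset.mem_union, Finset.mem_filter, Finset.mem_filter]
    constructor
    · rintro (h | h) <;> exact h.1
    · intro h
      rcases lt_or_ge k (S.kk i) with h' | h'
      · exact Or.inl ⟨h, h'⟩
      · exact Or.inr ⟨h, h'⟩
  have hOW : ∀ i ∈ O, i ∈ W := fun i hi => Finset.mem_of_mem_erase (Finset.mem_filter.mp hi).1
  have hSpcard : (Sp.card : ℝ) ≤ q d := by
    refine le_trans ?_ hN.nsp
    exact_mod_cast Finset.card_le_card (by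
      intro i hi
      rw [hSp, Finset.mem_filter] at hi
      rw [Finset.mem_filter]
      exact ⟨Finset.mem_of_mem_erase hi.1, hi.2⟩)
  obtain ⟨p, hp1, hp2, hp3⟩ := exists_pairing Sp
  -- restoration
  set rich : Finset (Fin d) := univ.filter (fun a => k < S.ka a) with hrich
  set T : Fin d → ℝ := fun a => if k < S.ka a then -(P a + Q a - S.v m a) else 0 with hT
  have hTb : ∀ a, |T a| ≤ T1 d := by
    intro a
    rw [hT]
    simp only
    split_ifs with h
    · have e : T1 d = 2 * D1 d + 1 := rfl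
      obtain ⟨h3, h4⟩ := hN.rich a h
      have h3' := abs_le.mp h3
      have h4' := abs_le.mp h4
      have h2' := abs_le.mp (hvabs m a)
      rw [abs_le]
      constructor <;> linarith [h3'.1, h3'.2, h4'.1, h4'.2, h2'.1, h2'.2]
    · simpa using hT1
  have hmomO : ∀ a b, |∑ i ∈ O, S.v i a * S.v i b - (if a = b then S.mu a k else 0)|
      ≤ cG d + S.th k * Real.sqrt (S.g a k * S.g b k) + (q d + 1) := by
    intro a b
    exact sum_O_W W O Sp m hm hdisj hunion (fun i => S.v i a * S.v i b) (hff a b) (q d) hSpcard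
      _ _ (hN.mom a b)
  have hlam2 : 0 < lam d ^ 2 := by positivity
  obtain ⟨w, hw0, hw1, hw2, hw3, hw4⟩ := restore O S.v (fun i _ => S.norm_le i) rich
    (fun a => S.mu a k) (lam d ^ 2) (S.sig k) (T1 d) hlam2 (S.sig_nonneg k) hT1
    (fun a ha => S.lam_le_sig (by simpa [hrich] using ha))
    (fun a ha => lt_of_lt_of_le hlam2 (S.lam_le_mu (by simpa [hrich] using ha)))
    (fun a ha b hb => le_trans (hmomO a b) (S.diag_bound (by simpa [hrich] using ha)
      (by simpa [hrich] using hb))) T hTb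
  set y : Fin N → ℝ := fun i => ∑ b, w b * S.v i b with hy
  have hyb : ∀ i ∈ O, |y i| ≤ S.xi k := fun i hi => hw4 i hi
  set x0 : Fin N → ℝ := st O Sp p y with hx0
  have hx0b : ∀ i, |x0 i| ≤ 1 := by
    intro i
    rw [hx0]
    unfold st
    split_ifs with h1 h2 h3
    · exact le_trans (hyb i h1) (le_trans (S.xi_le k) (by norm_num))
    · simp
    · simp
    · simp
  obtain ⟨α, hα, hαz⟩ := weights_lemma S.hd S.ka L k
  set u : Fin N → Fin d → ℝ := fun i a => item O Sp p (fun j => S.v j a) i with hu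
  obtain ⟨x, hx1, hx2, hx3, hx4, hx5⟩ := round_lemma u 2 (fun i => item_norm S O Sp p i)
    (feat S O Sp p) (fun a => ⟨Sum.inl a, fun i => rfl⟩) S.kk α hα x0 hx0b
  rw [card_feat] at hx4 hx5
  set s : Fin N → ℝ := sg O Sp p x with hs
  set z : Fin d → ℝ := fun a => ∑ i, (x i - x0 i) * u i a with hz
  have key : ∀ f : Fin N → ℝ, ∑ i ∈ W.erase m, s i * f i
      = ∑ i ∈ O, y i * f i + ∑ i, (x i - x0 i) * item O Sp p f i := by
    intro f
    rw [← hunion, hs, sum_sg O Sp p hdisj hp1 hp2 x f, ← sum_st O Sp p y f,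
      ← Finset.sum_add_distrib]
    apply Finset.sum_congr rfl
    intro i _
    rw [hx0]
    ring
  have hx1' : ∀ i, x i = 1 ∨ x i = -1 := by
    intro i
    rcases abs_eq (by norm_num : (0:ℝ) ≤ 1) |>.mp (hx1 i) with h | h
    · exact Or.inl h
    · exact Or.inr h
  have hs1 : ∀ i, s i = 1 ∨ s i = -1 := by
    intro i
    rw [hs]
    unfold sg
    split_ifs with h1 h2 h3
    · exact hx1' i
    · exact hx1' i
    · rcases hx1' (p i) with h | h
      · right; rw [h]
      · left; rw [h]; norm_num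
    · left; rfl
  have hspair : ∀ i ∈ Sp, p i ≠ i → s (p i) = - s i := by
    intro i hi hne
    have hiO : i ∉ O := fun h => Finset.disjoint_left.mp hdisj h hi
    have hpi := hp1 i hi
    have hpiO : p i ∉ O := fun h => Finset.disjoint_left.mp hdisj h hpi
    rcases lt_or_gt_of_ne hne with h | h
    · -- p i < i
      have h1 : ¬ i ≤ p i := not_le.mpr h
      have h2 : p i ≤ p (p i) := by rw [hp2 i hi]; exact h.le
      simp [hs, sg, hiO, hpiO, hi, hpi, h1, h2]
    · have h1 : i ≤ p i := le_of_lt h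
      have h2 : ¬ p i ≤ p (p i) := by rw [hp2 i hi]; exact not_le.mpr h
      simp only [hs, sg, hiO, hpiO, hi, hpi, h1, h2, if_true, if_false]
      rw [hp2 i hi]
  obtain ⟨hr1, hr2⟩ := hp3 s hs1 hspair
  refine ⟨s, z, ⟨hs1, ?_, ?_, hr1, hr2⟩, ?_, ?_, ?_, ?_⟩
  · -- mom
    intro a b
    rw [key (fun i => S.v i a * S.v i b)]
    have h1 : |∑ i, (x i - x0 i) * item O Sp p (fun i => S.v i a * S.v i b) i|
        ≤ 4 * hC d * 2 := by
      refine hx4 (Sum.inr (a, b)) 2 ?_ (by norm_num)
      intro i _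
      have := item_bound O Sp p hp1 (fun i => S.v i a * S.v i b) 1 (by norm_num)
        (fun i _ => hff a b i) (fun i _ => hff a b i) i
      simpa [feat] using this
    have h2 : |∑ i ∈ O, y i * (S.v i a * S.v i b)| ≤ S.xi k * Real.sqrt
        ((∑ i ∈ W, S.v i a * S.v i a) * (∑ i ∈ W, S.v i b * S.v i b)) := by
      calc |∑ i ∈ O, y i * (S.v i a * S.v i b)|
          ≤ ∑ i ∈ O, |y i * (S.v i a * S.v i b)| := Finset.abs_sum_le_sum_abs _ _
        _ ≤ ∑ i ∈ O, S.xi k * (|S.v i a| * |S.v i b|) := by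
            apply Finset.sum_le_sum
            intro i hi
            rw [abs_mul, abs_mul]
            exact mul_le_mul_of_nonneg_right (hyb i hi) (by positivity)
        _ = S.xi k * ∑ i ∈ O, |S.v i a| * |S.v i b| := by rw [Finset.mul_sum]
        _ ≤ S.xi k * Real.sqrt
            ((∑ i ∈ W, S.v i a * S.v i a) * (∑ i ∈ W, S.v i b * S.v i b)) := by
            apply mul_le_mul_of_nonneg_left _ (S.xi_nonneg k)
            apply Real.le_sqrt_of_sq_le
            have hcs := Finset.sum_mul_sq_le_sq_mul_sq O (fun i => |S.v i a|) (fun i => |S.v i b|)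
            simp only [sq_abs] at hcs
            refine le_trans hcs ?_
            have e1 : ∀ c, ∑ i ∈ O, S.v i c ^ 2 ≤ ∑ i ∈ W, S.v i c * S.v i c := by
              intro c
              calc ∑ i ∈ O, S.v i c ^ 2 ≤ ∑ i ∈ W, S.v i c ^ 2 :=
                    Finset.sum_le_sum_of_subset_of_nonneg hOW (fun i _ _ => sq_nonneg _)
                _ = ∑ i ∈ W, S.v i c * S.v i c := Finset.sum_congr rfl fun i _ => by ring
            exact mul_le_mul (e1 a) (e1 b) (Finset.sum_nonneg fun i _ => sq_nonneg _)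
              (Finset.sum_nonneg fun i _ => mul_self_nonneg _)
    have h3 := abs_add_le (∑ i ∈ O, y i * (S.v i a * S.v i b))
      (∑ i, (x i - x0 i) * item O Sp p (fun i => S.v i a * S.v i b) i)
    linarith
  · -- cls
    intro t ht
    have h0 : ∑ i ∈ (W.erase m).filter (fun i => S.kk i = t), s i
        = ∑ i ∈ O.filter (fun i => S.kk i = t), x i := by
      have e : (W.erase m).filter (fun i => S.kk i = t) = O.filter (fun i => S.kk i = t) := by
        ext i
        rw [hO, Finset.mem_filter, Finset.mem_filter, Finset.mem_filter]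
        constructor
        · rintro ⟨h1, h2⟩
          exact ⟨⟨h1, by omega⟩, h2⟩
        · rintro ⟨⟨h1, _⟩, h2⟩
          exact ⟨h1, h2⟩
      rw [e]
      apply Finset.sum_congr rfl
      intro i hi
      have : i ∈ O := (Finset.mem_filter.mp hi).1
      simp [hs, sg, this]
    have h1 : ∑ i ∈ univ.filter (fun i => S.kk i = t), (x i - x0 i)
        = ∑ i ∈ O.filter (fun i => S.kk i = t), (x i - y i) := by
      have e2 : ∑ i ∈ O.filter (fun i => S.kk i = t), (x i - y i)
          = ∑ i ∈ O.filter (fun i => S.kk i = t), (x i - x0 i) := by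
        apply Finset.sum_congr rfl
        intro i hi
        have : i ∈ O := (Finset.mem_filter.mp hi).1
        simp [hx0, st, this]
      rw [e2]
      symm
      apply Finset.sum_subset
      · exact Finset.filter_subset_filter _ (Finset.subset_univ _)
      · intro i hi hi'
        rw [Finset.mem_filter] at hi
        have hiO : i ∉ O := fun h => hi' (Finset.mem_filter.mpr ⟨h, hi.2⟩)
        have hiS : i ∉ Sp := by
          intro h
          rw [hSp, Finset.mem_filter] at h
          omega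
        have e3 : x0 i = 1 := by simp [hx0, st, hiO, hiS]
        have e4 : x i = x0 i := hx2 i (by rw [e3]; simp)
        rw [e4]; ring
    have h2 := hx5 t
    rw [h1] at h2
    have h3 : |∑ i ∈ O.filter (fun i => S.kk i = t), y i|
        ≤ S.xi k * ((W.filter (fun i => S.kk i = t)).card : ℝ) := by
      calc |∑ i ∈ O.filter (fun i => S.kk i = t), y i|
          ≤ ∑ i ∈ O.filter (fun i => S.kk i = t), |y i| := Finset.abs_sum_le_sum_abs _ _
        _ ≤ ∑ i ∈ O.filter (fun i => S.kk i = t), S.xi k :=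
            Finset.sum_le_sum fun i hi => hyb i (Finset.mem_filter.mp hi).1
        _ = ((O.filter (fun i => S.kk i = t)).card : ℝ) * S.xi k := by
            rw [Finset.sum_const, nsmul_eq_mul]
        _ ≤ ((W.filter (fun i => S.kk i = t)).card : ℝ) * S.xi k := by
            apply mul_le_mul_of_nonneg_right _ (S.xi_nonneg k)
            exact_mod_cast Finset.card_le_card (Finset.filter_subset_filter _ hOW)
        _ = _ := by ring
    rw [h0]
    have h4 : ∑ i ∈ O.filter (fun i => S.kk i = t), x i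
        = ∑ i ∈ O.filter (fun i => S.kk i = t), y i
          + ∑ i ∈ O.filter (fun i => S.kk i = t), (x i - y i) := by
      rw [← Finset.sum_add_distrib]
      apply Finset.sum_congr rfl
      intro i _; ring
    rw [h4]
    have e5 : cE d = 6 + 4 * hC d := rfl
    rw [e5]
    exact le_trans (abs_add_le _ _) (add_le_add h3 h2)
  · -- rich
    intro a ha
    have h1 := key (fun i => S.v i a)
    have h2 := hw1 a (by simpa [hrich] using ha)
    have h3 : T a = -(P a + Q a - S.v m a) := by simp [hT, ha]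
    rw [h1]
    have h4 : ∑ i ∈ O, y i * S.v i a = T a := h2
    rw [h4, h3]
    have h5 : z a = ∑ i, (x i - x0 i) * item O Sp p (fun i => S.v i a) i := rfl
    rw [← h5]
    ring
  · -- poor
    intro a ha
    have h1 := key (fun i => S.v i a)
    have h5 : z a = ∑ i, (x i - x0 i) * item O Sp p (fun i => S.v i a) i := rfl
    rw [h1, ← h5]
    have h6 : (∑ i ∈ O, y i * S.v i a + z a) / 2 - z a / 2 = 1 / 2 * ∑ i ∈ O, y i * S.v i a := by
      ring
    rw [h6, abs_mul, abs_of_pos (by norm_num : (0:ℝ) < 1 / 2)]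
    have hdr := drift_bound O S.v rich (fun a => S.mu a k) (fun a => S.g a k) (lam d ^ 2)
      (S.sig k) (T1 d) (cG d + (q d + 1)) (S.th k) hlam2 (S.sig_nonneg k) hT1
      (by unfold cG; positivity) (S.th_nonneg k) w hw0 hw2 hw3 (fun a => S.mu_nonneg a k)
      (fun a => S.g_nonneg a k) (fun a ha => S.g_le_rich (by simpa [hrich] using ha)) a
      (S.g_le_poor ha) (by
        intro b hb
        have hb' : k < S.ka b := by simpa [hrich] using hb
        have hab : a ≠ b := by
          rintro rfl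
          omega
        have := hmomO a b
        rw [if_neg hab, sub_zero] at this
        linarith)
    exact le_trans (mul_le_mul_of_nonneg_left hdr (by norm_num)) (S.drift_const k)
  · -- size of z
    intro a B hB hBv
    have h1 : |∑ i, (x i - x0 i) * item O Sp p (fun i => S.v i a) i| ≤ 4 * hC d * (2 * B) := by
      refine hx4 (Sum.inl a) (2 * B) ?_ (by positivity)
      intro i _
      have := item_bound O Sp p hp1 (fun i => S.v i a) B hB
        (fun i hi => hBv i (by rw [← hunion]; exact Finset.mem_union_left _ hi))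
        (fun i hi => hBv i (by rw [← hunion]; exact Finset.mem_union_right _ hi)) i
      simpa [feat] using this
    calc |z a| = |∑ i, (x i - x0 i) * item O Sp p (fun i => S.v i a) i| := rfl
      _ ≤ 4 * hC d * (2 * B) := h1
      _ = 8 * hC d * B := by ring
  · -- weights
    have := hαz z (by
      have h := hx3
      norm_num at h
      exact h)
    exact this

end P262
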