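import Mathlib
import Vale.Agent.P262.Theta
import Vale.Agent.P262.Setup

/-! P262: the root node, and the passage from an ordering of a system to the statement. -/

namespace P262

open Finset

theorem root_node' {d N : ℕ} (S : Sys d N) : Node S 0 univ (0 : Fin d → ℝ) 0 := by
  have hd : (1 : ℝ) ≤ d := by exact_mod_cast S.hd
  have hhC : (0 : ℝ) ≤ hC d := by unfold hC; positivity
  have hcE : (0 : ℝ) ≤ cE d := by unfold cE; linarith
  have hcG : (0 : ℝ) ≤ cG d := by unfold cG; linarith
  have hq : (d : ℝ) ≤ q d := by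
    unfold q q1
    linarith
  have hq1 : (1 : ℝ) ≤ q d := le_trans hd hq
  have hth : S.th 0 = 0 := by simp [Sys.th]
  have hmu : ∀ a, S.mu a 0 = S.μ a := fun a => by simp [Sys.mu]
  have hc0 : ((univ.filter (fun i => S.kk i = 0)).card : ℝ) ≤ d := by
    simpa using S.cnt 0
  refine ⟨?_, ?_, ?_, ?_, ?_, ?_, ?_⟩
  · intro a
    simp [S.sum_zero a]
  · intro i _ hi
    have hi0 : S.kk i = 0 := Nat.le_zero.mp hi
    have hsub : univ.filter (fun j => j < i) ⊆ univ.filter (fun i => S.kk i = 0) := by
      intro j hj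
      simp only [Finset.mem_filter, Finset.mem_univ, true_and] at hj ⊢
      have := S.mono hj.le
      omega
    have hcard : ((univ.filter (fun j => j < i)).card : ℝ)
        ≤ ((univ.filter (fun i => S.kk i = 0)).card : ℝ) := by
      exact_mod_cast Finset.card_le_card hsub
    rw [hi0]
    simp only [pow_zero, mul_one]
    linarith
  · have hsub : univ.filter (fun i => S.kk i ≤ 0) ⊆ univ.filter (fun i => S.kk i = 0) := by
      intro j hj
      simp only [Finset.mem_filter, Finset.mem_univ, true_and] at hj ⊢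
      omega
    have hcard : ((univ.filter (fun i => S.kk i ≤ 0)).card : ℝ)
        ≤ ((univ.filter (fun i => S.kk i = 0)).card : ℝ) := by
      exact_mod_cast Finset.card_le_card hsub
    linarith
  · intro i _ a
    rw [hmu]
    have h1 := S.big i a
    have h2 : (1 : ℝ) ≤ 2 ^ S.kk i := one_le_pow₀ (by norm_num)
    have h3 : S.v i a ^ 2 ≤ S.v i a ^ 2 * 2 ^ S.kk i := le_mul_of_one_le_right (sq_nonneg _) h2
    have h4 : 0 ≤ S.μ a := by
      have : 0 ≤ S.v i a ^ 2 * 2 ^ S.kk i := by positivity
      linarith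
    nlinarith
  · intro t _
    rw [hth]
    have := S.cnt t
    simp only [pow_zero, mul_one]
    linarith
  · intro a b
    rw [hth, hmu]
    have h1 := S.gram a b
    have h2 : ∑ i, S.v i a * S.v i b - (if a = b then S.μ a else 0) = 0 := by
      rw [h1]; ring
    rw [h2]
    simp
    exact hcG
  · intro a _
    have : 0 ≤ D1 d := by unfold D1; linarith
    simp [this]

theorem sum_take_eq {α : Type*} (l : List α) (g : α → ℝ) (k : ℕ) :
    ∑ i ∈ univ.filter (fun i : Fin l.length => (i : ℕ) < k), g (l.get i)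
      = ((l.take k).map g).sum := by
  induction k with
  | zero => simp
  | succ k ih =>
    by_cases hk : k < l.length
    · rw [List.take_add_one, List.map_append, List.sum_append, ← ih]
      have h1 : univ.filter (fun i : Fin l.length => (i : ℕ) < k + 1)
          = insert (⟨k, hk⟩ : Fin l.length) (univ.filter (fun i : Fin l.length => (i : ℕ) < k)) := by
        ext i
        simp only [Finset.mem_filter, Finset.mem_univ, true_and, Finset.mem_insert, Fin.ext_iff]
        omega
      rw [h1, Finset.sum_insert (by simp)]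
      simp [hk, add_comm]
    · have h1 : univ.filter (fun i : Fin l.length => (i : ℕ) < k + 1)
          = univ.filter (fun i : Fin l.length => (i : ℕ) < k) := by
        ext i
        simp only [Finset.mem_filter, Finset.mem_univ, true_and]
        have := i.2
        omega
      rw [h1, ih, List.take_of_length_le (by omega), List.take_of_length_le (by omega)]

/-- From an ordering of the system to the permutation. -/
theorem steinitz_of_order {d N : ℕ} (hd : 1 ≤ d)
    (horder : ∀ S : Sys d N, ∃ l : List (Fin N), l.Nodup ∧ (∀ i, i ∈ l) ∧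
      ∀ n, ∑ a, (((l.take n).map (fun i => S.v i a)).sum) ^ 2
        ≤ 1000000 * d * (1 + Real.log d) ^ 2)
    (w : Fin N → EuclideanSpace ℝ (Fin d))
    (hw : ∀ i, ‖w i‖ ≤ 1) (h0 : ∑ i, w i = 0) :
    ∃ π : Equiv.Perm (Fin N), ∀ k : ℕ, k ≤ N →
      ‖∑ i ∈ univ.filter (fun i : Fin N => (i : ℕ) < k), w (π i)‖
        ≤ 1000 * Real.sqrt d * (1 + Real.log d) := by
  classical
  obtain ⟨S, σ, e, hS⟩ := exists_sys hd w hw h0
  obtain ⟨l, hnd, hmem, hbd⟩ := horder S
  have hlen : l.length = N := by
    have h1 := List.toFinset_card_of_nodup hnd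
    have h2 : l.toFinset = univ := by
      ext i
      simp [hmem i]
    rw [h2, Finset.card_univ, Fintype.card_fin] at h1
    exact h1.symm
  let τ : Fin N ≃ Fin N :=
    (finCongr hlen.symm).trans (List.Nodup.getEquivOfForallMemList l hnd hmem)
  refine ⟨τ.trans σ, ?_⟩
  intro k _
  have hlog : 0 ≤ Real.log d := Real.log_nonneg (by exact_mod_cast hd)
  have hsum : ∀ a, e (∑ i ∈ univ.filter (fun i : Fin N => (i : ℕ) < k), w ((τ.trans σ) i)) a
      = ((l.take k).map (fun i => S.v i a)).sum := by
    intro a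
    rw [← sum_take_eq l (fun i => S.v i a) k, map_sum]
    have h1 : (∑ x ∈ univ.filter (fun i : Fin N => (i : ℕ) < k), e (w ((τ.trans σ) x))) a
        = ∑ x ∈ univ.filter (fun i : Fin N => (i : ℕ) < k), e (w ((τ.trans σ) x)) a := by
      simp
    rw [h1]
    refine Finset.sum_nbij' (fun i => Fin.cast hlen.symm i) (fun i => Fin.cast hlen i)
      ?_ ?_ ?_ ?_ ?_
    · intro i hi
      simpa using hi
    · intro i hi
      simpa using hi
    · intro i _
      rfl
    · intro i _
      rfl
    · intro i _
      rw [hS]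
      rfl
  rw [← e.norm_map]
  have h2 : ‖e (∑ i ∈ univ.filter (fun i : Fin N => (i : ℕ) < k), w ((τ.trans σ) i))‖ ^ 2
      ≤ (1000 * Real.sqrt d * (1 + Real.log d)) ^ 2 := by
    rw [EuclideanSpace.norm_sq_eq]
    have h3 : ∀ a, ‖e (∑ i ∈ univ.filter (fun i : Fin N => (i : ℕ) < k), w ((τ.trans σ) i)) a‖ ^ 2
        = (((l.take k).map (fun i => S.v i a)).sum) ^ 2 := by
      intro a
      rw [hsum a, Real.norm_eq_abs, sq_abs]
    rw [Finset.sum_congr rfl fun a _ => h3 a]
    refine le_trans (hbd k) (le_of_eq ?_)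
    rw [mul_pow, mul_pow, Real.sq_sqrt (Nat.cast_nonneg d)]
    norm_num
  have h4 : 0 ≤ 1000 * Real.sqrt d * (1 + Real.log d) := by positivity
  exact le_of_sq_le_sq h2 h4

end P262
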