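import Mathlib

/-! P262, module G: summing the errors along a root-to-leaf path. -/

namespace P262

open Finset

/-- auxiliary: the tenure claim -/
theorem tenure {d : ℕ} (ka : Fin d → ℕ) (ℓ : ℝ) (hℓ : 1 ≤ ℓ) (K : ℕ)
    (P R v z : ℕ → Fin d → ℝ) (hP0 : P 0 = 0)
    (hstep : ∀ k < K, P (k + 1) = P k ∨ P (k + 1) = R k + v k)
    (hrich : ∀ k < K, ∀ a, k < ka a → R k a = z k a / 2)
    (hv : ∀ k < K, ∑ a, v k a ^ 2 ≤ 1)
    (hz2 : ∀ k < K, ∀ t, ∑ a ∈ univ.filter (fun a => k < ka a ∧ ka a ≤ t), z k a ^ 2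
      ≤ 32 * ℓ * ((univ.filter (fun a => k < ka a ∧ ka a ≤ t)).card : ℝ)) :
    ∀ k ≤ K, ∃ j ≤ k, (∀ i, j ≤ i → i ≤ k → P i = P k) ∧
      (∑ a ∈ univ.filter (fun a => ka a < j), P (ka a) a ^ 2
        ≤ 18 * ℓ * ((univ.filter (fun a => ka a < j)).card : ℝ)) ∧
      ∀ t, ∑ a ∈ univ.filter (fun a => j ≤ ka a ∧ ka a ≤ t), P k a ^ 2
        ≤ 18 * ℓ * ((univ.filter (fun a => j ≤ ka a ∧ ka a ≤ t)).card : ℝ) := by
  intro k
  induction k with
  | zero =>
    intro _
    refine ⟨0, le_rfl, fun i h1 h2 => by rw [Nat.le_zero.1 h2], by simp, fun t => ?_⟩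
    rw [hP0]
    simp only [Pi.zero_apply, ne_eq, OfNat.ofNat_ne_zero, not_false_eq_true, zero_pow,
      Finset.sum_const_zero]
    positivity
  | succ k ih =>
    intro hk
    obtain ⟨j, hj, hconst, hlow, hup⟩ := ih (by omega)
    rcases hstep k (by omega) with h | h
    · refine ⟨j, by omega, fun i h1 h2 => ?_, hlow, fun t => ?_⟩
      · rcases Nat.lt_or_ge i (k + 1) with h3 | h3
        · rw [hconst i h1 (by omega), h]
        · rw [show i = k + 1 by omega]
      · rw [h]; exact hup t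
    · refine ⟨k + 1, le_rfl, fun i h1 h2 => by rw [show i = k + 1 by omega], ?_, fun t => ?_⟩
      · -- split at j
        have hsplit : univ.filter (fun a => ka a < k + 1)
            = univ.filter (fun a => ka a < j) ∪ univ.filter (fun a => j ≤ ka a ∧ ka a ≤ k) := by
          ext a
          simp only [Finset.mem_filter, Finset.mem_univ, true_and, Finset.mem_union]
          omega
        have hdisj : Disjoint (univ.filter (fun a => ka a < j))
            (univ.filter (fun a => j ≤ ka a ∧ ka a ≤ k)) := by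
          rw [Finset.disjoint_left]
          intro a h1 h2
          simp only [Finset.mem_filter, Finset.mem_univ, true_and] at h1 h2
          omega
        rw [hsplit, Finset.sum_union hdisj, Finset.card_union_of_disjoint hdisj]
        push_cast
        have h3 : ∑ a ∈ univ.filter (fun a => j ≤ ka a ∧ ka a ≤ k), P (ka a) a ^ 2
            = ∑ a ∈ univ.filter (fun a => j ≤ ka a ∧ ka a ≤ k), P k a ^ 2 := by
          refine Finset.sum_congr rfl fun a ha => ?_
          simp only [Finset.mem_filter, Finset.mem_univ, true_and] at ha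
          rw [hconst (ka a) ha.1 ha.2]
        rw [h3]
        have := hup k
        linarith
      · set T := univ.filter (fun a => k + 1 ≤ ka a ∧ ka a ≤ t) with hT
        have hT2 : T = univ.filter (fun a => k < ka a ∧ ka a ≤ t) := by
          rw [hT]; rfl
        rcases T.eq_empty_or_nonempty with h0 | h0
        · rw [h0]; simp
        · have hcard : (1 : ℝ) ≤ (T.card : ℝ) := by
            exact_mod_cast Finset.card_pos.2 h0
          have h4 : ∑ a ∈ T, P (k + 1) a ^ 2 ≤ ∑ a ∈ T, (z k a ^ 2 / 2 + 2 * v k a ^ 2) := by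
            refine Finset.sum_le_sum fun a ha => ?_
            rw [hT] at ha
            simp only [Finset.mem_filter, Finset.mem_univ, true_and] at ha
            rw [h, Pi.add_apply, hrich k (by omega) a (by omega)]
            nlinarith [sq_nonneg (z k a / 2 - v k a)]
          have h5 := hz2 k (by omega) t
          rw [← hT2] at h5
          have h6 : ∑ a ∈ T, v k a ^ 2 ≤ 1 :=
            (Finset.sum_le_univ_sum_of_nonneg fun a => sq_nonneg _).trans (hv k (by omega))
          rw [Finset.sum_add_distrib, ← Finset.sum_div, ← Finset.mul_sum] at h4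
          nlinarith

theorem activation {d : ℕ} (ka : Fin d → ℕ) (ℓ : ℝ) (hℓ : 1 ≤ ℓ) (K : ℕ)
    (P R v z : ℕ → Fin d → ℝ) (hP0 : P 0 = 0)
    (hstep : ∀ k < K, P (k + 1) = P k ∨ P (k + 1) = R k + v k)
    (hrich : ∀ k < K, ∀ a, k < ka a → R k a = z k a / 2)
    (hv : ∀ k < K, ∑ a, v k a ^ 2 ≤ 1)
    (hz2 : ∀ k < K, ∀ t, ∑ a ∈ univ.filter (fun a => k < ka a ∧ ka a ≤ t), z k a ^ 2
      ≤ 32 * ℓ * ((univ.filter (fun a => k < ka a ∧ ka a ≤ t)).card : ℝ)) :
    ∑ a, P (min (ka a) K) a ^ 2 ≤ 18 * ℓ * d := by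
  obtain ⟨j, hj, hconst, hlow, hup⟩ := tenure ka ℓ hℓ K P R v z hP0 hstep hrich hv hz2 K le_rfl
  set t := ∑ a, ka a with ht
  have hkt : ∀ a, ka a ≤ t := fun a => Finset.single_le_sum (fun i _ => Nat.zero_le (ka i))
    (Finset.mem_univ a)
  have hsplit : (univ : Finset (Fin d))
      = univ.filter (fun a => ka a < j) ∪ univ.filter (fun a => j ≤ ka a ∧ ka a ≤ t) := by
    ext a
    simp only [Finset.mem_filter, Finset.mem_univ, true_and, Finset.mem_union, true_iff]
    have := hkt a
    omega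
  have hdisj : Disjoint (univ.filter (fun a => ka a < j))
      (univ.filter (fun a => j ≤ ka a ∧ ka a ≤ t)) := by
    rw [Finset.disjoint_left]
    intro a h1 h2
    simp only [Finset.mem_filter, Finset.mem_univ, true_and] at h1 h2
    omega
  have hcard : (d : ℝ) = ((univ.filter (fun a => ka a < j)).card : ℝ)
      + ((univ.filter (fun a => j ≤ ka a ∧ ka a ≤ t)).card : ℝ) := by
    have := congrArg Finset.card hsplit
    rw [Finset.card_union_of_disjoint hdisj, Finset.card_univ, Fintype.card_fin] at this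
    exact_mod_cast this
  rw [hsplit, Finset.sum_union hdisj, hcard]
  have h1 : ∑ a ∈ univ.filter (fun a => ka a < j), P (min (ka a) K) a ^ 2
      = ∑ a ∈ univ.filter (fun a => ka a < j), P (ka a) a ^ 2 := by
    refine Finset.sum_congr rfl fun a ha => ?_
    simp only [Finset.mem_filter, Finset.mem_univ, true_and] at ha
    rw [min_eq_left (by omega)]
  have h2 : ∑ a ∈ univ.filter (fun a => j ≤ ka a ∧ ka a ≤ t), P (min (ka a) K) a ^ 2
      = ∑ a ∈ univ.filter (fun a => j ≤ ka a ∧ ka a ≤ t), P K a ^ 2 := by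
    refine Finset.sum_congr rfl fun a ha => ?_
    simp only [Finset.mem_filter, Finset.mem_univ, true_and] at ha
    rw [hconst (min (ka a) K) (by omega) (min_le_right _ _)]
  rw [h1, h2]
  have := hup t
  linarith

theorem path_bound {d : ℕ} (ka : Fin d → ℕ) (L : ℕ) (ℓ M : ℝ) (hℓ : 1 ≤ ℓ) (hM0 : 0 ≤ M)
    (hM : 4 * M * (3 / 4 : ℝ) ^ L ≤ 1) (c : ℕ → ℝ) (hc0 : ∀ k, 0 ≤ c k)
    (hc : ∀ K, ∑ k ∈ range K, c k ≤ 1)
    (K : ℕ) (P Q R v z : ℕ → Fin d → ℝ) (hP0 : P 0 = 0) (hQ0 : Q 0 = 0)
    (hstep : ∀ k < K, (P (k + 1) = P k ∧ Q (k + 1) = R k) ∨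
      (P (k + 1) = R k + v k ∧ Q (k + 1) = Q k))
    (hrich : ∀ k < K, ∀ a, k < ka a → R k a = z k a / 2)
    (hpoor : ∀ k < K, ∀ a, ka a ≤ k →
      |R k a - (P k a + Q k a) / 2| ≤ |v k a| / 2 + c k + |z k a| / 2)
    (hv : ∀ k < K, ∑ a, v k a ^ 2 ≤ 1)
    (hz1 : ∀ k < K, ∑ a ∈ univ.filter (fun a => ka a ≤ k ∧ k < ka a + L), z k a ^ 2
      ≤ 32 * ((univ.filter (fun a => ka a ≤ k ∧ k < ka a + L)).card : ℝ))
    (hz2 : ∀ k < K, ∀ t, ∑ a ∈ univ.filter (fun a => k < ka a ∧ ka a ≤ t), z k a ^ 2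
      ≤ 32 * ℓ * ((univ.filter (fun a => k < ka a ∧ ka a ≤ t)).card : ℝ))
    (hdead : ∀ k < K, ∀ a, ka a + L ≤ k →
      3 / 2 * |v k a| + 1 / 2 * |z k a| ≤ M * (3 / 4 : ℝ) ^ (k - ka a)) :
    ∑ a, P K a ^ 2 ≤ 3 * (36 * ℓ * d + 21 * (L : ℝ) ^ 2 * d + 4 * d) ∧
    ∑ a, Q K a ^ 2 ≤ 3 * (36 * ℓ * d + 21 * (L : ℝ) ^ 2 * d + 4 * d) := by
  have hactP := activation ka ℓ hℓ K P R v z hP0 (fun k hk => by
    rcases hstep k hk with h | h
    · exact Or.inl h.1
    · exact Or.inr h.1) hrich hv hz2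
  have hactQ := activation ka ℓ hℓ K Q R (fun _ _ => 0) z hQ0 (fun k hk => by
    rcases hstep k hk with h | h
    · right; rw [h.2]; funext a; simp
    · exact Or.inl h.2) hrich (fun k _ => by simp) hz2
  set s : ℕ → Fin d → ℝ := fun k a => 3 / 2 * |v k a| + 1 / 2 * |z k a| with hs
  have hs0 : ∀ k a, 0 ≤ s k a := fun k a => by simp only [hs]; positivity
  -- growth after activation
  have hgrow : ∀ a, ∀ k, ka a ≤ k → k ≤ K →
      max |P k a| |Q k a| ≤ max |P (ka a) a| |Q (ka a) a|
        + ∑ i ∈ Ico (ka a) k, (s i a + c i) := by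
    intro a k hak
    induction k, hak using Nat.le_induction with
    | base => intro _; simp
    | succ k hak ih =>
      intro hk
      have ih' := ih (by omega)
      rw [Finset.sum_Ico_succ_top hak]
      have hR := hpoor k (by omega) a hak
      have hPk : |P k a| ≤ max |P k a| |Q k a| := le_max_left _ _
      have hQk : |Q k a| ≤ max |P k a| |Q k a| := le_max_right _ _
      have hRb : |R k a| ≤ max |P k a| |Q k a| + |v k a| / 2 + c k + |z k a| / 2 := by
        have h1 : |(P k a + Q k a) / 2| ≤ max |P k a| |Q k a| := by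
          rw [abs_div, abs_two]
          have := abs_add_le (P k a) (Q k a)
          linarith
        have h2 : |R k a| ≤ |R k a - (P k a + Q k a) / 2| + |(P k a + Q k a) / 2| := by
          have := abs_add_le (R k a - (P k a + Q k a) / 2) ((P k a + Q k a) / 2)
          simpa using this
        linarith
      have hv0 := abs_nonneg (v k a)
      have hz0 := abs_nonneg (z k a)
      have hck := hc0 k
      have hgoal : max |P (k + 1) a| |Q (k + 1) a| ≤ max |P k a| |Q k a| + (s k a + c k) := by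
        simp only [hs]
        rcases hstep k (by omega) with h | h
        · rw [h.1, h.2]
          refine max_le ?_ ?_ <;> linarith
        · rw [h.1, h.2, Pi.add_apply]
          refine max_le ?_ ?_
          · have := abs_add_le (R k a) (v k a)
            linarith
          · linarith
      linarith
  -- active part
  set y : Fin d → ℝ := fun a => ∑ k ∈ (range K).filter (fun k => ka a ≤ k ∧ k < ka a + L), s k a
    with hy
  have hy0 : ∀ a, 0 ≤ y a := fun a => Finset.sum_nonneg fun k _ => hs0 k a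
  have hwin : ∀ a, (((range K).filter (fun k => ka a ≤ k ∧ k < ka a + L)).card : ℝ) ≤ L := by
    intro a
    have h1 : (range K).filter (fun k => ka a ≤ k ∧ k < ka a + L) ⊆ Ico (ka a) (ka a + L) := by
      intro k hk
      rw [Finset.mem_filter] at hk
      exact Finset.mem_Ico.2 hk.2
    have h2 := Finset.card_le_card h1
    rw [Nat.card_Ico] at h2
    have h3 : ka a + L - ka a = L := by omega
    rw [h3] at h2
    exact_mod_cast h2
  have hysq : ∀ a, y a ^ 2 ≤ L * ∑ k ∈ (range K).filter (fun k => ka a ≤ k ∧ k < ka a + L),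
      s k a ^ 2 := by
    intro a
    have h1 := sq_sum_le_card_mul_sum_sq (s := (range K).filter (fun k => ka a ≤ k ∧ k < ka a + L))
      (f := fun k => s k a)
    refine h1.trans ?_
    exact mul_le_mul_of_nonneg_right (hwin a) (Finset.sum_nonneg fun k _ => sq_nonneg _)
  have hssq : ∀ k a, s k a ^ 2 ≤ 9 / 2 * v k a ^ 2 + 1 / 2 * z k a ^ 2 := by
    intro k a
    simp only [hs]
    have h1 := sq_abs (v k a)
    have h2 := sq_abs (z k a)
    nlinarith [sq_nonneg (3 / 2 * |v k a| - 1 / 2 * |z k a|)]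
  have hkA : ∀ k < K, ∑ a ∈ univ.filter (fun a => ka a ≤ k ∧ k < ka a + L), s k a ^ 2
      ≤ 21 * ((univ.filter (fun a => ka a ≤ k ∧ k < ka a + L)).card : ℝ) := by
    intro k hk
    set A := univ.filter (fun a => ka a ≤ k ∧ k < ka a + L) with hA
    rcases A.eq_empty_or_nonempty with h0 | h0
    · rw [h0]; simp
    · have hcard : (1 : ℝ) ≤ (A.card : ℝ) := by exact_mod_cast Finset.card_pos.2 h0
      have h1 : ∑ a ∈ A, s k a ^ 2 ≤ ∑ a ∈ A, (9 / 2 * v k a ^ 2 + 1 / 2 * z k a ^ 2) :=
        Finset.sum_le_sum fun a _ => hssq k a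
      rw [Finset.sum_add_distrib, ← Finset.mul_sum, ← Finset.mul_sum] at h1
      have h2 : ∑ a ∈ A, v k a ^ 2 ≤ 1 :=
        (Finset.sum_le_univ_sum_of_nonneg fun a => sq_nonneg _).trans (hv k hk)
      have h3 := hz1 k hk
      rw [← hA] at h3
      linarith
  have hswap : ∀ f : ℕ → Fin d → ℝ,
      ∑ a, ∑ k ∈ (range K).filter (fun k => ka a ≤ k ∧ k < ka a + L), f k a
        = ∑ k ∈ range K, ∑ a ∈ univ.filter (fun a => ka a ≤ k ∧ k < ka a + L), f k a := by
    intro f
    have h1 : ∀ a, ∑ k ∈ (range K).filter (fun k => ka a ≤ k ∧ k < ka a + L), f k a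
        = ∑ k ∈ range K, if ka a ≤ k ∧ k < ka a + L then f k a else 0 := fun a =>
      Finset.sum_filter _ _
    have h2 : ∀ k, ∑ a ∈ univ.filter (fun a => ka a ≤ k ∧ k < ka a + L), f k a
        = ∑ a, if ka a ≤ k ∧ k < ka a + L then f k a else 0 := fun k =>
      Finset.sum_filter _ _
    simp only [h1, h2]
    exact Finset.sum_comm
  have hysum : ∑ a, y a ^ 2 ≤ 21 * (L : ℝ) ^ 2 * d := by
    have h1 : ∑ a, y a ^ 2 ≤ ∑ a, L * ∑ k ∈ (range K).filter (fun k => ka a ≤ k ∧ k < ka a + L),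
        s k a ^ 2 := Finset.sum_le_sum fun a _ => hysq a
    rw [← Finset.mul_sum, hswap (fun k a => s k a ^ 2)] at h1
    have h2 : ∑ k ∈ range K, ∑ a ∈ univ.filter (fun a => ka a ≤ k ∧ k < ka a + L), s k a ^ 2
        ≤ ∑ k ∈ range K, 21 * ((univ.filter (fun a => ka a ≤ k ∧ k < ka a + L)).card : ℝ) :=
      Finset.sum_le_sum fun k hk => hkA k (Finset.mem_range.1 hk)
    have h3 : ∑ k ∈ range K, ((univ.filter (fun a => ka a ≤ k ∧ k < ka a + L)).card : ℝ)
        ≤ L * d := by
      have h4 := hswap (fun _ _ => (1 : ℝ))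
      simp only [Finset.sum_const, nsmul_eq_mul, mul_one] at h4
      rw [← h4]
      calc ∑ a, (((range K).filter (fun k => ka a ≤ k ∧ k < ka a + L)).card : ℝ)
          ≤ ∑ _a : Fin d, (L : ℝ) := Finset.sum_le_sum fun a _ => hwin a
        _ = L * d := by simp [mul_comm]
    rw [← Finset.mul_sum] at h2
    have hL0 : (0 : ℝ) ≤ L := Nat.cast_nonneg L
    calc ∑ a, y a ^ 2 ≤ L * ∑ k ∈ range K,
          ∑ a ∈ univ.filter (fun a => ka a ≤ k ∧ k < ka a + L), s k a ^ 2 := h1
      _ ≤ L * (21 * ∑ k ∈ range K,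
          ((univ.filter (fun a => ka a ≤ k ∧ k < ka a + L)).card : ℝ)) :=
          mul_le_mul_of_nonneg_left h2 hL0
      _ ≤ L * (21 * (L * d)) := by
          refine mul_le_mul_of_nonneg_left ?_ hL0
          linarith
      _ = 21 * (L : ℝ) ^ 2 * d := by ring
  -- dead part
  have hdeadsum : ∀ a, ∑ k ∈ (range K).filter (fun k => ka a + L ≤ k), s k a ≤ 1 := by
    intro a
    have h1 : ∑ k ∈ (range K).filter (fun k => ka a + L ≤ k), s k a
        ≤ ∑ k ∈ (range K).filter (fun k => ka a + L ≤ k), M * (3 / 4 : ℝ) ^ (k - ka a) := by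
      refine Finset.sum_le_sum fun k hk => ?_
      rw [Finset.mem_filter, Finset.mem_range] at hk
      exact hdead k hk.1 a hk.2
    have h2 : (range K).filter (fun k => ka a + L ≤ k) ⊆ Ico (ka a + L) (ka a + L + K) := by
      intro k hk
      rw [Finset.mem_filter, Finset.mem_range] at hk
      rw [Finset.mem_Ico]
      omega
    have h3 : ∑ k ∈ (range K).filter (fun k => ka a + L ≤ k), M * (3 / 4 : ℝ) ^ (k - ka a)
        ≤ ∑ k ∈ Ico (ka a + L) (ka a + L + K), M * (3 / 4 : ℝ) ^ (k - ka a) :=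
      Finset.sum_le_sum_of_subset_of_nonneg h2 fun k _ _ => by positivity
    have h4 : ∑ k ∈ Ico (ka a + L) (ka a + L + K), M * (3 / 4 : ℝ) ^ (k - ka a)
        = M * (3 / 4 : ℝ) ^ L * ∑ i ∈ range K, (3 / 4 : ℝ) ^ i := by
      rw [Finset.sum_Ico_eq_sum_range, Finset.mul_sum]
      have h5 : ka a + L + K - (ka a + L) = K := by omega
      rw [h5]
      refine Finset.sum_congr rfl fun i _ => ?_
      have h6 : ka a + L + i - ka a = L + i := by omega
      rw [h6, pow_add]
      ring
    have h7 : ∑ i ∈ range K, (3 / 4 : ℝ) ^ i ≤ 4 := by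
      have h8 := geom_sum_eq (show (3 / 4 : ℝ) ≠ 1 by norm_num) K
      rw [h8]
      have h9 : (0 : ℝ) ≤ (3 / 4) ^ K := by positivity
      rw [div_le_iff_of_neg (by norm_num)]
      linarith
    have h8 : 0 ≤ M * (3 / 4 : ℝ) ^ L := by positivity
    calc ∑ k ∈ (range K).filter (fun k => ka a + L ≤ k), s k a
        ≤ M * (3 / 4 : ℝ) ^ L * ∑ i ∈ range K, (3 / 4 : ℝ) ^ i := by
          rw [← h4]; exact h1.trans h3
      _ ≤ M * (3 / 4 : ℝ) ^ L * 4 := mul_le_mul_of_nonneg_left h7 h8
      _ ≤ 1 := by linarith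
  -- the pointwise bound
  set X : Fin d → ℝ := fun a => max |P (min (ka a) K) a| |Q (min (ka a) K) a| with hX
  have hX0 : ∀ a, 0 ≤ X a := fun a => (abs_nonneg _).trans (le_max_left _ _)
  have hpt : ∀ a, max |P K a| |Q K a| ≤ X a + y a + 2 := by
    intro a
    rcases Nat.lt_or_ge K (ka a) with h | h
    · have h1 : min (ka a) K = K := min_eq_right h.le
      simp only [hX, h1]
      have := hy0 a
      linarith
    · have h1 : min (ka a) K = ka a := min_eq_left h
      have h2 := hgrow a K h le_rfl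
      simp only [hX, h1]
      have h3 : ∑ i ∈ Ico (ka a) K, (s i a + c i)
          = ∑ i ∈ Ico (ka a) K, s i a + ∑ i ∈ Ico (ka a) K, c i := Finset.sum_add_distrib
      have h4 : ∑ i ∈ Ico (ka a) K, c i ≤ 1 := by
        refine le_trans ?_ (hc K)
        refine Finset.sum_le_sum_of_subset_of_nonneg ?_ fun k _ _ => hc0 k
        intro k hk
        rw [Finset.mem_Ico] at hk
        exact Finset.mem_range.2 hk.2
      have h5 : ∑ i ∈ Ico (ka a) K, s i a ≤ y a + 1 := by
        have h6 : Ico (ka a) K ⊆ (range K).filter (fun k => ka a ≤ k ∧ k < ka a + L)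
            ∪ (range K).filter (fun k => ka a + L ≤ k) := by
          intro k hk
          rw [Finset.mem_Ico] at hk
          rw [Finset.mem_union, Finset.mem_filter, Finset.mem_filter, Finset.mem_range]
          omega
        have h7 : Disjoint ((range K).filter (fun k => ka a ≤ k ∧ k < ka a + L))
            ((range K).filter (fun k => ka a + L ≤ k)) := by
          rw [Finset.disjoint_left]
          intro k hk hk'
          rw [Finset.mem_filter] at hk hk'
          omega
        have h8 := Finset.sum_le_sum_of_subset_of_nonneg h6 (f := fun i => s i a)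
          fun k _ _ => hs0 k a
        rw [Finset.sum_union h7] at h8
        have h9 := hdeadsum a
        simp only [hy]
        linarith
      linarith
  have hfin : ∀ Z : Fin d → ℝ, (∀ a, |Z a| ≤ X a + y a + 2) →
      ∑ a, Z a ^ 2 ≤ 3 * (36 * ℓ * d + 21 * (L : ℝ) ^ 2 * d + 4 * d) := by
    intro Z hZ
    have h1 : ∀ a, Z a ^ 2 ≤ 3 * (X a ^ 2 + y a ^ 2 + 4) := by
      intro a
      have h2 : Z a ^ 2 ≤ (X a + y a + 2) ^ 2 := by
        rw [← sq_abs (Z a)]
        exact pow_le_pow_left₀ (abs_nonneg _) (hZ a) 2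
      nlinarith [sq_nonneg (X a - y a), sq_nonneg (X a - 2), sq_nonneg (y a - 2)]
    have h3 : ∑ a, X a ^ 2 ≤ 36 * ℓ * d := by
      have h4 : ∀ a, X a ^ 2 ≤ P (min (ka a) K) a ^ 2 + Q (min (ka a) K) a ^ 2 := by
        intro a
        simp only [hX]
        rcases max_choice |P (min (ka a) K) a| |Q (min (ka a) K) a| with h | h
        · rw [h, sq_abs]; nlinarith [sq_nonneg (Q (min (ka a) K) a)]
        · rw [h, sq_abs]; nlinarith [sq_nonneg (P (min (ka a) K) a)]
      have h5 := Finset.sum_le_sum fun a (_ : a ∈ (univ : Finset (Fin d))) => h4 a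
      rw [Finset.sum_add_distrib] at h5
      linarith
    have h6 := Finset.sum_le_sum fun a (_ : a ∈ (univ : Finset (Fin d))) => h1 a
    rw [← Finset.mul_sum, Finset.sum_add_distrib, Finset.sum_add_distrib] at h6
    simp only [Finset.sum_const, Finset.card_univ, Fintype.card_fin, nsmul_eq_mul] at h6
    linarith
  exact ⟨hfin (P K) fun a => (le_max_left _ _).trans (hpt a),
    hfin (Q K) fun a => (le_max_right _ _).trans (hpt a)⟩

end P262
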