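import Mathlib
import Vale.Agent.P262.Theta
import Vale.Agent.P262.Path

/-! P262: histories of root-to-node paths and their bound. -/

namespace P262

open Finset

variable {d N : ℕ}

/-- the history of a path of length `K` from the root -/
structure Hist (S : Sys d N) (L K : ℕ) (P Q R v z : ℕ → Fin d → ℝ) : Prop where
  P0 : P 0 = 0
  Q0 : Q 0 = 0
  step : ∀ k < K, (P (k + 1) = P k ∧ Q (k + 1) = R k) ∨
    (P (k + 1) = R k + v k ∧ Q (k + 1) = Q k)
  rel : ∀ k < K, StepRel S L k (P k) (Q k) (R k) (v k) (z k)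

theorem exists_L (hd : 1 ≤ d) : ∃ L : ℕ,
    4 * (10 * hC d * q d * lam d) * (3 / 4 : ℝ) ^ L ≤ 1 ∧ (L : ℝ) ≤ 71 * (1 + Real.log d) := by
  have hd1 : (1 : ℝ) ≤ d := by exact_mod_cast hd
  have hlog : 0 ≤ Real.log d := Real.log_nonneg hd1
  refine ⟨⌈70 * (1 + Real.log d)⌉₊, ?_, ?_⟩
  · set L := ⌈70 * (1 + Real.log d)⌉₊ with hL
    have hLle : 70 * (1 + Real.log d) ≤ L := Nat.le_ceil _
    have h43 : (2 / 7 : ℝ) ≤ Real.log (4 / 3) := by
      rw [Real.le_log_iff_exp_le (by norm_num)]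
      have h1 : Real.exp (2 / 7) ^ 7 ≤ (4 / 3 : ℝ) ^ 7 := by
        rw [← Real.exp_nat_mul]
        have e : ((7 : ℕ) : ℝ) * (2 / 7) = ((2 : ℕ) : ℝ) * 1 := by norm_num
        rw [e, Real.exp_nat_mul]
        have h2 : Real.exp 1 ≤ 2.7182818286 := Real.exp_one_lt_d9.le
        calc Real.exp 1 ^ 2 ≤ (2.7182818286 : ℝ) ^ 2 :=
              pow_le_pow_left₀ (Real.exp_pos 1).le h2 2
          _ ≤ (4 / 3 : ℝ) ^ 7 := by norm_num
      exact le_of_pow_le_pow_left₀ (by norm_num) (by norm_num) h1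
    have hM : 4 * (10 * hC d * q d * lam d) ≤ 48800000 * (d : ℝ) ^ 9 := by
      have a1 : hC d ≤ 2 * (d : ℝ) ^ 2 := by unfold hC; nlinarith
      have a2 : q d ≤ 61 * (d : ℝ) ^ 2 := by
        unfold q q1 cE hC; nlinarith
      have a3 : hC d * q d ≤ 2 * (d : ℝ) ^ 2 * (61 * (d : ℝ) ^ 2) :=
        mul_le_mul a1 a2 (by linarith [one_le_q hd]) (by positivity)
      have a4 : 0 ≤ lam d := (lam_pos hd).le
      calc 4 * (10 * hC d * q d * lam d) = 40 * (hC d * q d) * lam d := by ring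
        _ ≤ 40 * (2 * (d : ℝ) ^ 2 * (61 * (d : ℝ) ^ 2)) * lam d := by
            refine mul_le_mul_of_nonneg_right ?_ a4
            linarith
        _ = 48800000 * (d : ℝ) ^ 9 := by unfold lam; ring
    have hbig : 48800000 * (d : ℝ) ^ 9 ≤ (4 / 3 : ℝ) ^ L := by
      have b1 : (4 / 3 : ℝ) ^ L = Real.exp (L * Real.log (4 / 3)) := by
        rw [Real.exp_nat_mul, Real.exp_log (by norm_num)]
      have b2 : 20 * (1 + Real.log d) ≤ L * Real.log (4 / 3) := by
        have c1 : 70 * (1 + Real.log d) * (2 / 7) ≤ L * Real.log (4 / 3) :=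
          mul_le_mul hLle h43 (by norm_num) (by positivity)
        linarith
      have b3 : Real.exp (20 * (1 + Real.log d)) = Real.exp 1 ^ 20 * (d : ℝ) ^ 20 := by
        have e : 20 * (1 + Real.log d) = ((20 : ℕ) : ℝ) * 1 + ((20 : ℕ) : ℝ) * Real.log d := by
          push_cast; ring
        rw [e, Real.exp_add, Real.exp_nat_mul, Real.exp_nat_mul, Real.exp_log (by linarith)]
      have b4 : (48800000 : ℝ) ≤ Real.exp 1 ^ 20 := by
        have h2 : (2.7 : ℝ) ≤ Real.exp 1 := by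
          have := Real.exp_one_gt_d9
          linarith
        calc (48800000 : ℝ) ≤ 2.7 ^ 20 := by norm_num
          _ ≤ Real.exp 1 ^ 20 := pow_le_pow_left₀ (by norm_num) h2 20
      have b5 : (d : ℝ) ^ 9 ≤ (d : ℝ) ^ 20 := pow_le_pow_right₀ hd1 (by norm_num)
      calc 48800000 * (d : ℝ) ^ 9 ≤ Real.exp 1 ^ 20 * (d : ℝ) ^ 20 :=
            mul_le_mul b4 b5 (by positivity) (by positivity)
        _ = Real.exp (20 * (1 + Real.log d)) := b3.symm
        _ ≤ Real.exp (L * Real.log (4 / 3)) := Real.exp_le_exp.2 b2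
        _ = (4 / 3 : ℝ) ^ L := b1.symm
    have hprod : (4 / 3 : ℝ) ^ L * (3 / 4 : ℝ) ^ L = 1 := by
      rw [← mul_pow]; norm_num
    calc 4 * (10 * hC d * q d * lam d) * (3 / 4 : ℝ) ^ L
        ≤ (4 / 3 : ℝ) ^ L * (3 / 4 : ℝ) ^ L :=
          mul_le_mul_of_nonneg_right (hM.trans hbig) (by positivity)
      _ = 1 := hprod
  · have h1 := Nat.ceil_lt_add_one (a := 70 * (1 + Real.log d)) (by positivity)
    linarith

theorem hist_bound (S : Sys d N) : ∃ L : ℕ, ∀ (K : ℕ) (P Q R v z : ℕ → Fin d → ℝ),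
    Hist S L K P Q R v z →
      ∑ a, P K a ^ 2 ≤ 1000000 * d * (1 + Real.log d) ^ 2 ∧
      ∑ a, Q K a ^ 2 ≤ 1000000 * d * (1 + Real.log d) ^ 2 := by
  obtain ⟨L, hL1, hL2⟩ := exists_L S.hd
  refine ⟨L, fun K P Q R v z H => ?_⟩
  have hd1 : (1 : ℝ) ≤ d := by exact_mod_cast S.hd
  have hlog : 0 ≤ Real.log d := Real.log_nonneg hd1
  set ℓ : ℝ := 1 + Real.log d with hℓ
  have hℓ1 : 1 ≤ ℓ := by rw [hℓ]; linarith
  have hMq : 0 ≤ 10 * hC d * q d := by
    have := one_le_q S.hd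
    have := hC_nonneg (d := d)
    positivity
  have hM0 : 0 ≤ 10 * hC d * q d * lam d := mul_nonneg hMq (lam_pos S.hd).le
  have key := path_bound S.ka L ℓ (10 * hC d * q d * lam d) hℓ1 hM0 hL1
    (fun k => S.sig k / (4 * d)) (fun k => div_nonneg (S.sig_nonneg k) (by positivity))
    (fun K => by
      rw [← Finset.sum_div, div_le_one (by positivity)]
      exact S.sum_sig_le K)
    K P Q R v z H.P0 H.Q0 H.step (fun k hk => (H.rel k hk).rich) (fun k hk => (H.rel k hk).poor)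
    (fun k hk => (H.rel k hk).hv) (fun k hk => (H.rel k hk).z1) (fun k hk => (H.rel k hk).z2)
    (fun k hk a ha => by
      refine ((H.rel k hk).dead a).trans ?_
      have h1 : S.ka a ≤ k := by omega
      have h2 := S.sqrt_mu_le h1
      calc 10 * hC d * q d * Real.sqrt (S.mu a k)
          ≤ 10 * hC d * q d * (lam d * (3 / 4 : ℝ) ^ (k - S.ka a)) :=
            mul_le_mul_of_nonneg_left h2 hMq
        _ = 10 * hC d * q d * lam d * (3 / 4 : ℝ) ^ (k - S.ka a) := by ring)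
  have hconst : 3 * (36 * ℓ * d + 21 * (L : ℝ) ^ 2 * d + 4 * d) ≤ 1000000 * d * ℓ ^ 2 := by
    have c1 : (L : ℝ) ^ 2 ≤ (71 * ℓ) ^ 2 := pow_le_pow_left₀ (Nat.cast_nonneg L) hL2 2
    have c2 : ℓ ≤ ℓ ^ 2 := by nlinarith
    have c3 : 1 ≤ ℓ ^ 2 := by nlinarith
    have c4 : 3 * (36 * ℓ + 21 * (L : ℝ) ^ 2 + 4) ≤ 1000000 * ℓ ^ 2 := by
      have : (71 * ℓ) ^ 2 = 5041 * ℓ ^ 2 := by ring
      linarith
    have c5 := mul_le_mul_of_nonneg_right c4 (le_trans zero_le_one hd1)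
    linarith
  exact ⟨key.1.trans hconst, key.2.trans hconst⟩

end P262
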