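import Mathlib
import Vale.Agent.P262.Core

/-! P262: the splitting step. -/

namespace P262

open Finset

theorem step {d N : ℕ} (S : Sys d N) (L k : ℕ) (W : Finset (Fin N)) (P Q : Fin d → ℝ)
    (hN : Node S k W P Q) (hW : W.Nonempty) :
    ∃ (m : Fin N) (W1 W2 : Finset (Fin N)) (R z : Fin d → ℝ),
      m ∉ W1 ∧ m ∉ W2 ∧ Disjoint W1 W2 ∧ W = insert m (W1 ∪ W2) ∧
      Node S (k + 1) W1 P R ∧ Node S (k + 1) W2 (fun a => R a + S.v m a) Q ∧
      StepRel S L k P Q R (S.v m) z := by
  classical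
  set m : Fin N := W.min' hW with hm'
  have hm : m ∈ W := W.min'_mem hW
  have hmin : ∀ i ∈ W, m ≤ i := fun i hi => W.min'_le i hi
  obtain ⟨s, z, hs, h1, h2, h3, h4, h5⟩ := step_core S L k W P Q hN m hm hmin
  set W1 : Finset (Fin N) := (W.erase m).filter (fun i => s i = 1) with hW1
  set W2 : Finset (Fin N) := (W.erase m).filter (fun i => - s i = 1) with hW2
  have hd1 : (1 : ℝ) ≤ d := by exact_mod_cast S.hd
  have hC2 : 2 ≤ hC d := by
    unfold hC; nlinarith
  have hq1 : 1 ≤ q d := one_le_q S.hd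
  have hm1 : m ∉ W1 := fun h => (Finset.mem_erase.1 (Finset.mem_filter.1 h).1).1 rfl
  have hm2 : m ∉ W2 := fun h => (Finset.mem_erase.1 (Finset.mem_filter.1 h).1).1 rfl
  have hdisj : Disjoint W1 W2 := by
    rw [Finset.disjoint_left]
    intro i hi hi'
    have e1 := (Finset.mem_filter.1 hi).2
    have e2 := (Finset.mem_filter.1 hi').2
    rw [e1] at e2
    norm_num at e2
  have hunion : W.erase m = W1 ∪ W2 := by
    ext i
    rw [Finset.mem_union, hW1, hW2, Finset.mem_filter, Finset.mem_filter]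
    constructor
    · intro hi
      rcases hs.sign i with h | h
      · exact Or.inl ⟨hi, h⟩
      · exact Or.inr ⟨hi, by rw [h]; norm_num⟩
    · rintro (h | h) <;> exact h.1
  have hWeq : W = insert m (W1 ∪ W2) := by
    rw [← hunion, Finset.insert_erase hm]
  -- sums
  have hsumE : ∀ f : Fin N → ℝ, ∑ i ∈ W.erase m, f i = ∑ i ∈ W1, f i + ∑ i ∈ W2, f i := by
    intro f
    rw [hunion, Finset.sum_union hdisj]
  have hsumW : ∀ f : Fin N → ℝ, ∑ i ∈ W, f i = f m + (∑ i ∈ W1, f i + ∑ i ∈ W2, f i) := by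
    intro f
    rw [← hsumE f, Finset.add_sum_erase W f hm]
  have hsigned : ∀ a, ∑ i ∈ W.erase m, s i * S.v i a
      = ∑ i ∈ W1, S.v i a - ∑ i ∈ W2, S.v i a := by
    intro a
    rw [hsumE (fun i => s i * S.v i a), sub_eq_add_neg, ← Finset.sum_neg_distrib]
    congr 1
    · refine Finset.sum_congr rfl fun i hi => ?_
      rw [(Finset.mem_filter.1 hi).2, one_mul]
    · refine Finset.sum_congr rfl fun i hi => ?_
      have e := (Finset.mem_filter.1 hi).2
      have e2 : s i = -1 := by linarith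
      rw [e2]; ring
  set R : Fin d → ℝ := fun a => P a + ∑ i ∈ W1, S.v i a with hR
  have hR2 : ∀ a, R a = (P a + Q a - S.v m a) / 2 + (∑ i ∈ W.erase m, s i * S.v i a) / 2 := by
    intro a
    rw [hsigned a, hN.sum a, hsumW (fun i => S.v i a)]
    simp only [hR]
    ring
  have hQ2 : ∀ a, Q a = (R a + S.v m a) + ∑ i ∈ W2, S.v i a := by
    intro a
    rw [hN.sum a, hsumW (fun i => S.v i a)]
    simp only [hR]
    ring
  have hv1 : ∀ i a, |S.v i a| ≤ 1 := by
    intro i a
    have e1 : S.v i a ^ 2 ≤ 1 :=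
      (Finset.single_le_sum (f := fun a => S.v i a ^ 2) (fun b _ => sq_nonneg _)
        (Finset.mem_univ a)).trans (S.norm_le i)
    exact (sq_le_one_iff_abs_le_one _).1 e1
  have hRrich : ∀ a, k < S.ka a → |R a| ≤ 4 * hC d := by
    intro a ha
    rw [hR2 a, h1 a ha, abs_div, abs_two]
    have := h3 a 1 zero_le_one fun i _ => hv1 i a
    linarith
  refine ⟨m, W1, W2, R, z, hm1, hm2, hdisj, hWeq, ?_, ?_, ?_⟩
  · refine child S k W P Q hN m hm hmin s hs P R (fun a => rfl) fun a ha => ?_
    have hk : k < S.ka a := by omega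
    refine ⟨(hN.rich a hk).1, (hRrich a hk).trans ?_⟩
    unfold D1; linarith
  · refine child S k W P Q hN m hm hmin (fun i => - s i) hs.neg (fun a => R a + S.v m a) Q
      hQ2 fun a ha => ?_
    have hk : k < S.ka a := by omega
    refine ⟨?_, (hN.rich a hk).2⟩
    have e1 := abs_add_le (R a) (S.v m a)
    have e2 := hRrich a hk
    have e3 := hv1 m a
    unfold D1; linarith
  · refine ⟨fun a ha => ?_, fun a ha => ?_, S.norm_le m, h4, h5, fun a => ?_⟩
    · rw [hR2 a, h1 a ha]
    · have e1 := h2 a ha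
      have e2 : R a - (P a + Q a) / 2 = ((∑ i ∈ W.erase m, s i * S.v i a) / 2 - z a / 2)
          + (z a / 2 + - (S.v m a / 2)) := by
        rw [hR2 a]; ring
      rw [e2]
      have e3 := abs_add_le ((∑ i ∈ W.erase m, s i * S.v i a) / 2 - z a / 2)
        (z a / 2 + - (S.v m a / 2))
      have e4 := abs_add_le (z a / 2) (- (S.v m a / 2))
      have e5 : |z a / 2| = |z a| / 2 := by rw [abs_div, abs_two]
      have e6 : |-(S.v m a / 2)| = |S.v m a| / 2 := by rw [abs_neg, abs_div, abs_two]
      linarith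
    · have hmu : 0 ≤ S.mu a k := S.mu_nonneg a k
      set r : ℝ := Real.sqrt (S.mu a k) with hr
      have hr0 : 0 ≤ r := Real.sqrt_nonneg _
      have hrr : r ^ 2 = S.mu a k := Real.sq_sqrt hmu
      have hvB : ∀ i ∈ W, |S.v i a| ≤ 2 * q d * r := by
        intro i hi
        have e1 := hN.small i hi a
        have e2 : S.v i a ^ 2 ≤ (2 * q d * r) ^ 2 := by
          calc S.v i a ^ 2 ≤ 4 * q d * S.mu a k := e1
            _ ≤ 4 * q d * q d * S.mu a k := by
                have : 4 * q d * S.mu a k * 1 ≤ 4 * q d * S.mu a k * q d :=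
                  mul_le_mul_of_nonneg_left hq1 (by positivity)
                linarith
            _ = (2 * q d * r) ^ 2 := by rw [← hrr]; ring
        exact abs_le_of_sq_le_sq e2 (by positivity) |> fun h => h
      have e1 := h3 a (2 * q d * r) (by positivity) fun i hi => hvB i (Finset.mem_of_mem_erase hi)
      have e2 := hvB m hm
      have e3 : 0 ≤ q d * r := by positivity
      have e4 : 2 * (q d * r) ≤ hC d * (q d * r) := mul_le_mul_of_nonneg_right hC2 e3
      nlinarith

end P262
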