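import Mathlib
import Vale.Agent.P262.FinalC
import Vale.Agent.P262.FinalB
import Vale.Agent.P262.Step

/-! P262: the tree of blocks and the ordering. -/

namespace P262

open Finset

variable {d N : ℕ}

theorem Hist.extend {S : Sys d N} {L K : ℕ} {P Q R v z : ℕ → Fin d → ℝ}
    (H : Hist S L K P Q R v z) {P1 Q1 R0 v0 z0 : Fin d → ℝ}
    (h : (P1 = P K ∧ Q1 = R0) ∨ (P1 = R0 + v0 ∧ Q1 = Q K))
    (hr : StepRel S L K (P K) (Q K) R0 v0 z0) :
    Hist S L (K + 1) (Function.update P (K + 1) P1) (Function.update Q (K + 1) Q1)
      (Function.update R K R0) (Function.update v K v0) (Function.update z K z0) := by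
  refine ⟨?_, ?_, ?_, ?_⟩
  · rw [Function.update_of_ne (by omega)]
    exact H.P0
  · rw [Function.update_of_ne (by omega)]
    exact H.Q0
  · intro k hk
    rcases Nat.lt_or_ge k K with h1 | h1
    · have e1 : k + 1 ≠ K + 1 := by omega
      have e2 : k ≠ K + 1 := by omega
      have e3 : k ≠ K := by omega
      rw [Function.update_of_ne e1, Function.update_of_ne e1, Function.update_of_ne e2,
        Function.update_of_ne e2, Function.update_of_ne e3, Function.update_of_ne e3]
      exact H.step k h1
    · have e : k = K := by omega
      subst e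
      have e2 : k ≠ k + 1 := by omega
      rw [Function.update_self, Function.update_self, Function.update_self,
        Function.update_self, Function.update_of_ne e2, Function.update_of_ne e2]
      exact h
  · intro k hk
    rcases Nat.lt_or_ge k K with h1 | h1
    · have e2 : k ≠ K + 1 := by omega
      have e3 : k ≠ K := by omega
      rw [Function.update_of_ne e2, Function.update_of_ne e2, Function.update_of_ne e3,
        Function.update_of_ne e3, Function.update_of_ne e3]
      exact H.rel k h1
    · have e : k = K := by omega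
      subst e
      have e2 : k ≠ k + 1 := by omega
      rw [Function.update_self, Function.update_self,
        Function.update_self, Function.update_of_ne e2, Function.update_of_ne e2]
      exact hr

theorem tree (S : Sys d N) (L : ℕ) (B : ℝ)
    (hB : ∀ (K : ℕ) (P Q R v z : ℕ → Fin d → ℝ), Hist S L K P Q R v z →
      ∑ a, P K a ^ 2 ≤ B) :
    ∀ (n K : ℕ) (W : Finset (Fin N)) (P Q R v z : ℕ → Fin d → ℝ), W.card ≤ n →
      Node S K W (P K) (Q K) → Hist S L K P Q R v z →
      ∃ l : List (Fin N), l.Nodup ∧ (∀ i, i ∈ l ↔ i ∈ W) ∧
        ∀ j, ∑ a, (P K a + ((l.take j).map (fun i => S.v i a)).sum) ^ 2 ≤ B := by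
  classical
  intro n
  induction n with
  | zero =>
    intro K W P Q R v z hcard _ H
    have hW : W = ∅ := Finset.card_eq_zero.1 (by omega)
    refine ⟨[], List.nodup_nil, fun i => by simp [hW], fun j => ?_⟩
    simpa using hB K P Q R v z H
  | succ n ih =>
    intro K W P Q R v z hcard hN H
    rcases W.eq_empty_or_nonempty with hW | hW
    · refine ⟨[], List.nodup_nil, fun i => by simp [hW], fun j => ?_⟩
      simpa using hB K P Q R v z H
    · obtain ⟨m, W1, W2, R0, z0, hm1, hm2, hdisj, hWeq, hN1, hN2, hrel⟩ :=
        step S L K W (P K) (Q K) hN hW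
      have hc : W.card = W1.card + W2.card + 1 := by
        rw [hWeq, Finset.card_insert_of_notMem (by
          rw [Finset.mem_union]; exact fun h => h.elim hm1 hm2), Finset.card_union_of_disjoint hdisj]
      have H1 := H.extend (P1 := P K) (Q1 := R0) (Or.inl ⟨rfl, rfl⟩) hrel
      have H2 := H.extend (P1 := fun a => R0 a + S.v m a) (Q1 := Q K) (Or.inr ⟨rfl, rfl⟩) hrel
      obtain ⟨l1, hnd1, hmem1, hb1⟩ := ih (K + 1) W1 _ _ _ _ _ (by omega)
        (by rw [Function.update_self, Function.update_self]; exact hN1) H1
      obtain ⟨l2, hnd2, hmem2, hb2⟩ := ih (K + 1) W2 _ _ _ _ _ (by omega)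
        (by rw [Function.update_self, Function.update_self]; exact hN2) H2
      rw [Function.update_self] at hb1 hb2
      refine ⟨l1 ++ m :: l2, ?_, ?_, ?_⟩
      · rw [List.nodup_append]
        refine ⟨hnd1, ?_, ?_⟩
        · rw [List.nodup_cons]
          exact ⟨fun h => hm2 ((hmem2 m).1 h), hnd2⟩
        · intro a ha b hb hab
          subst hab
          rcases List.mem_cons.1 hb with h | h
          · exact hm1 (h ▸ (hmem1 a).1 ha)
          · exact Finset.disjoint_left.1 hdisj ((hmem1 a).1 ha) ((hmem2 a).1 h)
      · intro i
        rw [List.mem_append, List.mem_cons, hmem1, hmem2, hWeq, Finset.mem_insert,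
          Finset.mem_union]
        tauto
      · intro j
        rcases Nat.lt_or_ge l1.length j with hj | hj
        · obtain ⟨t, ht⟩ : ∃ t, j = l1.length + (t + 1) := ⟨j - l1.length - 1, by omega⟩
          have htake : (l1 ++ m :: l2).take j = l1 ++ m :: l2.take t := by
            rw [ht, List.take_length_add_append, List.take_succ_cons]
          have hsum : ∀ a, P K a + (((l1 ++ m :: l2).take j).map (fun i => S.v i a)).sum
              = R0 a + S.v m a + ((l2.take t).map (fun i => S.v i a)).sum := by
            intro a
            have e1 : (l1.map (fun i => S.v i a)).sum = ∑ i ∈ W1, S.v i a := by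
              rw [← List.sum_toFinset _ hnd1]
              refine Finset.sum_congr ?_ fun _ _ => rfl
              ext i
              rw [List.mem_toFinset, hmem1]
            rw [htake, List.map_append, List.sum_append, List.map_cons, List.sum_cons, e1,
              hN1.sum a]
            ring
          simp only [hsum]
          exact hb2 t
        · have htake : (l1 ++ m :: l2).take j = l1.take j := List.take_append_of_le_length hj
          rw [htake]
          exact hb1 j

/-- Main bound for a system: an ordering of `Fin N` all of whose prefix sums are small. -/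
theorem order_sys' {d N : ℕ} (S : Sys d N) :
    ∃ l : List (Fin N), l.Nodup ∧ (∀ i, i ∈ l) ∧
      ∀ n, ∑ a, (((l.take n).map (fun i => S.v i a)).sum) ^ 2
        ≤ 1000000 * d * (1 + Real.log d) ^ 2 := by
  obtain ⟨L, hL⟩ := hist_bound S
  have H0 : Hist S L 0 (fun _ => (0 : Fin d → ℝ)) (fun _ => 0) (fun _ => 0) (fun _ => 0)
      (fun _ => 0) :=
    ⟨rfl, rfl, fun k hk => absurd hk (Nat.not_lt_zero k), fun k hk => absurd hk (Nat.not_lt_zero k)⟩
  obtain ⟨l, hnd, hmem, hb⟩ := tree S L _ (fun K P Q R v z H => (hL K P Q R v z H).1)
    (univ : Finset (Fin N)).card 0 univ _ _ _ _ _ le_rfl (root_node' S) H0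
  refine ⟨l, hnd, fun i => (hmem i).2 (Finset.mem_univ i), fun n => ?_⟩
  simpa using hb n

end P262
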