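import Mathlib
import Vale.Agent.P262.FinalD

/-! P262: the final bound. -/

namespace P262

open Finset

theorem root_node {d N : ℕ} (S : Sys d N) : Node S 0 univ (0 : Fin d → ℝ) 0 := root_node' S

/-- Main bound for a system: an ordering of `Fin N` all of whose prefix sums are small. -/
theorem order_sys {d N : ℕ} (S : Sys d N) :
    ∃ l : List (Fin N), l.Nodup ∧ (∀ i, i ∈ l) ∧
      ∀ n, ∑ a, (((l.take n).map (fun i => S.v i a)).sum) ^ 2
        ≤ 1000000 * d * (1 + Real.log d) ^ 2 := order_sys' S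

/-- `S_2(d) ≤ C √d (1 + log d)` -/
theorem steinitz {d N : ℕ} (hd : 1 ≤ d) (w : Fin N → EuclideanSpace ℝ (Fin d))
    (hw : ∀ i, ‖w i‖ ≤ 1) (h0 : ∑ i, w i = 0) :
    ∃ π : Equiv.Perm (Fin N), ∀ k : ℕ, k ≤ N →
      ‖∑ i ∈ univ.filter (fun i : Fin N => (i : ℕ) < k), w (π i)‖
        ≤ 1000 * Real.sqrt d * (1 + Real.log d) :=
  steinitz_of_order hd (fun S => order_sys S) w hw h0

end P262
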