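import Mathlib
import Vale.Agent.P262.Theta

/-! P262, second version (square root of the logarithm): constants, nodes, steps. -/

namespace P262

open Finset

noncomputable def cE2 (d : ℕ) : ℝ := 7 + 4 * hC d
noncomputable def q12 (d : ℕ) : ℝ := 2 * (d + cE2 d)
noncomputable def q2 (d : ℕ) : ℝ := 2 * q12 d + 1
/-- square root of the second-moment constant -/
noncomputable def b1 (d : ℕ) : ℝ := 8 * hC d * q2 d * lam d
noncomputable def B2 (d : ℕ) : ℝ := 64 * hC d * q2 d * lam d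

variable {d N : ℕ}

/-- the local invariants of a node `W` of level `k` with boundaries `P`, `Q` -/
structure Node2 (S : Sys d N) (k : ℕ) (W : Finset (Fin N)) (P Q : Fin d → ℝ) : Prop where
  sum : ∀ a, Q a = P a + ∑ i ∈ W, S.v i a
  rank : ∀ i ∈ W, S.kk i ≤ k →
    ((W.filter (fun j => j < i)).card : ℝ) * 2 ^ k ≤ q2 d * 2 ^ S.kk i
  nsp : ((W.filter (fun i => S.kk i ≤ k)).card : ℝ) ≤ q2 d
  cls : ∀ t, k ≤ t → ((W.filter (fun i => S.kk i = t)).card : ℝ) * 2 ^ k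
    ≤ (1 + S.th k) * (d * 2 ^ t + cE2 d * 2 ^ k)
  mom : ∀ a b, |∑ i ∈ W, S.v i a * S.v i b - (if a = b then S.mu a k else 0)|
    ≤ cG d + S.th k * Real.sqrt (S.g a k * S.g b k)
  rich : ∀ a, k < S.ka a → |P a| ≤ 4 * hC d ∧ |Q a| ≤ 4 * hC d
  momd : ∀ a, S.ka a ≤ k → ∀ m ∈ W, (∀ i ∈ W, m ≤ i) →
    ∑ i ∈ W.erase m, S.v i a ^ 2 ≤ b1 d ^ 2 * (7 / 8 : ℝ) ^ (k - S.ka a)
  rest : ∀ a, S.ka a ≤ k → ∀ m ∈ W, (∀ i ∈ W, m ≤ i) →
    |∑ i ∈ W.erase m, S.v i a| ≤ B2 d * (15 / 16 : ℝ) ^ (k - S.ka a)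

/-- signs splitting `W`; `m`, `i1` are the two smallest elements and are separated -/
structure Signs2 (S : Sys d N) (k : ℕ) (W : Finset (Fin N)) (m i1 : Fin N)
    (s : Fin N → ℝ) : Prop where
  sign : ∀ i, s i = 1 ∨ s i = -1
  opp : s i1 = - s m
  mom : ∀ a b, |∑ i ∈ W, s i * (S.v i a * S.v i b)|
    ≤ 2 + 8 * hC d
      + S.xi k * Real.sqrt ((∑ i ∈ W, S.v i a * S.v i a) * (∑ i ∈ W, S.v i b * S.v i b))
  cls : ∀ t, k < t → |∑ i ∈ W.filter (fun i => S.kk i = t), s i|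
    ≤ S.xi k * ((W.filter (fun i => S.kk i = t)).card : ℝ) + (cE d + 1)
  rank : ∀ i ∈ ((W.erase m).erase i1).filter (fun j => S.kk j ≤ k),
    2 * ((((W.erase m).erase i1).filter (fun j => S.kk j ≤ k)).filter
        (fun j => j < i ∧ s j = s i)).card
      ≤ ((((W.erase m).erase i1).filter (fun j => S.kk j ≤ k)).filter (fun j => j < i)).card
  cnt : ∀ c : ℝ, 2 * ((((W.erase m).erase i1).filter (fun j => S.kk j ≤ k)).filter
        (fun j => s j = c)).card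
      ≤ (((W.erase m).erase i1).filter (fun j => S.kk j ≤ k)).card + 1
  sq : ∀ a, S.ka a ≤ k → |∑ i ∈ (W.erase m).erase i1, s i * S.v i a ^ 2|
    ≤ S.xi k * ∑ i ∈ (W.erase m).erase i1, S.v i a ^ 2 + 8 * hC d * (2 * q2 d * S.mu a k)
  lin : ∀ a, S.ka a ≤ k → |∑ i ∈ (W.erase m).erase i1, s i * S.v i a|
    ≤ 24 * hC d * q2 d * lam d * (15 / 16 : ℝ) ^ (k - S.ka a)

/-- the quantitative output of one splitting step -/
structure StepRel2 (S : Sys d N) (L : ℕ) (k : ℕ) (P Q R w y z : Fin d → ℝ) : Prop where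
  rich : ∀ a, k < S.ka a → R a = z a / 2
  poor : ∀ a, S.ka a ≤ k → R a = (P a + Q a + w a + y a + z a) / 2
  hw : ∑ a, w a ^ 2 ≤ 4
  cw : ∑ a ∈ univ.filter (fun a => S.ka a ≤ k), (P a + Q a) * w a ≤ 0
  cz : ∑ a ∈ univ.filter (fun a => S.ka a ≤ k), (P a + Q a) * z a ≤ 0
  hy : ∀ a, S.ka a ≤ k → |y a| ≤ S.sig k / (2 * d)
  z1 : ∑ a ∈ univ.filter (fun a => S.ka a ≤ k ∧ k < S.ka a + L), z a ^ 2
      ≤ 128 * ((univ.filter (fun a => S.ka a ≤ k ∧ k < S.ka a + L)).card : ℝ)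
  z2 : ∀ t, ∑ a ∈ univ.filter (fun a => k < S.ka a ∧ S.ka a ≤ t), z a ^ 2
      ≤ 128 * (1 + Real.log d) * ((univ.filter (fun a => k < S.ka a ∧ S.ka a ≤ t)).card : ℝ)
  dead : ∀ a, S.ka a ≤ k → (w a + y a + z a) ^ 2 - (Q a - P a) ^ 2
      ≤ 5 * B2 d ^ 2 * (15 / 16 : ℝ) ^ (k - S.ka a)

end P262
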