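import Mathlib
import Vale.Agent.P262.V2Defs

namespace P262

open Finset

variable {d N : ℕ} (S : Sys d N)

theorem one_le_q2 (hd : 1 ≤ d) : 1 ≤ q2 d := by
  have h := hC_nonneg (d := d)
  have hd' : (0 : ℝ) ≤ d := by positivity
  unfold q2 q12 cE2
  linarith

theorem q2_le (hd : 1 ≤ d) : q2 d ≤ 65 * (d : ℝ) ^ 2 := by
  have h1 : (1 : ℝ) ≤ d := by exact_mod_cast hd
  have h2 := hC_le hd
  unfold q2 q12 cE2
  nlinarith

theorem cGq2_le (hd : 1 ≤ d) : cG d + (q2 d + 2) ≤ 100 * (d : ℝ) ^ 2 := by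
  have h1 : (1 : ℝ) ≤ d := by exact_mod_cast hd
  have h2 := hC_le hd
  unfold cG q2 q12 cE2
  nlinarith

/-- near-diagonality needed in `restore` -/
theorem Sys.diag_bound2 {a b : Fin d} {k : ℕ} (ha : k < S.ka a) (hb : k < S.ka b) :
    cG d + S.th k * Real.sqrt (S.g a k * S.g b k) + (q2 d + 2)
      ≤ 1 / (2 * d) * Real.sqrt (S.mu a k * S.mu b k) := by
  have h1 : (1 : ℝ) ≤ d := by exact_mod_cast S.hd
  have hdp : (0 : ℝ) < d := by linarith
  have hl := lam_pos S.hd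
  have hc := cGq2_le S.hd
  have ht := S.th_le'' k
  have ht0 := S.th_nonneg k
  set X := Real.sqrt (S.mu a k * S.mu b k) with hX
  have hX0 : 0 ≤ X := Real.sqrt_nonneg _
  have hXl : lam d ^ 2 ≤ X := by
    rw [hX]
    apply Real.le_sqrt_of_sq_le
    rw [sq (lam d ^ 2)]
    exact mul_le_mul (S.lam_le_mu ha) (S.lam_le_mu hb) (by positivity) (S.mu_nonneg a k)
  have hG : Real.sqrt (S.g a k * S.g b k) ≤ 2 * X := by
    apply Real.sqrt_le_iff.mpr
    refine ⟨by positivity, ?_⟩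
    rw [mul_pow, hX, Real.sq_sqrt (mul_nonneg (S.mu_nonneg a k) (S.mu_nonneg b k))]
    calc S.g a k * S.g b k ≤ (2 * S.mu a k) * (2 * S.mu b k) :=
          mul_le_mul (S.g_le_rich ha) (S.g_le_rich hb) (S.g_nonneg b k)
            (mul_nonneg (by norm_num) (S.mu_nonneg a k))
      _ = 2 ^ 2 * (S.mu a k * S.mu b k) := by ring
  have h2 : S.th k * Real.sqrt (S.g a k * S.g b k) ≤ S.th k * (2 * X) :=
    mul_le_mul_of_nonneg_left hG ht0
  have h3 : 100 * (d : ℝ) ^ 2 * (4 * d) ≤ X := by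
    have := lam_sq_ge S.hd
    have h7 : (0 : ℝ) ≤ (d : ℝ) ^ 3 := by positivity
    calc 100 * (d : ℝ) ^ 2 * (4 * d) = 400 * (d : ℝ) ^ 3 := by ring
      _ ≤ 100000000 * (d : ℝ) ^ 3 := by linarith
      _ ≤ X := by linarith
  have h4 : S.th k * (2 * X) * (4 * d) ≤ X := by
    have : S.th k * (2 * X) * (4 * d) = 8 * X * (S.th k * d) := by ring
    rw [this]
    have h8 : 8 * X * (S.th k * d) ≤ 8 * X * (1 / 300000) :=
      mul_le_mul_of_nonneg_left ht (by positivity)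
    linarith
  have h5 : 1 / (2 * (d : ℝ)) * X = X / (4 * d) + X / (4 * d) := by
    field_simp
    ring
  have h6 : 100 * (d : ℝ) ^ 2 ≤ X / (4 * d) := by
    rw [le_div_iff₀ (by positivity)]; exact h3
  have h7 : S.th k * (2 * X) ≤ X / (4 * d) := by
    rw [le_div_iff₀ (by positivity)]; exact h4
  rw [h5]
  linarith

theorem Sys.drift_const2 (k : ℕ) :
    (d : ℝ) * ((cG d + (q2 d + 2)) * (2 * d * T1 d * S.sig k ^ 2 / lam d ^ 2)
      + S.th k * (4 * d * T1 d * S.sig k)) ≤ S.sig k / (2 * d) := by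
  have h1 : (1 : ℝ) ≤ d := by exact_mod_cast S.hd
  have hdp : (0 : ℝ) < d := by linarith
  have hl := lam_pos S.hd
  have hc := cGq2_le S.hd
  have ht := S.th_le' k
  have ht0 := S.th_nonneg k
  have hT := T1_le S.hd
  have hT0 := (T1_pos (d := d)).le
  have hs0 := S.sig_nonneg k
  have hs2 := S.sig_sq_le k
  have hc0 : 0 ≤ cG d + (q2 d + 2) := by
    have := cG_pos (d := d)
    have := one_le_q2 S.hd
    linarith
  rw [le_div_iff₀ (by positivity)]
  have hA : (cG d + (q2 d + 2)) * (2 * d * T1 d * S.sig k ^ 2 / lam d ^ 2) * (d : ℝ) ^ 2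
      ≤ S.sig k * (1 / 10) := by
    have e : (cG d + (q2 d + 2)) * (2 * d * T1 d * S.sig k ^ 2 / lam d ^ 2) * (d : ℝ) ^ 2
      = ((cG d + (q2 d + 2)) * (2 * d * T1 d * S.sig k ^ 2) * (d : ℝ) ^ 2) / lam d ^ 2 := by
      ring
    rw [e, div_le_iff₀ (by positivity)]
    calc (cG d + (q2 d + 2)) * (2 * d * T1 d * S.sig k ^ 2) * (d : ℝ) ^ 2
        ≤ (100 * (d : ℝ) ^ 2) * (2 * d * (19 * (d : ℝ) ^ 2) * S.sig k) * (d : ℝ) ^ 2 := by
          gcongr
      _ = S.sig k * (3800 * (d : ℝ) ^ 7) := by ring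
      _ ≤ S.sig k * (1 / 10 * (100000000 * (d : ℝ) ^ 7)) := by
          have : (0 : ℝ) ≤ (d : ℝ) ^ 7 := by positivity
          exact mul_le_mul_of_nonneg_left (by linarith) hs0
      _ ≤ S.sig k * (1 / 10 * lam d ^ 2) := by
          have := lam_sq_ge' S.hd
          exact mul_le_mul_of_nonneg_left (by linarith) hs0
      _ = S.sig k * (1 / 10) * lam d ^ 2 := by ring
  have hB : S.th k * (4 * d * T1 d * S.sig k) * (d : ℝ) ^ 2 ≤ S.sig k * (1 / 10) := by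
    calc S.th k * (4 * d * T1 d * S.sig k) * (d : ℝ) ^ 2
        ≤ S.th k * (4 * d * (19 * (d : ℝ) ^ 2) * S.sig k) * (d : ℝ) ^ 2 := by gcongr
      _ = 76 * S.sig k * (S.th k * (d : ℝ) ^ 5) := by ring
      _ ≤ 76 * S.sig k * (S.th k * (d : ℝ) ^ 6) := by
          have : (d : ℝ) ^ 5 ≤ (d : ℝ) ^ 6 := pow_le_pow_right₀ h1 (by norm_num)
          gcongr
      _ ≤ 76 * S.sig k * (1 / 300000) := by gcongr
      _ ≤ S.sig k * (1 / 10) := by linarith
  have e : (d : ℝ) * ((cG d + (q2 d + 2)) * (2 * d * T1 d * S.sig k ^ 2 / lam d ^ 2)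
      + S.th k * (4 * d * T1 d * S.sig k)) * (2 * d)
      = 2 * ((cG d + (q2 d + 2)) * (2 * d * T1 d * S.sig k ^ 2 / lam d ^ 2) * (d : ℝ) ^ 2)
        + 2 * (S.th k * (4 * d * T1 d * S.sig k) * (d : ℝ) ^ 2) := by ring
  rw [e]
  linarith

/-- one-step recursion of the second moments -/
theorem Sys.mom_step2 {a b : Fin d} {k : ℕ} {M M' : ℝ}
    (Ma Mb : ℝ) (hMb0 : 0 ≤ Mb)
    (hMa : |Ma - S.mu a k| ≤ cG d + S.th k * S.g a k)
    (hMb : |Mb - S.mu b k| ≤ cG d + S.th k * S.g b k)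
    (hM : |M - (if a = b then S.mu a k else 0)| ≤ cG d + S.th k * Real.sqrt (S.g a k * S.g b k))
    (h : |M' - M / 2| ≤ 1 + 4 * hC d + 1 / 2 * (S.xi k * Real.sqrt (Ma * Mb))) :
    |M' - (if a = b then S.mu a (k + 1) else 0)|
      ≤ cG d + S.th (k + 1) * Real.sqrt (S.g a (k + 1) * S.g b (k + 1)) := by
  have hc := cG_pos (d := d)
  have ht0 := S.th_nonneg k
  have ht1 := S.th_le_one k
  have hx0 := S.xi_nonneg k
  have hga := S.g_nonneg a k
  have hgb := S.g_nonneg b k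
  have hMa2 : Ma ≤ 2 * S.g a k := by
    have h1 := (abs_le.mp hMa).2
    have h2 : S.th k * S.g a k ≤ 1 * S.g a k := mul_le_mul_of_nonneg_right ht1 hga
    have h3 : S.g a k = S.mu a k + cG d := rfl
    linarith
  have hMb2 : Mb ≤ 2 * S.g b k := by
    have h1 := (abs_le.mp hMb).2
    have h2 : S.th k * S.g b k ≤ 1 * S.g b k := mul_le_mul_of_nonneg_right ht1 hgb
    have h3 : S.g b k = S.mu b k + cG d := rfl
    linarith
  set G := Real.sqrt (S.g a k * S.g b k) with hG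
  set G' := Real.sqrt (S.g a (k + 1) * S.g b (k + 1)) with hG'
  have hG0 : 0 ≤ G := Real.sqrt_nonneg _
  have hG'0 : 0 ≤ G' := Real.sqrt_nonneg _
  have hMM : Real.sqrt (Ma * Mb) ≤ 2 * G := by
    apply Real.sqrt_le_iff.mpr
    refine ⟨by positivity, ?_⟩
    rw [mul_pow, hG, Real.sq_sqrt (mul_nonneg hga hgb)]
    calc Ma * Mb ≤ (2 * S.g a k) * (2 * S.g b k) :=
          mul_le_mul hMa2 hMb2 hMb0 (by positivity)
      _ = 2 ^ 2 * (S.g a k * S.g b k) := by ring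
  have hga' : S.g a k / 2 ≤ S.g a (k + 1) := by
    unfold Sys.g
    rw [S.mu_succ]
    linarith
  have hgb' : S.g b k / 2 ≤ S.g b (k + 1) := by
    unfold Sys.g
    rw [S.mu_succ]
    linarith
  have hGG : G ≤ 2 * G' := by
    rw [hG]
    apply Real.sqrt_le_iff.mpr
    refine ⟨by positivity, ?_⟩
    rw [mul_pow, hG', Real.sq_sqrt (mul_nonneg (S.g_nonneg a _) (S.g_nonneg b _))]
    calc S.g a k * S.g b k = 2 ^ 2 * ((S.g a k / 2) * (S.g b k / 2)) := by ring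
      _ ≤ 2 ^ 2 * (S.g a (k + 1) * S.g b (k + 1)) := by
          have := mul_le_mul hga' hgb' (by positivity) (S.g_nonneg a (k + 1))
          linarith
  have hδ : (if a = b then S.mu a (k + 1) else 0) = (if a = b then S.mu a k else 0) / 2 := by
    split_ifs with hab
    · exact S.mu_succ a k
    · simp
  rw [hδ]
  set δ : ℝ := (if a = b then S.mu a k else 0) with hδd
  have htri : |M' - δ / 2| ≤ |M' - M / 2| + |M - δ| / 2 := by
    have e : M' - δ / 2 = (M' - M / 2) + (M - δ) / 2 := by ring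
    rw [e]
    refine (abs_add_le _ _).trans ?_
    rw [abs_div, abs_of_pos (show (0 : ℝ) < 2 by norm_num)]
  have hth : S.th (k + 1) = S.th k + 2 * S.xi k := S.th_succ k
  rw [hth]
  have h5 : S.xi k * Real.sqrt (Ma * Mb) ≤ S.xi k * (4 * G') :=
    mul_le_mul_of_nonneg_left (by linarith) hx0
  have h6 : S.th k * G ≤ S.th k * (2 * G') := mul_le_mul_of_nonneg_left hGG ht0
  have hcG : cG d = 1 + 16 * hC d := rfl
  have hC1 : 1 ≤ hC d := by
    have h1 : (1 : ℝ) ≤ d := by exact_mod_cast S.hd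
    unfold hC
    nlinarith
  nlinarith [htri, hM, h, h5, h6]

/-- the restoring signs have square sum at most one -/
theorem Sys.restore_const (k : ℕ) :
    (d : ℝ) * ((2 * d * T1 d * S.sig k ^ 2 / lam d ^ 2) * T1 d) ≤ 1 := by
  have h1 : (1 : ℝ) ≤ d := by exact_mod_cast S.hd
  have hdp : (0 : ℝ) < d := by linarith
  have hl := lam_pos S.hd
  have hT := T1_le S.hd
  have hT0 := (T1_pos (d := d)).le
  have hs1 : S.sig k ^ 2 ≤ 1 := (S.sig_sq_le k).trans (S.sig_le_one k)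
  have e : (d : ℝ) * ((2 * d * T1 d * S.sig k ^ 2 / lam d ^ 2) * T1 d)
      = (2 * d ^ 2 * T1 d * T1 d * S.sig k ^ 2) / lam d ^ 2 := by ring
  rw [e, div_le_one (by positivity)]
  have hlam : lam d ^ 2 = 100000000 * (d : ℝ) ^ 10 := by unfold lam; ring
  have h6 : (d : ℝ) ^ 6 ≤ (d : ℝ) ^ 10 := pow_le_pow_right₀ h1 (by norm_num)
  have h60 : (0 : ℝ) ≤ (d : ℝ) ^ 6 := by positivity
  calc 2 * (d : ℝ) ^ 2 * T1 d * T1 d * S.sig k ^ 2
      ≤ 2 * (d : ℝ) ^ 2 * (19 * (d : ℝ) ^ 2) * (19 * (d : ℝ) ^ 2) * 1 := by gcongr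
    _ = 722 * (d : ℝ) ^ 6 := by ring
    _ ≤ lam d ^ 2 := by rw [hlam]; linarith

/-- size of the elements of special rank `≥ 1` -/
theorem Sys.small2 {k : ℕ} {i : Fin N} (h : S.kk i ≤ k → (2 : ℝ) ^ k ≤ q2 d * 2 ^ S.kk i)
    (a : Fin d) : S.v i a ^ 2 ≤ 2 * q2 d * S.mu a k := by
  have hq := one_le_q2 S.hd
  have hbig := S.big i a
  have hμ := S.muZero_nonneg a
  unfold Sys.mu
  rw [← mul_div_assoc, le_div_iff₀ (by positivity)]
  rcases Nat.lt_or_ge k (S.kk i) with hk | hk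
  · have h2 : (2 : ℝ) ^ k ≤ 2 ^ S.kk i := pow_le_pow_right₀ (by norm_num) hk.le
    calc S.v i a ^ 2 * 2 ^ k ≤ S.v i a ^ 2 * 2 ^ S.kk i :=
          mul_le_mul_of_nonneg_left h2 (sq_nonneg _)
      _ ≤ 2 * S.μ a := hbig
      _ ≤ 2 * q2 d * S.μ a := by nlinarith
  · have h2 := h hk
    calc S.v i a ^ 2 * 2 ^ k ≤ S.v i a ^ 2 * (q2 d * 2 ^ S.kk i) :=
          mul_le_mul_of_nonneg_left h2 (sq_nonneg _)
      _ = q2 d * (S.v i a ^ 2 * 2 ^ S.kk i) := by ring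
      _ ≤ q2 d * (2 * S.μ a) := mul_le_mul_of_nonneg_left hbig (by linarith)
      _ = 2 * q2 d * S.μ a := by ring

theorem Sys.small2' {k : ℕ} {i : Fin N} (h : S.kk i ≤ k → (2 : ℝ) ^ k ≤ q2 d * 2 ^ S.kk i)
    {a : Fin d} (ha : S.ka a ≤ k) :
    |S.v i a| ≤ 2 * q2 d * lam d * (3 / 4 : ℝ) ^ (k - S.ka a) := by
  have hq := one_le_q2 S.hd
  have hl := (lam_pos S.hd).le
  have h1 := S.small2 h a
  have h2 := S.sqrt_mu_le ha
  have h3 : S.mu a k ≤ (lam d * (3 / 4 : ℝ) ^ (k - S.ka a)) ^ 2 := by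
    have := pow_le_pow_left₀ (Real.sqrt_nonneg _) h2 2
    rwa [Real.sq_sqrt (S.mu_nonneg a k)] at this
  set y : ℝ := lam d * (3 / 4 : ℝ) ^ (k - S.ka a) with hy
  have hy0 : 0 ≤ y := by positivity
  have e : 2 * q2 d * lam d * (3 / 4 : ℝ) ^ (k - S.ka a) = 2 * q2 d * y := by rw [hy]; ring
  rw [e]
  have h4 : S.v i a ^ 2 ≤ (2 * q2 d * y) ^ 2 := by
    calc S.v i a ^ 2 ≤ 2 * q2 d * S.mu a k := h1
      _ ≤ 2 * q2 d * y ^ 2 := mul_le_mul_of_nonneg_left h3 (by linarith)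
      _ ≤ (2 * q2 d) * (2 * q2 d) * y ^ 2 := by
          apply mul_le_mul_of_nonneg_right _ (sq_nonneg y)
          nlinarith
      _ = (2 * q2 d * y) ^ 2 := by ring
  exact abs_le_of_sq_le_sq h4 (by positivity)

/-- choice of the length of the active window -/
theorem exists_L2 (hd : 1 ≤ d) : ∃ L : ℕ,
    16 * (5 * B2 d ^ 2) * (15 / 16 : ℝ) ^ L ≤ 1 ∧ (L : ℝ) ≤ 1000 * (1 + Real.log d) := by
  have hd1 : (1 : ℝ) ≤ d := by exact_mod_cast hd
  have hlog : 0 ≤ Real.log d := Real.log_nonneg hd1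
  refine ⟨⌈900 * (1 + Real.log d)⌉₊, ?_, ?_⟩
  · set L := ⌈900 * (1 + Real.log d)⌉₊ with hL
    have hLle : 900 * (1 + Real.log d) ≤ L := Nat.le_ceil _
    have h43 : (1 / 16 : ℝ) ≤ Real.log (16 / 15) := by
      have := Real.one_sub_inv_le_log_of_pos (show (0 : ℝ) < 16 / 15 by norm_num)
      refine le_trans ?_ this
      norm_num
    have hB2 : B2 d ≤ 83200000 * (d : ℝ) ^ 9 := by
      have a1 : hC d ≤ 2 * (d : ℝ) ^ 2 := hC_le hd
      have a2 : q2 d ≤ 65 * (d : ℝ) ^ 2 := q2_le hd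
      have a3 : 0 ≤ q2 d := by linarith [one_le_q2 hd]
      have a4 : 0 ≤ lam d := (lam_pos hd).le
      have a5 := hC_nonneg (d := d)
      calc B2 d = 64 * hC d * q2 d * lam d := rfl
        _ ≤ 64 * (2 * (d : ℝ) ^ 2) * (65 * (d : ℝ) ^ 2) * lam d := by gcongr
        _ = 83200000 * (d : ℝ) ^ 9 := by unfold lam; ring
    have hB20 : 0 ≤ B2 d := by
      have a3 : 0 ≤ q2 d := by linarith [one_le_q2 hd]
      have a4 : 0 ≤ lam d := (lam_pos hd).le
      have a5 := hC_nonneg (d := d)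
      unfold B2; positivity
    have hM : 16 * (5 * B2 d ^ 2) ≤ 600000000000000000 * (d : ℝ) ^ 18 := by
      have h1 : B2 d ^ 2 ≤ (83200000 * (d : ℝ) ^ 9) ^ 2 := pow_le_pow_left₀ hB20 hB2 2
      have h2 : (83200000 * (d : ℝ) ^ 9) ^ 2 = 6922240000000000 * (d : ℝ) ^ 18 := by ring
      have h3 : (0 : ℝ) ≤ (d : ℝ) ^ 18 := by positivity
      rw [h2] at h1
      linarith
    have hbig : 600000000000000000 * (d : ℝ) ^ 18 ≤ (16 / 15 : ℝ) ^ L := by
      have b1 : (16 / 15 : ℝ) ^ L = Real.exp (L * Real.log (16 / 15)) := by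
        rw [Real.exp_nat_mul, Real.exp_log (by norm_num)]
      have b2 : 50 * (1 + Real.log d) ≤ L * Real.log (16 / 15) := by
        have c1 : 900 * (1 + Real.log d) * (1 / 16) ≤ L * Real.log (16 / 15) :=
          mul_le_mul hLle h43 (by norm_num) (by positivity)
        linarith
      have b3 : Real.exp (50 * (1 + Real.log d)) = Real.exp 1 ^ 50 * (d : ℝ) ^ 50 := by
        have e : 50 * (1 + Real.log d) = ((50 : ℕ) : ℝ) * 1 + ((50 : ℕ) : ℝ) * Real.log d := by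
          push_cast; ring
        rw [e, Real.exp_add, Real.exp_nat_mul, Real.exp_nat_mul,
          Real.exp_log (by linarith)]
      rw [b1]
      refine le_trans ?_ (Real.exp_le_exp.mpr b2)
      rw [b3]
      have h5 : (600000000000000000 : ℝ) ≤ Real.exp 1 ^ 50 := by
        have h6 : (2.7 : ℝ) ≤ Real.exp 1 := by linarith [Real.exp_one_gt_d9]
        calc (600000000000000000 : ℝ) ≤ (2.7 : ℝ) ^ 50 := by norm_num
          _ ≤ Real.exp 1 ^ 50 := pow_le_pow_left₀ (by norm_num) h6 50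
      have h7 : (d : ℝ) ^ 18 ≤ (d : ℝ) ^ 50 := pow_le_pow_right₀ hd1 (by norm_num)
      exact mul_le_mul h5 h7 (by positivity) (by positivity)
    have hprod : (16 / 15 : ℝ) ^ L * (15 / 16 : ℝ) ^ L = 1 := by
      rw [← mul_pow]; norm_num
    calc 16 * (5 * B2 d ^ 2) * (15 / 16 : ℝ) ^ L
        ≤ (16 / 15 : ℝ) ^ L * (15 / 16 : ℝ) ^ L :=
          mul_le_mul_of_nonneg_right (hM.trans hbig) (by positivity)
      _ = 1 := hprod
  · have h1 := Nat.ceil_lt_add_one (a := 900 * (1 + Real.log d)) (by positivity)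
    linarith

end P262
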