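import Mathlib
import Vale.Agent.P262.V2Theta

/-! P262: the invariants pass to the children (second version). -/

namespace P262

open Finset

theorem Signs2.neg {d N : ℕ} {S : Sys d N} {k : ℕ} {W : Finset (Fin N)} {m i1 : Fin N}
    {s : Fin N → ℝ} (h : Signs2 S k W m i1 s) : Signs2 S k W m i1 (fun i => - s i) := by
  have key : ∀ (A : Finset (Fin N)) (f : Fin N → ℝ), ∑ i ∈ A, -s i * f i
      = -∑ i ∈ A, s i * f i := by
    intro A f
    rw [← Finset.sum_neg_distrib]
    exact Finset.sum_congr rfl fun i _ => by ring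
  refine ⟨?_, ?_, ?_, ?_, ?_, ?_, ?_, ?_⟩
  · intro i
    rcases h.sign i with h1 | h1
    · right; simp [h1]
    · left; simp [h1]
  · rw [h.opp]
  · intro a b
    rw [key, abs_neg]
    exact h.mom a b
  · intro t ht
    rw [Finset.sum_neg_distrib, abs_neg]
    exact h.cls t ht
  · intro i hi
    have := h.rank i hi
    simpa only [neg_inj] using this
  · intro c
    have := h.cnt (-c)
    have e : ∀ j, (-s j = c) ↔ (s j = -c) := fun j => neg_eq_iff_eq_neg
    simpa only [e] using this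
  · intro a ha
    rw [key, abs_neg]
    exact h.sq a ha
  · intro a ha
    rw [key, abs_neg]
    exact h.lin a ha

theorem card_plus2 {ι : Type*} (A : Finset ι) (s : ι → ℝ) (hs : ∀ i, s i = 1 ∨ s i = -1)
    (f : ι → ℝ) :
    ∑ i ∈ A.filter (fun i => s i = 1), f i = (∑ i ∈ A, f i + ∑ i ∈ A, s i * f i) / 2 := by
  classical
  rw [Finset.sum_filter, ← Finset.sum_add_distrib, Finset.sum_div]
  refine Finset.sum_congr rfl fun i _ => ?_
  rcases hs i with h | h
  · simp [h]
  · have h2 : ¬ ((-1 : ℝ) = 1) := by norm_num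
    simp [h, h2]

theorem two_le_hC {d : ℕ} (hd : 1 ≤ d) : 2 ≤ hC d := by
  have h1 : (1 : ℝ) ≤ d := by exact_mod_cast hd
  unfold hC
  nlinarith

theorem cE2_eq (d : ℕ) : cE d + 1 = cE2 d := by unfold cE cE2; ring

theorem cE2_nonneg (d : ℕ) : 0 ≤ cE2 d := by
  have := hC_nonneg (d := d)
  unfold cE2; linarith

/-- the minimal element of the child -/
theorem child_min {d N : ℕ} {S : Sys d N} {k : ℕ} {W : Finset (Fin N)}
    {m i1 : Fin N} (hm : m ∈ W) (hi1 : i1 ∈ W.erase m)
    (hmin : ∀ i ∈ W, m ≤ i) (hmin1 : ∀ i ∈ W.erase m, i1 ≤ i)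
    {s : Fin N → ℝ} (hs : Signs2 S k W m i1 s) :
    ∃ m0, m0 ∈ W.filter (fun i => s i = 1) ∧ (∀ i ∈ W.filter (fun i => s i = 1), m0 ≤ i) ∧
      (W.filter (fun i => s i = 1)).erase m0
        = ((W.erase m).erase i1).filter (fun i => s i = 1) := by
  have hneg : ¬ ((-1 : ℝ) = 1) := by norm_num
  have hi1W : i1 ∈ W := (Finset.mem_erase.1 hi1).2
  rcases hs.sign m with h | h
  · have hsi1 : s i1 = -1 := by rw [hs.opp, h]
    refine ⟨m, Finset.mem_filter.2 ⟨hm, h⟩, fun i hi => hmin i (Finset.mem_filter.1 hi).1, ?_⟩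
    ext i
    rw [Finset.mem_erase, Finset.mem_filter, Finset.mem_filter, Finset.mem_erase,
      Finset.mem_erase]
    constructor
    · rintro ⟨h1, h2, h3⟩
      refine ⟨⟨?_, h1, h2⟩, h3⟩
      rintro rfl
      rw [hsi1] at h3
      exact hneg h3
    · rintro ⟨⟨h1, h2, h3⟩, h4⟩
      exact ⟨h2, h3, h4⟩
  · have hsi1 : s i1 = 1 := by rw [hs.opp, h]; norm_num
    refine ⟨i1, Finset.mem_filter.2 ⟨hi1W, hsi1⟩, ?_, ?_⟩
    · intro i hi
      rw [Finset.mem_filter] at hi
      refine hmin1 i (Finset.mem_erase.2 ⟨?_, hi.1⟩)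
      rintro rfl
      rw [h] at hi
      exact hneg hi.2
    · ext i
      rw [Finset.mem_erase, Finset.mem_filter, Finset.mem_filter, Finset.mem_erase,
        Finset.mem_erase]
      constructor
      · rintro ⟨h1, h2, h3⟩
        refine ⟨⟨h1, ?_, h2⟩, h3⟩
        rintro rfl
        rw [h] at h3
        exact hneg h3
      · rintro ⟨⟨h1, h2, h3⟩, h4⟩
        exact ⟨h1, h3, h4⟩

theorem child_cls {d N : ℕ} {S : Sys d N} {k : ℕ} {W : Finset (Fin N)}
    {m i1 : Fin N} {s : Fin N → ℝ} (hs : Signs2 S k W m i1 s) (t : ℕ) (ht : k < t) :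
    (((W.filter (fun i => s i = 1)).filter (fun i => S.kk i = t)).card : ℝ)
      ≤ ((1 + S.xi k) * ((W.filter (fun i => S.kk i = t)).card : ℝ) + cE2 d) / 2 := by
  have e1 : (W.filter (fun i => s i = 1)).filter (fun i => S.kk i = t)
      = (W.filter (fun i => S.kk i = t)).filter (fun i => s i = 1) := by
    ext i; simp only [Finset.mem_filter]; tauto
  have e2 := card_plus2 (W.filter (fun i => S.kk i = t)) s hs.sign (fun _ => (1 : ℝ))
  simp only [Finset.sum_const, nsmul_eq_mul, mul_one] at e2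
  rw [e1, e2]
  have h1 := (abs_le.1 (hs.cls t ht)).2
  rw [cE2_eq] at h1
  linarith

theorem two_insert_card {N : ℕ} {A B : Finset (Fin N)} {m i1 : Fin N} (hmi : m ≠ i1)
    (h1 : m ∉ A) (h2 : i1 ∉ A) (h3 : m ∈ B) (h4 : i1 ∈ B) (h5 : A ⊆ B) :
    A.card + 2 ≤ B.card := by
  have e : insert m (insert i1 A) ⊆ B := by
    intro i hi
    rw [Finset.mem_insert, Finset.mem_insert] at hi
    rcases hi with rfl | rfl | hi
    · exact h3
    · exact h4
    · exact h5 hi
  have e2 := Finset.card_le_card e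
  rw [Finset.card_insert_of_notMem, Finset.card_insert_of_notMem h2] at e2
  · omega
  · intro hcon
    rw [Finset.mem_insert] at hcon
    rcases hcon with hcon | hcon
    · exact hmi hcon
    · exact h1 hcon

/-- special elements of level at most `k` -/
theorem child_spec {d N : ℕ} {S : Sys d N} {k : ℕ} {W : Finset (Fin N)}
    {m i1 : Fin N} (hm : m ∈ W) (hi1 : i1 ∈ W.erase m)
    (hmin : ∀ i ∈ W, m ≤ i) (hmin1 : ∀ i ∈ W.erase m, i1 ≤ i)
    {s : Fin N → ℝ} (hs : Signs2 S k W m i1 s) :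
    2 * ((W.filter (fun i => s i = 1)).filter (fun i => S.kk i ≤ k)).card
      ≤ (W.filter (fun i => S.kk i ≤ k)).card + 1 := by
  obtain ⟨m0, hm0W1, hm0min, hm0eq⟩ := child_min hm hi1 hmin hmin1 hs
  have hi1W : i1 ∈ W := (Finset.mem_erase.1 hi1).2
  have hi1m : i1 ≠ m := (Finset.mem_erase.1 hi1).1
  have hc1 := hs.cnt 1
  rcases Nat.lt_or_ge k (S.kk i1) with h | h
  · -- only `m` can be special
    have h1 : W.filter (fun i => S.kk i ≤ k) ⊆ {m} := by
      intro i hi
      rw [Finset.mem_filter] at hi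
      rw [Finset.mem_singleton]
      by_contra hne
      have := hmin1 i (Finset.mem_erase.2 ⟨hne, hi.1⟩)
      have := S.mono this
      omega
    have h2 : (W.filter (fun i => S.kk i ≤ k)).card ≤ 1 := by
      simpa using Finset.card_le_card h1
    have h3 : ((W.filter (fun i => s i = 1)).filter (fun i => S.kk i ≤ k)).card
        ≤ (W.filter (fun i => S.kk i ≤ k)).card :=
      Finset.card_le_card (Finset.filter_subset_filter _ (Finset.filter_subset _ _))
    omega
  · have hkm : S.kk m ≤ k := (S.mono (hmin i1 hi1W)).trans h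
    have h1 : (W.filter (fun i => s i = 1)).filter (fun i => S.kk i ≤ k)
        ⊆ insert m0 ((((W.erase m).erase i1).filter (fun j => S.kk j ≤ k)).filter
          (fun j => s j = 1)) := by
      intro i hi
      rw [Finset.mem_filter] at hi
      rw [Finset.mem_insert]
      by_cases hne : i = m0
      · left; exact hne
      · right
        have : i ∈ ((W.erase m).erase i1).filter (fun i => s i = 1) := by
          rw [← hm0eq]
          exact Finset.mem_erase.2 ⟨hne, hi.1⟩
        rw [Finset.mem_filter] at this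
        exact Finset.mem_filter.2 ⟨Finset.mem_filter.2 ⟨this.1, hi.2⟩, this.2⟩
    have h2 := (Finset.card_le_card h1).trans (Finset.card_insert_le _ _)
    have h3 : (((W.erase m).erase i1).filter (fun j => S.kk j ≤ k)).card + 2
        ≤ (W.filter (fun i => S.kk i ≤ k)).card := by
      apply two_insert_card hi1m.symm
      · intro hcon
        rw [Finset.mem_filter, Finset.mem_erase, Finset.mem_erase] at hcon
        exact hcon.1.2.1 rfl
      · intro hcon
        rw [Finset.mem_filter, Finset.mem_erase] at hcon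
        exact hcon.1.1 rfl
      · exact Finset.mem_filter.2 ⟨hm, hkm⟩
      · exact Finset.mem_filter.2 ⟨hi1W, h⟩
      · exact Finset.filter_subset_filter _
          ((Finset.erase_subset _ _).trans (Finset.erase_subset _ _))
    omega

theorem child_nsp {d N : ℕ} {S : Sys d N} {k : ℕ} {W : Finset (Fin N)} {P Q : Fin d → ℝ}
    (hN : Node2 S k W P Q)
    {m i1 : Fin N} (hm : m ∈ W) (hi1 : i1 ∈ W.erase m)
    (hmin : ∀ i ∈ W, m ≤ i) (hmin1 : ∀ i ∈ W.erase m, i1 ≤ i)
    {s : Fin N → ℝ} (hs : Signs2 S k W m i1 s) :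
    (((W.filter (fun i => s i = 1)).filter (fun i => S.kk i ≤ k + 1)).card : ℝ) ≤ q2 d := by
  have hcE : 0 ≤ cE2 d := cE2_nonneg d
  have hxi := S.xi_nonneg k
  have hth0 := S.th_nonneg k
  have hths := S.th_succ k
  have hth1' := S.th_le_one (k + 1)
  have h2k : (0 : ℝ) < 2 ^ k := by positivity
  have hfac : (1 + S.xi k) * (1 + S.th k) ≤ 1 + S.th (k + 1) := by
    have hth1 := S.th_le_one k
    rw [hths]; nlinarith
  have hspec : 2 * ((((W.filter (fun i => s i = 1)).filter (fun i => S.kk i ≤ k)).card : ℕ) : ℝ)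
      ≤ ((W.filter (fun i => S.kk i ≤ k)).card : ℝ) + 1 := by
    exact_mod_cast child_spec hm hi1 hmin hmin1 hs
  have e1 : (W.filter (fun i => s i = 1)).filter (fun i => S.kk i ≤ k + 1)
      = ((W.filter (fun i => s i = 1)).filter (fun j => S.kk j ≤ k))
        ∪ (W.filter (fun i => s i = 1)).filter (fun i => S.kk i = k + 1) := by
    ext i
    simp only [Finset.mem_filter, Finset.mem_union]
    constructor
    · rintro ⟨h1, h3⟩
      rcases Nat.lt_or_ge k (S.kk i) with h | h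
      · right; exact ⟨h1, by omega⟩
      · left; exact ⟨h1, h⟩
    · rintro (⟨h1, h3⟩ | ⟨h1, h3⟩)
      · exact ⟨h1, by omega⟩
      · exact ⟨h1, by omega⟩
  have h1 : (((W.filter (fun i => s i = 1)).filter (fun i => S.kk i ≤ k + 1)).card : ℝ)
      ≤ (((W.filter (fun i => s i = 1)).filter (fun j => S.kk j ≤ k)).card : ℝ)
        + (((W.filter (fun i => s i = 1)).filter (fun i => S.kk i = k + 1)).card : ℝ) := by
    rw [e1]; exact_mod_cast Finset.card_union_le _ _
  have h3 := hN.nsp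
  have h4 := child_cls hs (k + 1) (Nat.lt_succ_self k)
  have h5 := hN.cls (k + 1) (Nat.le_succ k)
  have h6 : ((W.filter (fun i => S.kk i = k + 1)).card : ℝ)
      ≤ (1 + S.th k) * (2 * d + cE2 d) := by
    have : ((W.filter (fun i => S.kk i = k + 1)).card : ℝ) * 2 ^ k
        ≤ ((1 + S.th k) * (2 * d + cE2 d)) * 2 ^ k := by
      refine le_trans h5 (le_of_eq ?_)
      rw [pow_succ]; ring
    exact le_of_mul_le_mul_right this h2k
  have h7 : (1 + S.xi k) * ((W.filter (fun i => S.kk i = k + 1)).card : ℝ)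
      ≤ 2 * (2 * d + cE2 d) := by
    have h8 : (1 + S.xi k) * ((W.filter (fun i => S.kk i = k + 1)).card : ℝ)
        ≤ (1 + S.xi k) * ((1 + S.th k) * (2 * d + cE2 d)) :=
      mul_le_mul_of_nonneg_left h6 (by linarith)
    have h9 : (1 + S.xi k) * ((1 + S.th k) * (2 * d + cE2 d))
        = ((1 + S.xi k) * (1 + S.th k)) * (2 * d + cE2 d) := by ring
    have h10 : ((1 + S.xi k) * (1 + S.th k)) * (2 * d + cE2 d) ≤ 2 * (2 * d + cE2 d) := by
      apply mul_le_mul_of_nonneg_right _ (by positivity)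
      linarith
    linarith
  have hq : q2 d = 2 * (2 * (d + cE2 d)) + 1 := rfl
  rw [hq] at h3 ⊢
  linarith

theorem child_mom {d N : ℕ} {S : Sys d N} {k : ℕ} {W : Finset (Fin N)} {P Q : Fin d → ℝ}
    (hN : Node2 S k W P Q) {m i1 : Fin N} {s : Fin N → ℝ} (hs : Signs2 S k W m i1 s)
    (a b : Fin d) :
    |∑ i ∈ W.filter (fun i => s i = 1), S.v i a * S.v i b
        - (if a = b then S.mu a (k + 1) else 0)|
      ≤ cG d + S.th (k + 1) * Real.sqrt (S.g a (k + 1) * S.g b (k + 1)) := by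
  have hgg : ∀ c : Fin d, Real.sqrt (S.g c k * S.g c k) = S.g c k := fun c =>
    Real.sqrt_mul_self (S.g_nonneg c k)
  have hdiag : ∀ c : Fin d, |∑ i ∈ W, S.v i c * S.v i c - S.mu c k|
      ≤ cG d + S.th k * S.g c k := by
    intro c
    have h1 := hN.mom c c
    rw [if_pos rfl, hgg c] at h1
    exact h1
  refine S.mom_step2 (M := ∑ i ∈ W, S.v i a * S.v i b)
    (∑ i ∈ W, S.v i a * S.v i a) (∑ i ∈ W, S.v i b * S.v i b)
    (Finset.sum_nonneg fun i _ => mul_self_nonneg _) (hdiag a) (hdiag b) (hN.mom a b) ?_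
  have e1 := card_plus2 W s hs.sign (fun i => S.v i a * S.v i b)
  have h3 := hs.mom a b
  rw [e1]
  have e3 : (∑ i ∈ W, S.v i a * S.v i b + ∑ i ∈ W, s i * (S.v i a * S.v i b)) / 2
      - (∑ i ∈ W, S.v i a * S.v i b) / 2
      = (∑ i ∈ W, s i * (S.v i a * S.v i b)) / 2 := by ring
  rw [e3]
  rw [abs_le] at h3 ⊢
  constructor <;> linarith [h3.1, h3.2]

theorem child_rank {d N : ℕ} {S : Sys d N} {k : ℕ} {W : Finset (Fin N)} {P Q : Fin d → ℝ}
    (hN : Node2 S k W P Q)
    {m i1 : Fin N} (hm : m ∈ W) (hi1 : i1 ∈ W.erase m)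
    (hmin : ∀ i ∈ W, m ≤ i) (hmin1 : ∀ i ∈ W.erase m, i1 ≤ i)
    {s : Fin N → ℝ} (hs : Signs2 S k W m i1 s) (i : Fin N)
    (hi : i ∈ W.filter (fun i => s i = 1)) (hik : S.kk i ≤ k + 1) :
    (((W.filter (fun i => s i = 1)).filter (fun j => j < i)).card : ℝ) * 2 ^ (k + 1)
      ≤ q2 d * 2 ^ S.kk i := by
  obtain ⟨m0, hm0W1, hm0min, hm0eq⟩ := child_min hm hi1 hmin hmin1 hs
  have hi1W : i1 ∈ W := (Finset.mem_erase.1 hi1).2
  have hi1m : i1 ≠ m := (Finset.mem_erase.1 hi1).1
  have h2k : (0 : ℝ) < 2 ^ k := by positivity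
  have hq1 : 1 ≤ q2 d := one_le_q2 S.hd
  have hnsp := child_nsp hN hm hi1 hmin hmin1 hs
  rcases Nat.lt_or_ge k (S.kk i) with h | h
  · have hkk : S.kk i = k + 1 := by omega
    have h1 : (W.filter (fun i => s i = 1)).filter (fun j => j < i)
        ⊆ (W.filter (fun i => s i = 1)).filter (fun i => S.kk i ≤ k + 1) := by
      intro j hj
      rw [Finset.mem_filter] at hj ⊢
      exact ⟨hj.1, (S.mono hj.2.le).trans hkk.le⟩
    have h2 : (((W.filter (fun i => s i = 1)).filter (fun j => j < i)).card : ℝ) ≤ q2 d :=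
      le_trans (by exact_mod_cast Finset.card_le_card h1) hnsp
    rw [hkk]
    exact mul_le_mul_of_nonneg_right h2 (by positivity)
  · by_cases him : i = m0
    · have h1 : (W.filter (fun i => s i = 1)).filter (fun j => j < i) = ∅ := by
        rw [Finset.filter_eq_empty_iff]
        intro j hj
        rw [him]
        exact not_lt.2 (hm0min j hj)
      rw [h1]
      simp only [Finset.card_empty, Nat.cast_zero, zero_mul]
      positivity
    · have hi0 : i ∈ ((W.erase m).erase i1).filter (fun i => s i = 1) := by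
        rw [← hm0eq]; exact Finset.mem_erase.2 ⟨him, hi⟩
      rw [Finset.mem_filter] at hi0
      have hiU : i ∈ ((W.erase m).erase i1).filter (fun j => S.kk j ≤ k) :=
        Finset.mem_filter.2 ⟨hi0.1, h⟩
      have h1 := hs.rank i hiU
      have h2 : (W.filter (fun i => s i = 1)).filter (fun j => j < i)
          ⊆ insert m0 ((((W.erase m).erase i1).filter (fun j => S.kk j ≤ k)).filter
            (fun j => j < i ∧ s j = s i)) := by
        intro j hj
        rw [Finset.mem_filter] at hj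
        rw [Finset.mem_insert]
        by_cases hne : j = m0
        · left; exact hne
        · right
          have hj0 : j ∈ ((W.erase m).erase i1).filter (fun i => s i = 1) := by
            rw [← hm0eq]; exact Finset.mem_erase.2 ⟨hne, hj.1⟩
          rw [Finset.mem_filter] at hj0
          rw [Finset.mem_filter, Finset.mem_filter]
          exact ⟨⟨hj0.1, (S.mono hj.2.le).trans h⟩, hj.2, by rw [hj0.2, hi0.2]⟩
      have h2' := (Finset.card_le_card h2).trans (Finset.card_insert_le _ _)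
      have hiE := Finset.mem_erase.1 hi0.1
      have hi1i : i1 < i := lt_of_le_of_ne (hmin1 i hiE.2) (Ne.symm hiE.1)
      have hmi : m < i := lt_of_le_of_lt (hmin i1 hi1W) hi1i
      have h3 : ((((W.erase m).erase i1).filter (fun j => S.kk j ≤ k)).filter
          (fun j => j < i)).card + 2 ≤ (W.filter (fun j => j < i)).card := by
        apply two_insert_card hi1m.symm
        · intro hcon
          rw [Finset.mem_filter, Finset.mem_filter, Finset.mem_erase, Finset.mem_erase] at hcon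
          exact hcon.1.1.2.1 rfl
        · intro hcon
          rw [Finset.mem_filter, Finset.mem_filter, Finset.mem_erase] at hcon
          exact hcon.1.1.1 rfl
        · exact Finset.mem_filter.2 ⟨hm, hmi⟩
        · exact Finset.mem_filter.2 ⟨hi1W, hi1i⟩
        · exact Finset.filter_subset_filter _ ((Finset.filter_subset _ _).trans
            ((Finset.erase_subset _ _).trans (Finset.erase_subset _ _)))
      have h4 : 2 * ((W.filter (fun i => s i = 1)).filter (fun j => j < i)).card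
          ≤ (W.filter (fun j => j < i)).card := by
        omega
      have h5 : 2 * (((W.filter (fun i => s i = 1)).filter (fun j => j < i)).card : ℝ)
          ≤ ((W.filter (fun j => j < i)).card : ℝ) := by exact_mod_cast h4
      have h6 := hN.rank i (Finset.mem_filter.1 hi).1 h
      calc (((W.filter (fun i => s i = 1)).filter (fun j => j < i)).card : ℝ) * 2 ^ (k + 1)
          = (2 * (((W.filter (fun i => s i = 1)).filter (fun j => j < i)).card : ℝ)) * 2 ^ k := by
            rw [pow_succ]; ring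
        _ ≤ ((W.filter (fun j => j < i)).card : ℝ) * 2 ^ k :=
            mul_le_mul_of_nonneg_right h5 h2k.le
        _ ≤ q2 d * 2 ^ S.kk i := h6

theorem hq_prod {d : ℕ} (hd : 1 ≤ d) : 1 ≤ hC d * q2 d := by
  have h1 := two_le_hC hd
  have h2 := one_le_q2 hd
  nlinarith

theorem ql_prod {d : ℕ} (hd : 1 ≤ d) : 1 ≤ q2 d * lam d := by
  have h1 := one_le_lam hd
  have h2 := one_le_q2 hd
  nlinarith

theorem four_lam_le {d : ℕ} (hd : 1 ≤ d) : 4 * lam d ^ 2 ≤ b1 d ^ 2 := by
  have e : b1 d ^ 2 = (8 * (hC d * q2 d)) ^ 2 * lam d ^ 2 := by unfold b1; ring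
  rw [e]
  have h := hq_prod hd
  apply mul_le_mul_of_nonneg_right _ (sq_nonneg _)
  nlinarith

theorem momd_num {d : ℕ} (hd : 1 ≤ d) (E : ℝ) (hE : 0 ≤ E) :
    16 * (hC d * q2 d) * (lam d ^ 2 * E) ≤ 1 / 4 * (b1 d ^ 2 * E) := by
  have e : 1 / 4 * (b1 d ^ 2 * E) = 16 * (hC d * q2 d) ^ 2 * (lam d ^ 2 * E) := by
    unfold b1; ring
  rw [e]
  have h := hq_prod hd
  apply mul_le_mul_of_nonneg_right _ (by positivity)
  nlinarith

theorem rest_num {d : ℕ} (hd : 1 ≤ d) (E : ℝ) (hE : 0 ≤ E) :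
    2 * q2 d * lam d * E + 24 * hC d * q2 d * lam d * E ≤ 7 / 8 * (B2 d * E) := by
  have e : 7 / 8 * (B2 d * E) - (2 * q2 d * lam d * E + 24 * hC d * q2 d * lam d * E)
      = (32 * hC d - 2) * (q2 d * lam d * E) := by
    unfold B2; ring
  have h1 := two_le_hC hd
  have h2 := ql_prod hd
  have : 0 ≤ (32 * hC d - 2) * (q2 d * lam d * E) := by
    apply mul_nonneg (by linarith)
    exact mul_nonneg (by linarith) hE
  linarith

theorem rest_num0 {d : ℕ} (hd : 1 ≤ d) : 8 * hC d + 1 ≤ B2 d := by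
  have e : B2 d = 64 * hC d * (q2 d * lam d) := by unfold B2; ring
  rw [e]
  have h1 := two_le_hC hd
  have h2 := ql_prod hd
  nlinarith

theorem child_momd {d N : ℕ} {S : Sys d N} {k : ℕ} {W : Finset (Fin N)} {P Q : Fin d → ℝ}
    (hN : Node2 S k W P Q)
    {m i1 : Fin N} (hm : m ∈ W)
    (hmin : ∀ i ∈ W, m ≤ i)
    {s : Fin N → ℝ} (hs : Signs2 S k W m i1 s) (a : Fin d) (ha : S.ka a ≤ k + 1) :
    ∑ i ∈ ((W.erase m).erase i1).filter (fun i => s i = 1), S.v i a ^ 2
      ≤ b1 d ^ 2 * (7 / 8 : ℝ) ^ (k + 1 - S.ka a) := by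
  rcases Nat.lt_or_ge k (S.ka a) with h | h
  · -- the direction becomes poor now
    have e0 : k + 1 - S.ka a = 0 := by omega
    rw [e0, pow_zero, mul_one]
    have h1 := child_mom hN hs a a
    rw [if_pos rfl, Real.sqrt_mul_self (S.g_nonneg a (k + 1))] at h1
    have h2 := (abs_le.1 h1).2
    have h3 := S.mu_le_lam ha
    have h4 := S.g_le_poor ha
    have h5 := cG_le_lam S.hd
    have hg0 := S.g_nonneg a (k + 1)
    have h6 : S.th (k + 1) * S.g a (k + 1) ≤ 1 * S.g a (k + 1) :=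
      mul_le_mul_of_nonneg_right (S.th_le_one (k + 1)) hg0
    have h7 : ∑ i ∈ ((W.erase m).erase i1).filter (fun i => s i = 1), S.v i a ^ 2
        ≤ ∑ i ∈ W.filter (fun i => s i = 1), S.v i a * S.v i a := by
      have : ∑ i ∈ W.filter (fun i => s i = 1), S.v i a * S.v i a
          = ∑ i ∈ W.filter (fun i => s i = 1), S.v i a ^ 2 :=
        Finset.sum_congr rfl fun i _ => by ring
      rw [this]
      exact Finset.sum_le_sum_of_subset_of_nonneg
        (Finset.filter_subset_filter _ ((Finset.erase_subset _ _).trans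
          (Finset.erase_subset _ _))) (fun i _ _ => sq_nonneg _)
    have h8 : ∑ i ∈ W.filter (fun i => s i = 1), S.v i a * S.v i a ≤ 4 * lam d ^ 2 := by
      linarith
    have h9 := four_lam_le S.hd
    linarith
  · have e1 : k + 1 - S.ka a = (k - S.ka a) + 1 := by omega
    rw [e1, pow_succ (7 / 8 : ℝ) (k - S.ka a)]
    rw [card_plus2 ((W.erase m).erase i1) s hs.sign (fun i => S.v i a ^ 2)]
    have h1 := (abs_le.1 (hs.sq a h)).2
    have h2 := hN.momd a h m hm hmin
    have h3 : ∑ i ∈ (W.erase m).erase i1, S.v i a ^ 2 ≤ ∑ i ∈ W.erase m, S.v i a ^ 2 :=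
      Finset.sum_le_sum_of_subset_of_nonneg (Finset.erase_subset _ _)
        (fun i _ _ => sq_nonneg _)
    have h30 : 0 ≤ ∑ i ∈ (W.erase m).erase i1, S.v i a ^ 2 :=
      Finset.sum_nonneg fun i _ => sq_nonneg _
    have h4 := S.mu_le_pow h
    have h5 : (1 / 2 : ℝ) ^ (k - S.ka a) ≤ (7 / 8 : ℝ) ^ (k - S.ka a) :=
      pow_le_pow_left₀ (by norm_num) (by norm_num) _
    have hE0 : (0 : ℝ) < (7 / 8 : ℝ) ^ (k - S.ka a) := by positivity
    have h6 : S.mu a k ≤ lam d ^ 2 * (7 / 8 : ℝ) ^ (k - S.ka a) :=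
      h4.trans (mul_le_mul_of_nonneg_left h5 (sq_nonneg _))
    have h7 : S.xi k * ∑ i ∈ (W.erase m).erase i1, S.v i a ^ 2
        ≤ 1 / 2 * ∑ i ∈ (W.erase m).erase i1, S.v i a ^ 2 :=
      mul_le_mul_of_nonneg_right (S.xi_le k) h30
    have hp := hq_prod S.hd
    have h8 : 8 * hC d * (2 * q2 d * S.mu a k)
        ≤ 16 * (hC d * q2 d) * (lam d ^ 2 * (7 / 8 : ℝ) ^ (k - S.ka a)) := by
      have : 8 * hC d * (2 * q2 d * S.mu a k) = 16 * (hC d * q2 d) * S.mu a k := by ring
      rw [this]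
      exact mul_le_mul_of_nonneg_left h6 (by linarith)
    have h9 := momd_num S.hd ((7 / 8 : ℝ) ^ (k - S.ka a)) hE0.le
    have h10 := h3.trans h2
    linarith

theorem child_rest {d N : ℕ} {S : Sys d N} {k : ℕ} {W : Finset (Fin N)} {P Q : Fin d → ℝ}
    (hN : Node2 S k W P Q)
    {m i1 : Fin N} (hm : m ∈ W) (hi1 : i1 ∈ W.erase m)
    (hmin : ∀ i ∈ W, m ≤ i)
    {s : Fin N → ℝ} (hs : Signs2 S k W m i1 s) (a : Fin d) (h : S.ka a ≤ k) :
    |∑ i ∈ ((W.erase m).erase i1).filter (fun i => s i = 1), S.v i a|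
      ≤ B2 d * (15 / 16 : ℝ) ^ (k + 1 - S.ka a) := by
  have hi1W : i1 ∈ W := (Finset.mem_erase.1 hi1).2
  have hi1m : i1 ≠ m := (Finset.mem_erase.1 hi1).1
  have hmi1 : m < i1 := lt_of_le_of_ne (hmin i1 hi1W) (Ne.symm hi1m)
  have e1 : k + 1 - S.ka a = (k - S.ka a) + 1 := by omega
  rw [e1, pow_succ]
  rw [card_plus2 ((W.erase m).erase i1) s hs.sign (fun i => S.v i a)]
  have h1 := hs.lin a h
  have h2 := hN.rest a h m hm hmin
  have h3 : ∑ i ∈ (W.erase m).erase i1, S.v i a = ∑ i ∈ W.erase m, S.v i a - S.v i1 a := by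
    rw [Finset.sum_erase_eq_sub hi1]
  have hr1 : S.kk i1 ≤ k → (2 : ℝ) ^ k ≤ q2 d * 2 ^ S.kk i1 := by
    intro hk
    have hr := hN.rank i1 hi1W hk
    have hone : (1 : ℝ) ≤ ((W.filter (fun j => j < i1)).card : ℝ) := by
      have : m ∈ W.filter (fun j => j < i1) := Finset.mem_filter.2 ⟨hm, hmi1⟩
      exact_mod_cast Finset.card_pos.2 ⟨m, this⟩
    refine le_trans ?_ hr
    have h2k : (0 : ℝ) ≤ 2 ^ k := by positivity
    exact le_mul_of_one_le_left h2k hone
  have h4 := S.small2' hr1 h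
  have h5 : (3 / 4 : ℝ) ^ (k - S.ka a) ≤ (15 / 16 : ℝ) ^ (k - S.ka a) :=
    pow_le_pow_left₀ (by norm_num) (by norm_num) _
  rw [h3]
  have hE0 : (0 : ℝ) < (15 / 16 : ℝ) ^ (k - S.ka a) := by positivity
  have hql := ql_prod S.hd
  have h6 : |S.v i1 a| ≤ 2 * q2 d * lam d * (15 / 16 : ℝ) ^ (k - S.ka a) :=
    h4.trans (mul_le_mul_of_nonneg_left h5 (by linarith))
  have h7 := rest_num S.hd ((15 / 16 : ℝ) ^ (k - S.ka a)) hE0.le
  rw [abs_le] at h1 h2 h6 ⊢
  constructor <;> linarith [h1.1, h1.2, h2.1, h2.2, h6.1, h6.2]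

theorem child2 {d N : ℕ} (S : Sys d N) (k : ℕ) (W : Finset (Fin N)) (P Q : Fin d → ℝ)
    (hN : Node2 S k W P Q) (m i1 : Fin N) (hm : m ∈ W) (hi1 : i1 ∈ W.erase m)
    (hmin : ∀ i ∈ W, m ≤ i) (hmin1 : ∀ i ∈ W.erase m, i1 ≤ i)
    (s : Fin N → ℝ) (hs : Signs2 S k W m i1 s) (P' Q' : Fin d → ℝ)
    (hsum : ∀ a, Q' a = P' a + ∑ i ∈ W.filter (fun i => s i = 1), S.v i a)
    (hrich : ∀ a, k < S.ka a → |P' a| ≤ 4 * hC d ∧ |Q' a| ≤ 4 * hC d) :
    Node2 S (k + 1) (W.filter (fun i => s i = 1)) P' Q' := by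
  obtain ⟨m0, hm0W1, hm0min, hm0eq⟩ := child_min hm hi1 hmin hmin1 hs
  have hm'eq : ∀ m' ∈ W.filter (fun i => s i = 1),
      (∀ i ∈ W.filter (fun i => s i = 1), m' ≤ i) → m' = m0 := fun m' h1 h2 =>
    le_antisymm (h2 m0 hm0W1) (hm0min m' h1)
  have hcE : 0 ≤ cE2 d := cE2_nonneg d
  have hxi := S.xi_nonneg k
  have hths := S.th_succ k
  refine ⟨hsum, fun i hi hik => child_rank hN hm hi1 hmin hmin1 hs i hi hik,
    child_nsp hN hm hi1 hmin hmin1 hs, ?_, child_mom hN hs, fun a ha => hrich a (by omega),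
    ?_, ?_⟩
  · -- cls
    intro t ht
    have hth1 := S.th_le_one k
    have hfac : (1 + S.xi k) * (1 + S.th k) ≤ 1 + S.th (k + 1) := by
      have hth0 := S.th_nonneg k
      rw [hths]; nlinarith
    have h1 := child_cls hs t (by omega)
    have h2 := hN.cls t (by omega)
    have hpos : (0 : ℝ) ≤ d * 2 ^ t + cE2 d * 2 ^ k := by positivity
    calc (((W.filter (fun i => s i = 1)).filter (fun i => S.kk i = t)).card : ℝ) * 2 ^ (k + 1)
        ≤ ((1 + S.xi k) * ((W.filter (fun i => S.kk i = t)).card : ℝ) + cE2 d) / 2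
            * 2 ^ (k + 1) := mul_le_mul_of_nonneg_right h1 (by positivity)
      _ = (1 + S.xi k) * (((W.filter (fun i => S.kk i = t)).card : ℝ) * 2 ^ k)
            + cE2 d * 2 ^ k := by rw [pow_succ]; ring
      _ ≤ (1 + S.xi k) * ((1 + S.th k) * (d * 2 ^ t + cE2 d * 2 ^ k)) + cE2 d * 2 ^ k := by
          have := mul_le_mul_of_nonneg_left h2 (by linarith : (0 : ℝ) ≤ 1 + S.xi k)
          linarith
      _ = ((1 + S.xi k) * (1 + S.th k)) * (d * 2 ^ t + cE2 d * 2 ^ k) + cE2 d * 2 ^ k := by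
          ring
      _ ≤ (1 + S.th (k + 1)) * (d * 2 ^ t + cE2 d * 2 ^ k) + cE2 d * 2 ^ k := by
          have := mul_le_mul_of_nonneg_right hfac hpos
          linarith
      _ ≤ (1 + S.th (k + 1)) * (d * 2 ^ t + cE2 d * 2 ^ (k + 1)) := by
          have h3 := S.th_nonneg (k + 1)
          have h4 : 0 ≤ cE2 d * 2 ^ k := by positivity
          have h5 : 0 ≤ S.th (k + 1) * (cE2 d * 2 ^ k) := mul_nonneg h3 h4
          rw [pow_succ]
          linarith
  · -- second moments, poor directions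
    intro a ha m' hm' hm'min
    rw [hm'eq m' hm' hm'min, hm0eq]
    exact child_momd hN hm hmin hs a ha
  · -- first moments, poor directions
    intro a ha m' hm' hm'min
    rw [hm'eq m' hm' hm'min]
    rcases Nat.lt_or_ge k (S.ka a) with h | h
    · have e0 : k + 1 - S.ka a = 0 := by omega
      rw [e0, pow_zero, mul_one]
      have h1 : ∑ i ∈ (W.filter (fun i => s i = 1)).erase m0, S.v i a
          = (Q' a - P' a) - S.v m0 a := by
        rw [Finset.sum_erase_eq_sub hm0W1, hsum a]; ring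
      rw [h1]
      obtain ⟨h2, h3⟩ := hrich a h
      have h4 : |S.v m0 a| ≤ 1 := by
        have h2 : S.v m0 a ^ 2 ≤ 1 := le_trans
          (Finset.single_le_sum (f := fun a => S.v m0 a ^ 2) (fun a _ => sq_nonneg _)
            (Finset.mem_univ a)) (S.norm_le m0)
        exact abs_le_one_iff_mul_self_le_one.2 (by nlinarith)
      have h5 := rest_num0 S.hd
      rw [abs_le] at h2 h3 h4 ⊢
      constructor <;> linarith [h2.1, h2.2, h3.1, h3.2, h4.1, h4.2]
    · rw [hm0eq]
      exact child_rest hN hm hi1 hmin hs a h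

end P262
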