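import Mathlib
import Vale.Agent.P262.IL

/-! P262: weighted rounding with one linear functional of prescribed sign. -/

namespace P262

open Finset

noncomputable def kap2 {d : ℕ} (α : Fin d → ℝ) (ρ : ℝ) (n : ℕ) : ℝ := kap α ρ (n - 2)

theorem kap2_nonneg {d : ℕ} (α : Fin d → ℝ) (hα : ∀ a, 0 ≤ α a) (ρ : ℝ) (n : ℕ) :
    0 ≤ kap2 α ρ n := kap_nonneg α hα ρ (n - 2)

theorem kap2_anti {d : ℕ} (α : Fin d → ℝ) (hα : ∀ a, 0 ≤ α a) (hanti : Antitone α) (ρ : ℝ) :
    Antitone (kap2 α ρ) := by
  intro n m hnm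
  exact kap_anti α hα hanti ρ (Nat.sub_le_sub_right hnm 2)

theorem il_dir2 {ι : Type*} [Fintype ι] [DecidableEq ι] {d : ℕ} (u : ι → Fin d → ℝ) (ρ : ℝ)
    (hu : ∀ i, ∑ a, u i a ^ 2 ≤ ρ ^ 2) (α : Fin d → ℝ) (hα : ∀ a, 0 ≤ α a) (hanti : Antitone α)
    (c : ι → ℝ) (S : Finset ι) (hS : 2 ≤ S.card) :
    ∃ y : ι → ℝ, (∀ i, i ∉ S → y i = 0) ∧ (∃ i, y i ≠ 0) ∧ ∑ i, y i * c i = 0 ∧
      ∑ a, α a * (∑ i, y i * u i a) ^ 2 ≤ kap α ρ (S.card - 2) * ∑ i, y i ^ 2 := by
  classical
  set f := S.card with hf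
  have hfpos : 0 < f := by omega
  set m := f / 2 with hm
  have hm1 : 1 ≤ m := by omega
  let E := EuclideanSpace ℝ S
  let U : Fin d → E := fun a => WithLp.toLp 2 (fun i : S => u i a)
  have hUi : ∀ a (i : S), U a i = u i a := fun a i => rfl
  let Cv : E := WithLp.toLp 2 (fun i : S => c i)
  let L : E →ₗ[ℝ] (Fin m → ℝ) := LinearMap.pi
    (fun k => if (k : ℕ) = 0 then (innerSL ℝ Cv).toLinearMap else
      if h : (k : ℕ) - 1 < d then (innerSL ℝ (U ⟨(k : ℕ) - 1, h⟩)).toLinearMap else 0)
  let Y : Submodule ℝ E := LinearMap.ker L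
  have hE : Module.finrank ℝ E = f := by
    simp [E, hf]
  have hdim : f ≤ m + Module.finrank ℝ Y := by
    have h1 := LinearMap.finrank_range_add_finrank_ker L
    have h2 : Module.finrank ℝ (LinearMap.range L) ≤ m := by
      have := Submodule.finrank_le (LinearMap.range L)
      simpa using this
    rw [hE] at h1
    change Module.finrank ℝ (LinearMap.range L) + Module.finrank ℝ Y = f at h1
    omega
  let D := Module.finrank ℝ Y
  have hD : f ≤ m + D := hdim
  have hDpos : 0 < D := by omega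
  have hD2 : (f : ℝ) ≤ 2 * D := by
    have : f ≤ 2 * D := by omega
    exact_mod_cast this
  let b := stdOrthonormalBasis ℝ Y
  have hbo : Orthonormal ℝ (fun l => ((b l : Y) : E)) := by
    have := b.orthonormal.comp_linearIsometry Y.subtypeₗᵢ
    exact this
  let A : ℝ := if h : m - 1 < d then α ⟨m - 1, h⟩ else 0
  have hA0 : 0 ≤ A := by
    simp only [A]
    split_ifs with h
    · exact hα _
    · exact le_rfl
  have hkap : kap α ρ (f - 2) = 2 * ρ ^ 2 * A := by
    have e : (f - 2) / 2 = m - 1 := by omega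
    simp only [kap, A, e]
    split_ifs with h
    · rfl
    · simp
  -- inner products vanish for small indices
  have hker : ∀ l (a : Fin d), (a : ℕ) < m - 1 → inner ℝ ((b l : Y) : E) (U a) = 0 := by
    intro l a ha
    have h1 : L ((b l : Y) : E) = 0 := (b l).2
    have h2 := congrFun h1 ⟨a + 1, by omega⟩
    have h3 : L ((b l : Y) : E) ⟨a + 1, by omega⟩ = inner ℝ (U a) ((b l : Y) : E) := by
      simp [L, LinearMap.pi_apply]
    rw [real_inner_comm, ← h3, h2]
    rfl
  have hkerc : ∀ l, inner ℝ ((b l : Y) : E) Cv = 0 := by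
    intro l
    have h1 : L ((b l : Y) : E) = 0 := (b l).2
    have h2 := congrFun h1 ⟨0, by omega⟩
    have h3 : L ((b l : Y) : E) ⟨0, by omega⟩ = inner ℝ Cv ((b l : Y) : E) := by
      simp [L, LinearMap.pi_apply]
    rw [real_inner_comm, ← h3, h2]
    rfl
  let Q : Fin D → ℝ := fun l => ∑ a, α a * (inner ℝ ((b l : Y) : E) (U a)) ^ 2
  have hQsum : ∑ l, Q l ≤ A * (f * ρ ^ 2) := by
    have h1 : ∑ l, Q l = ∑ a, ∑ l, α a * (inner ℝ ((b l : Y) : E) (U a)) ^ 2 := by
      simp only [Q]
      exact Finset.sum_comm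
    rw [h1]
    have h2 : ∀ a, ∑ l, α a * (inner ℝ ((b l : Y) : E) (U a)) ^ 2 ≤ A * ‖U a‖ ^ 2 := by
      intro a
      by_cases ha : (a : ℕ) < m - 1
      · have : ∑ l, α a * (inner ℝ ((b l : Y) : E) (U a)) ^ 2 = 0 := by
          apply Finset.sum_eq_zero
          intro l _
          rw [hker l a ha]
          ring
        rw [this]
        positivity
      · push Not at ha
        have hmd : m - 1 < d := lt_of_le_of_lt ha a.2
        have hAa : α a ≤ A := by
          simp only [A, hmd, dif_pos]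
          exact hanti (by simpa [Fin.le_def] using ha)
        have hbes : ∑ l, (inner ℝ ((b l : Y) : E) (U a)) ^ 2 ≤ ‖U a‖ ^ 2 := by
          have := hbo.sum_inner_products_le (x := U a) (s := Finset.univ)
          simpa using this
        rw [← Finset.mul_sum]
        calc α a * ∑ l, (inner ℝ ((b l : Y) : E) (U a)) ^ 2
            ≤ A * ∑ l, (inner ℝ ((b l : Y) : E) (U a)) ^ 2 :=
              mul_le_mul_of_nonneg_right hAa (Finset.sum_nonneg fun _ _ => sq_nonneg _)
          _ ≤ A * ‖U a‖ ^ 2 := mul_le_mul_of_nonneg_left hbes hA0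
    calc ∑ a, ∑ l, α a * (inner ℝ ((b l : Y) : E) (U a)) ^ 2 ≤ ∑ a, A * ‖U a‖ ^ 2 :=
          Finset.sum_le_sum fun a _ => h2 a
      _ = A * ∑ a, ‖U a‖ ^ 2 := by rw [Finset.mul_sum]
      _ ≤ A * (f * ρ ^ 2) := by
          apply mul_le_mul_of_nonneg_left _ hA0
          have h3 : ∀ a, ‖U a‖ ^ 2 = ∑ i : S, u i a ^ 2 := by
            intro a
            rw [EuclideanSpace.norm_sq_eq]
            simp [hUi]
          simp_rw [h3]
          rw [Finset.sum_comm]
          calc ∑ i : S, ∑ a, u i a ^ 2 ≤ ∑ i : S, ρ ^ 2 :=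
                Finset.sum_le_sum fun i _ => hu i
            _ = f * ρ ^ 2 := by simp [hf]
  have hex : ∃ l ∈ (Finset.univ : Finset (Fin D)), Q l ≤ kap α ρ (f - 2) := by
    apply Finset.exists_le_of_sum_le
    · exact ⟨⟨0, hDpos⟩, Finset.mem_univ _⟩
    · refine le_trans hQsum ?_
      rw [hkap]
      simp only [Finset.sum_const, Finset.card_univ, Fintype.card_fin, nsmul_eq_mul]
      have : A * (f * ρ ^ 2) ≤ A * (2 * D * ρ ^ 2) := by
        apply mul_le_mul_of_nonneg_left _ hA0
        exact mul_le_mul_of_nonneg_right hD2 (sq_nonneg _)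
      linarith
  obtain ⟨l, -, hl⟩ := hex
  let y : ι → ℝ := fun i => if h : i ∈ S then ((b l : Y) : E) ⟨i, h⟩ else 0
  have hysum : ∀ g : ι → ℝ, ∑ i, y i * g i = ∑ i : S, ((b l : Y) : E) i * g i := by
    intro g
    have h1 : ∑ i, y i * g i = ∑ i ∈ S, y i * g i := by
      symm
      apply Finset.sum_subset (Finset.subset_univ S)
      intro i _ hi
      simp [y, hi]
    rw [h1, ← Finset.sum_coe_sort S (fun i => y i * g i)]
    apply Finset.sum_congr rfl
    intro i _
    simp [y]
  have hyn : ∑ i, y i ^ 2 = 1 := by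
    have h1 : ∑ i, y i ^ 2 = ∑ i, y i * y i := by
      apply Finset.sum_congr rfl
      intro i _
      ring
    rw [h1, hysum y]
    have h2 : ‖((b l : Y) : E)‖ = 1 := hbo.1 l
    have h3 : ‖((b l : Y) : E)‖ ^ 2 = ∑ i : S, ((b l : Y) : E) i ^ 2 := by
      rw [EuclideanSpace.norm_sq_eq]
      simp
    rw [h2] at h3
    rw [show (1 : ℝ) = 1 ^ 2 by norm_num, h3]
    apply Finset.sum_congr rfl
    intro i _
    simp [y, sq]
  refine ⟨y, ?_, ?_, ?_, ?_⟩
  · intro i hi
    simp [y, hi]
  · by_contra hcon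
    push Not at hcon
    have : ∑ i, y i ^ 2 = 0 := by
      apply Finset.sum_eq_zero
      intro i _
      rw [hcon i]
      ring
    rw [this] at hyn
    exact zero_ne_one hyn
  · rw [hysum c, ← hkerc l]
    simp only [PiLp.inner_apply]
    apply Finset.sum_congr rfl
    intro i _
    simp [Cv, mul_comm]
  · rw [hyn, mul_one]
    have h1 : ∀ a, ∑ i, y i * u i a = inner ℝ ((b l : Y) : E) (U a) := by
      intro a
      rw [hysum (fun i => u i a)]
      simp only [PiLp.inner_apply]
      apply Finset.sum_congr rfl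
      intro i _
      simp [hUi, mul_comm]
    simp_rw [h1]
    exact hl

/-- The induction. -/
theorem il_ind2 {ι : Type*} [Fintype ι] [DecidableEq ι] {d : ℕ} (u : ι → Fin d → ℝ) (ρ : ℝ)
    (hu : ∀ i, ∑ a, u i a ^ 2 ≤ ρ ^ 2) (α : Fin d → ℝ) (hα : ∀ a, 0 ≤ α a) (hanti : Antitone α) (c : ι → ℝ) :
    ∀ f : ℕ, ∀ x : ι → ℝ, (∀ i, |x i| ≤ 1) → (univ.filter (fun i => |x i| ≠ 1)).card = f →
      ∀ z : Fin d → ℝ, ∃ x' : ι → ℝ, (∀ i, |x' i| ≤ 1) ∧
        (univ.filter (fun i => |x' i| ≠ 1)).card ≤ 1 ∧ (∀ i, |x i| = 1 → x' i = x i) ∧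
        ∑ i, (x' i - x i) * c i = 0 ∧
        ∑ a, α a * (z a + ∑ i, (x' i - x i) * u i a) ^ 2 ≤
          ∑ a, α a * z a ^ 2 + kap2 α ρ f * (∑ i, (1 - x i ^ 2) - f)
            + ∑ n ∈ range f, kap2 α ρ (n + 1) := by
  intro f
  induction f using Nat.strong_induction_on with
  | _ f ih =>
    intro x hx hcard z
    rcases Nat.lt_or_ge f 2 with hf0 | hfpos
    · refine ⟨x, hx, by omega, fun i _ => rfl, by simp, ?_⟩
      have hPsi0 : 0 ≤ ∑ i, (1 - x i ^ 2) := by
        apply Finset.sum_nonneg
        intro i _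
        have := hx i
        have h2 : x i ^ 2 ≤ 1 := by
          rw [← sq_abs]
          exact pow_le_one₀ (abs_nonneg _) this
        linarith
      have hk0 := kap2_nonneg α hα ρ f
      have hsum : ∑ n ∈ range f, kap2 α ρ (n + 1) = f * kap2 α ρ f := by
        interval_cases f
        · simp
        · simp
      have h1 : ∀ a, z a + ∑ i, (x i - x i) * u i a = z a := by
        intro a
        simp
      simp_rw [h1]
      rw [hsum]
      nlinarith [mul_nonneg hk0 hPsi0]
    · set S : Finset ι := univ.filter (fun i => |x i| ≠ 1) with hS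
      have hS2 : 2 ≤ S.card := by
        rw [hcard]
        exact hfpos
      obtain ⟨y0, hy0S, hy0ne, hy0c, hy0'⟩ := il_dir2 u ρ hu α hα hanti c S hS2
      rw [hcard] at hy0'
      have hy0 : ∑ a, α a * (∑ i, y0 i * u i a) ^ 2 ≤ kap2 α ρ f * ∑ i, y0 i ^ 2 := hy0'
      -- choose the sign
      obtain ⟨y, hyS, hyne, hyc, hyQ, hylin⟩ : ∃ y : ι → ℝ, (∀ i, i ∉ S → y i = 0) ∧
          (∃ i, y i ≠ 0) ∧ ∑ i, y i * c i = 0 ∧
          ∑ a, α a * (∑ i, y i * u i a) ^ 2 ≤ kap2 α ρ f * ∑ i, y i ^ 2 ∧
          ∑ a, α a * (z a * ∑ i, y i * u i a) - kap2 α ρ f * ∑ i, x i * y i ≤ 0 := by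
        rcases le_total (∑ a, α a * (z a * ∑ i, y0 i * u i a)
            - kap2 α ρ f * ∑ i, x i * y0 i) 0 with h | h
        · exact ⟨y0, hy0S, hy0ne, hy0c, hy0, h⟩
        · refine ⟨fun i => - y0 i, ?_, ?_, ?_, ?_, ?_⟩
          · intro i hi
            simp [hy0S i hi]
          · obtain ⟨i, hi⟩ := hy0ne
            exact ⟨i, by simpa using hi⟩
          · have h1 : ∑ i, -y0 i * c i = - ∑ i, y0 i * c i := by
              rw [← Finset.sum_neg_distrib]
              apply Finset.sum_congr rfl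
              intro i _
              ring
            rw [h1, hy0c, neg_zero]
          · have h1 : ∀ a, ∑ i, -y0 i * u i a = - ∑ i, y0 i * u i a := by
              intro a
              rw [← Finset.sum_neg_distrib]
              apply Finset.sum_congr rfl
              intro i _
              ring
            simp_rw [h1, neg_sq]
            exact hy0
          · have h1 : ∀ a, ∑ i, -y0 i * u i a = - ∑ i, y0 i * u i a := by
              intro a
              rw [← Finset.sum_neg_distrib]
              apply Finset.sum_congr rfl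
              intro i _
              ring
            have h2 : ∑ i, x i * -y0 i = - ∑ i, x i * y0 i := by
              rw [← Finset.sum_neg_distrib]
              apply Finset.sum_congr rfl
              intro i _
              ring
            have h3 : ∑ a, α a * (z a * -∑ i, y0 i * u i a)
                = - ∑ a, α a * (z a * ∑ i, y0 i * u i a) := by
              rw [← Finset.sum_neg_distrib]
              apply Finset.sum_congr rfl
              intro i _
              ring
            simp_rw [h1]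
            rw [h2, h3]
            linarith
      have hyx : ∀ i, |x i| = 1 → y i = 0 := by
        intro i hi
        exact hyS i (by simp [hS, hi])
      obtain ⟨t, ht0, hx'1, i0, hi0f, hi0⟩ := il_move x hx y hyx hyne
      set x' : ι → ℝ := fun i => x i + t * y i with hx'def
      have hsub : univ.filter (fun i => |x' i| ≠ 1) ⊂ S := by
        rw [Finset.ssubset_iff_of_subset]
        · refine ⟨i0, by simp [hS, hi0f], ?_⟩
          simp only [Finset.mem_filter, not_and, not_not]
          intro _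
          exact hi0
        · intro i hi
          simp only [Finset.mem_filter, Finset.mem_univ, true_and, hS] at hi ⊢
          intro h
          apply hi
          simp only [hx'def, hyx i h, mul_zero, add_zero]
          exact h
      set f' := (univ.filter (fun i => |x' i| ≠ 1)).card with hf'
      have hf'lt : f' < f := by
        rw [← hcard]
        exact Finset.card_lt_card hsub
      set z' : Fin d → ℝ := fun a => z a + t * ∑ i, y i * u i a with hz'
      obtain ⟨x'', h1, h1c, h2, h2c, h3⟩ := ih f' hf'lt x' hx'1 rfl z'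
      refine ⟨x'', h1, h1c, ?_, ?_, ?_⟩
      · intro i hi
        have hxi : x' i = x i := by simp [hx'def, hyx i hi]
        rw [h2 i (by rw [hxi]; exact hi), hxi]
      · have e0 : ∑ i, (x'' i - x i) * c i
            = ∑ i, (x'' i - x' i) * c i + t * ∑ i, y i * c i := by
          rw [Finset.mul_sum, ← Finset.sum_add_distrib]
          apply Finset.sum_congr rfl
          intro i _
          simp only [hx'def]
          ring
        rw [e0, h2c, hyc, mul_zero, add_zero]
      · have e1 : ∀ a, z' a + ∑ i, (x'' i - x' i) * u i a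
            = z a + ∑ i, (x'' i - x i) * u i a := by
          intro a
          simp only [hz', hx'def]
          rw [Finset.mul_sum, add_assoc, ← Finset.sum_add_distrib]
          congr 1
          apply Finset.sum_congr rfl
          intro i _
          ring
        simp_rw [e1] at h3
        refine le_trans h3 ?_
        -- estimate
        have hPsi' : ∑ i, (1 - x' i ^ 2) ≤ (f' : ℝ) := by
          have e2 : ∑ i, (1 - x' i ^ 2)
              = ∑ i ∈ univ.filter (fun i => |x' i| ≠ 1), (1 - x' i ^ 2) := by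
            symm
            apply Finset.sum_subset (Finset.subset_univ _)
            intro i _ hi
            simp only [Finset.mem_filter, Finset.mem_univ, true_and, not_not] at hi
            rw [← sq_abs, hi]
            ring
          rw [e2]
          calc ∑ i ∈ univ.filter (fun i => |x' i| ≠ 1), (1 - x' i ^ 2)
              ≤ ∑ i ∈ univ.filter (fun i => |x' i| ≠ 1), (1 : ℝ) := by
                apply Finset.sum_le_sum
                intro i _
                nlinarith [sq_nonneg (x' i)]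
            _ = f' := by simp [hf']
        have hkle : kap2 α ρ f ≤ kap2 α ρ f' := kap2_anti α hα hanti ρ hf'lt.le
        have hA : kap2 α ρ f' * (∑ i, (1 - x' i ^ 2) - f')
            ≤ kap2 α ρ f * (∑ i, (1 - x' i ^ 2) - f') :=
          mul_le_mul_of_nonpos_right hkle (by linarith)
        have hB : ∑ a, α a * z' a ^ 2 + kap2 α ρ f * ∑ i, (1 - x' i ^ 2)
            ≤ ∑ a, α a * z a ^ 2 + kap2 α ρ f * ∑ i, (1 - x i ^ 2) := by
          have e3 : ∑ a, α a * z' a ^ 2 = ∑ a, α a * z a ^ 2
              + 2 * t * ∑ a, α a * (z a * ∑ i, y i * u i a)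
              + t ^ 2 * ∑ a, α a * (∑ i, y i * u i a) ^ 2 := by
            rw [Finset.mul_sum, Finset.mul_sum, ← Finset.sum_add_distrib,
              ← Finset.sum_add_distrib]
            apply Finset.sum_congr rfl
            intro a _
            simp only [hz']
            ring
          have e4 : ∑ i, (1 - x' i ^ 2) = ∑ i, (1 - x i ^ 2) - 2 * t * ∑ i, x i * y i
              - t ^ 2 * ∑ i, y i ^ 2 := by
            rw [Finset.mul_sum, Finset.mul_sum, ← Finset.sum_sub_distrib,
              ← Finset.sum_sub_distrib]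
            apply Finset.sum_congr rfl
            intro i _
            simp only [hx'def]
            ring
          rw [e3, e4]
          have h5 : t * (∑ a, α a * (z a * ∑ i, y i * u i a) - kap2 α ρ f * ∑ i, x i * y i) ≤ 0 :=
            mul_nonpos_of_nonneg_of_nonpos ht0 hylin
          have h6 : t ^ 2 * (∑ a, α a * (∑ i, y i * u i a) ^ 2 - kap2 α ρ f * ∑ i, y i ^ 2) ≤ 0 :=
            mul_nonpos_of_nonneg_of_nonpos (sq_nonneg t) (by linarith)
          nlinarith [h5, h6]
        have hC : ∑ n ∈ range f', kap2 α ρ (n + 1) + ((f : ℝ) - f') * kap2 α ρ f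
            ≤ ∑ n ∈ range f, kap2 α ρ (n + 1) := by
          rw [← Finset.sum_range_add_sum_Ico _ hf'lt.le]
          have : ∑ n ∈ Finset.Ico f' f, kap2 α ρ f ≤ ∑ n ∈ Finset.Ico f' f, kap2 α ρ (n + 1) := by
            apply Finset.sum_le_sum
            intro n hn
            rw [Finset.mem_Ico] at hn
            exact kap2_anti α hα hanti ρ (by omega)
          rw [Finset.sum_const, Nat.card_Ico, nsmul_eq_mul, Nat.cast_sub hf'lt.le] at this
          linarith
        nlinarith [hA, hB, hC]


theorem kap_sum_le0 {d : ℕ} (α : Fin d → ℝ) (hα : ∀ a, 0 ≤ α a) (ρ : ℝ) (f : ℕ) :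
    ∑ n ∈ range f, kap α ρ n ≤ 4 * ρ ^ 2 * ∑ a, α a := by
  classical
  let β : ℕ → ℝ := fun k => if h : k < d then α ⟨k, h⟩ else 0
  have hβ0 : ∀ k, 0 ≤ β k := by
    intro k
    simp only [β]
    split_ifs with h
    · exact hα _
    · exact le_rfl
  have hk : ∀ n, kap α ρ n = 2 * ρ ^ 2 * β (n / 2) := by
    intro n
    simp only [kap, β]
    split_ifs with h
    · rfl
    · simp
  have hsum : ∀ N, ∑ k ∈ range N, β k ≤ ∑ a, α a := by
    intro N
    have h1 : ∑ a, α a = ∑ k ∈ range d, β k := by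
      rw [Finset.sum_range]
      apply Finset.sum_congr rfl
      intro a _
      simp [β]
    rw [h1]
    rcases le_total N d with h | h
    · apply Finset.sum_le_sum_of_subset_of_nonneg
      · exact Finset.range_subset_range.mpr h
      · intro k _ _
        exact hβ0 k
    · have : ∑ k ∈ range N, β k = ∑ k ∈ range d, β k := by
        symm
        apply Finset.sum_subset (Finset.range_subset_range.mpr h)
        intro k _ hk'
        have : ¬ k < d := by simpa using hk'
        simp [β, this]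
      rw [this]
  have h2 : ∀ N, ∑ n ∈ range (2 * N), β (n / 2) = 2 * ∑ k ∈ range N, β k := by
    intro N
    induction N with
    | zero => simp
    | succ N ih =>
      rw [show 2 * (N + 1) = 2 * N + 1 + 1 by ring, Finset.sum_range_succ, Finset.sum_range_succ,
        ih, Finset.sum_range_succ]
      have e1 : (2 * N) / 2 = N := by omega
      have e2 : (2 * N + 1) / 2 = N := by omega
      rw [e1, e2]
      ring
  have h3 : ∑ n ∈ range f, β (n / 2) ≤ 2 * ∑ k ∈ range f, β k := by
    rw [← h2 f]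
    apply Finset.sum_le_sum_of_subset_of_nonneg
    · exact Finset.range_subset_range.mpr (by omega)
    · intro k _ _
      exact hβ0 _
  simp_rw [hk]
  rw [← Finset.mul_sum]
  have h0 : 0 ≤ 2 * ρ ^ 2 := by positivity
  have := mul_le_mul_of_nonneg_left (le_trans h3 (mul_le_mul_of_nonneg_left (hsum f)
    (by norm_num : (0 : ℝ) ≤ 2))) h0
  linarith

theorem kap2_sum_le {d : ℕ} (α : Fin d → ℝ) (hα : ∀ a, 0 ≤ α a) (ρ : ℝ) (f : ℕ) :
    ∑ n ∈ range f, kap2 α ρ (n + 1) ≤ 6 * ρ ^ 2 * ∑ a, α a := by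
  have hS : 0 ≤ ∑ a, α a := Finset.sum_nonneg fun a _ => hα a
  have h0 : kap α ρ 0 ≤ 2 * ρ ^ 2 * ∑ a, α a := by
    unfold kap
    split_ifs with h
    · exact mul_le_mul_of_nonneg_left
        (Finset.single_le_sum (fun a _ => hα a) (Finset.mem_univ _)) (by positivity)
    · positivity
  rcases f with _ | f
  · simp
    positivity
  · rw [Finset.sum_range_succ']
    have h1 : ∑ n ∈ range f, kap2 α ρ (n + 1 + 1) = ∑ n ∈ range f, kap α ρ n :=
      Finset.sum_congr rfl fun n _ => rfl
    have h2 : kap2 α ρ (0 + 1) = kap α ρ 0 := rfl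
    rw [h1, h2]
    have := kap_sum_le0 α hα ρ f
    linarith

theorem il_round2_anti {ι : Type*} [Fintype ι] [DecidableEq ι] {d : ℕ} (u : ι → Fin d → ℝ)
    (ρ : ℝ) (hu : ∀ i, ∑ a, u i a ^ 2 ≤ ρ ^ 2) (α : Fin d → ℝ) (hα : ∀ a, 0 ≤ α a)
    (hanti : Antitone α) (c : ι → ℝ) (x1 : ι → ℝ) (hx1 : ∀ i, |x1 i| ≤ 1) :
    ∃ (x : ι → ℝ) (z' : Fin d → ℝ), (∀ i, |x i| = 1) ∧ (∀ i, |x1 i| = 1 → x i = x1 i) ∧
      ∑ i, (x i - x1 i) * c i ≤ 0 ∧
      ∑ a, α a * z' a ^ 2 ≤ 6 * ρ ^ 2 * ∑ a, α a ∧
      ∑ a, ((∑ i, (x i - x1 i) * u i a) - z' a) ^ 2 ≤ 4 * ρ ^ 2 := by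
  classical
  obtain ⟨x', h1, h1c, h2, h2c, h3⟩ := il_ind2 u ρ hu α hα hanti c _ x1 hx1 rfl (fun _ => 0)
  simp only [zero_add] at h3
  have hz' : ∑ a, α a * (∑ i, (x' i - x1 i) * u i a) ^ 2 ≤ 6 * ρ ^ 2 * ∑ a, α a := by
    refine le_trans h3 ?_
    set f := (univ.filter (fun i => |x1 i| ≠ 1)).card with hf
    have hPsi : ∑ i, (1 - x1 i ^ 2) ≤ (f : ℝ) := by
      have e2 : ∑ i, (1 - x1 i ^ 2)
          = ∑ i ∈ univ.filter (fun i => |x1 i| ≠ 1), (1 - x1 i ^ 2) := by
        symm
        apply Finset.sum_subset (Finset.subset_univ _)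
        intro i _ hi
        simp only [Finset.mem_filter, Finset.mem_univ, true_and, not_not] at hi
        rw [← sq_abs, hi]
        ring
      rw [e2]
      calc ∑ i ∈ univ.filter (fun i => |x1 i| ≠ 1), (1 - x1 i ^ 2)
          ≤ ∑ i ∈ univ.filter (fun i => |x1 i| ≠ 1), (1 : ℝ) := by
            apply Finset.sum_le_sum
            intro i _
            nlinarith [sq_nonneg (x1 i)]
        _ = f := by simp [hf]
    have h4 : kap2 α ρ f * (∑ i, (1 - x1 i ^ 2) - f) ≤ 0 :=
      mul_nonpos_of_nonneg_of_nonpos (kap2_nonneg α hα ρ f) (by linarith)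
    have h5 := kap2_sum_le α hα ρ f
    have h6 : ∑ a : Fin d, α a * (0 : ℝ) ^ 2 = 0 := by simp
    linarith
  rcases (univ.filter (fun i => |x' i| ≠ 1)).eq_empty_or_nonempty with he | ⟨j, hj⟩
  · have hall : ∀ i, |x' i| = 1 := by
      intro i
      by_contra hcon
      have : i ∈ univ.filter (fun i => |x' i| ≠ 1) := by simp [hcon]
      rw [he] at this
      simp at this
    refine ⟨x', fun a => ∑ i, (x' i - x1 i) * u i a, hall, h2, h2c.le, hz', ?_⟩
    have : ∑ a : Fin d, ((∑ i, (x' i - x1 i) * u i a) - ∑ i, (x' i - x1 i) * u i a) ^ 2 = 0 := by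
      simp
    rw [this]
    positivity
  · have hjne : |x' j| ≠ 1 := by simpa using hj
    have hothers : ∀ i, i ≠ j → |x' i| = 1 := by
      intro i hij
      by_contra hcon
      have hi : i ∈ univ.filter (fun i => |x' i| ≠ 1) := by simp [hcon]
      exact hij (Finset.card_le_one.mp h1c i hi j hj)
    have hbd := abs_le.mp (h1 j)
    obtain ⟨s, hs1, hs2, hs3⟩ : ∃ s : ℝ, |s| = 1 ∧ (s - x' j) * c j ≤ 0 ∧ (s - x' j) ^ 2 ≤ 4 := by
      rcases le_total 0 (c j) with h | h
      · refine ⟨-1, by simp, ?_, ?_⟩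
        · exact mul_nonpos_of_nonpos_of_nonneg (by linarith [hbd.1]) h
        · nlinarith [hbd.1, hbd.2]
      · refine ⟨1, by simp, ?_, ?_⟩
        · exact mul_nonpos_of_nonneg_of_nonpos (by linarith [hbd.2]) h
        · nlinarith [hbd.1, hbd.2]
    have hsplit : ∀ g : ι → ℝ, ∑ i, (Function.update x' j s i - x1 i) * g i
        = ∑ i, (x' i - x1 i) * g i + (s - x' j) * g j := by
      intro g
      have e : ∀ i, (Function.update x' j s i - x1 i) * g i
          = (x' i - x1 i) * g i + (if i = j then (s - x' j) * g j else 0) := by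
        intro i
        by_cases hij : i = j
        · subst hij
          rw [Function.update_self, if_pos rfl]
          ring
        · rw [Function.update_of_ne hij, if_neg hij, add_zero]
      rw [Finset.sum_congr rfl fun i _ => e i, Finset.sum_add_distrib]
      simp
    refine ⟨Function.update x' j s, fun a => ∑ i, (x' i - x1 i) * u i a, ?_, ?_, ?_, hz', ?_⟩
    · intro i
      by_cases hij : i = j
      · subst hij
        rw [Function.update_self]
        exact hs1
      · rw [Function.update_of_ne hij]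
        exact hothers i hij
    · intro i hi
      have hxi := h2 i hi
      have hij : i ≠ j := by
        rintro rfl
        apply hjne
        rw [hxi]
        exact hi
      rw [Function.update_of_ne hij]
      exact hxi
    · rw [hsplit c, h2c, zero_add]
      exact hs2
    · have e : ∀ a, (∑ i, (Function.update x' j s i - x1 i) * u i a)
          - ∑ i, (x' i - x1 i) * u i a = (s - x' j) * u j a := by
        intro a
        rw [hsplit (fun i => u i a)]
        ring
      simp_rw [e, mul_pow]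
      rw [← Finset.mul_sum]
      exact mul_le_mul hs3 (hu j) (Finset.sum_nonneg fun a _ => sq_nonneg _) (by norm_num)

theorem il_round2 {ι : Type*} [Fintype ι] [DecidableEq ι] {d : ℕ} (u : ι → Fin d → ℝ) (ρ : ℝ)
    (hu : ∀ i, ∑ a, u i a ^ 2 ≤ ρ ^ 2) (α : Fin d → ℝ) (hα : ∀ a, 0 ≤ α a) (c : ι → ℝ)
    (x1 : ι → ℝ) (hx1 : ∀ i, |x1 i| ≤ 1) :
    ∃ (x : ι → ℝ) (z' : Fin d → ℝ), (∀ i, |x i| = 1) ∧ (∀ i, |x1 i| = 1 → x i = x1 i) ∧
      ∑ i, (x i - x1 i) * c i ≤ 0 ∧
      ∑ a, α a * z' a ^ 2 ≤ 6 * ρ ^ 2 * ∑ a, α a ∧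
      ∑ a, ((∑ i, (x i - x1 i) * u i a) - z' a) ^ 2 ≤ 4 * ρ ^ 2 := by
  classical
  let τ : Equiv.Perm (Fin d) := Fin.revPerm.trans (Tuple.sort α)
  have hτ : Antitone (α ∘ τ) := by
    have hm : Monotone (α ∘ Tuple.sort α) := Tuple.monotone_sort α
    intro a b hab
    have : Fin.rev b ≤ Fin.rev a := Fin.rev_le_rev.mpr hab
    exact hm this
  obtain ⟨x, z', h1, h2, h3, h4, h5⟩ := il_round2_anti (fun i a => u i (τ a)) ρ
    (fun i => by
      have := Equiv.sum_comp τ (fun a => u i a ^ 2)
      rw [this]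
      exact hu i) (α ∘ τ) (fun a => hα _) hτ c x1 hx1
  refine ⟨x, fun a => z' (τ.symm a), h1, h2, h3, ?_, ?_⟩
  · have e1 := Equiv.sum_comp τ (fun a => α a * z' (τ.symm a) ^ 2)
    have e2 := Equiv.sum_comp τ α
    simp only [Function.comp_apply] at h4
    rw [← e1, ← e2]
    simpa using h4
  · have e1 := Equiv.sum_comp τ
      (fun a => ((∑ i, (x i - x1 i) * u i a) - z' (τ.symm a)) ^ 2)
    rw [← e1]
    simpa using h5

end P262
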