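import Mathlib
import Vale.Agent.P262.V2IL
import Vale.Agent.P262.Stage1

/-! P262: combined rounding, second version. -/

namespace P262

open Finset

/-- `c` is a functional which is a member of the family `F` -/
theorem round_lemma2 {ι : Type*} [Fintype ι] [DecidableEq ι] {d : ℕ} {H : Type*} [Fintype H]
    (u : ι → Fin d → ℝ) (ρ : ℝ) (hu : ∀ i, ∑ a, u i a ^ 2 ≤ ρ ^ 2)
    (F : H → ι → ℝ) (hF : ∀ a, ∃ g, ∀ i, F g i = u i a) (cl : ι → ℕ)
    (α : Fin d → ℝ) (hα : ∀ a, 0 ≤ α a) (c : Fin d → ℝ)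
    (x0 : ι → ℝ) (hx0 : ∀ i, |x0 i| ≤ 1) :
    ∃ (x : ι → ℝ) (z' : Fin d → ℝ), (∀ i, |x i| = 1) ∧ (∀ i, |x0 i| = 1 → x i = x0 i) ∧
      ∑ a, c a * (∑ i, (x i - x0 i) * u i a) ≤ 0 ∧
      ∑ a, α a * z' a ^ 2 ≤ 6 * ρ ^ 2 * ∑ a, α a ∧
      ∑ a, ((∑ i, (x i - x0 i) * u i a) - z' a) ^ 2 ≤ 4 * ρ ^ 2 ∧
      (∀ g B, (∀ i, |x0 i| ≠ 1 → |F g i| ≤ B) → 0 ≤ B →
        |∑ i, (x i - x0 i) * F g i| ≤ 4 * (Fintype.card H : ℝ) * B) ∧
      (∀ t, |∑ i ∈ univ.filter (fun i => cl i = t), (x i - x0 i)|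
        ≤ 6 + 4 * (Fintype.card H : ℝ)) := by
  classical
  obtain ⟨x1, h1, h2, h3, h4, h5⟩ := stage1 F cl x0 hx0
  obtain ⟨x, z', hx, hxs, hxc, hxa, hxb⟩ :=
    il_round2 u ρ hu α hα (fun i => ∑ a, c a * u i a) x1 h1
  set Fr : Finset ι := univ.filter (fun i => |x1 i| ≠ 1) with hFr
  have hmem : ∀ i, i ∈ Fr ↔ |x1 i| ≠ 1 := by intro i; simp [hFr]
  have hcard : (Fr.card : ℝ) ≤ 2 * (Fintype.card H : ℝ) := by exact_mod_cast h5
  have hdiff : ∀ i, |x i - x1 i| ≤ 2 := by
    intro i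
    have a1 := abs_le.1 (hx i).le
    have a2 := abs_le.1 (h1 i)
    rw [abs_le]
    constructor <;> linarith [a1.1, a1.2, a2.1, a2.2]
  have hzero : ∀ i, i ∉ Fr → x i - x1 i = 0 := by
    intro i hi
    rw [hmem, not_not] at hi
    rw [hxs i hi, sub_self]
  have hz : ∀ a, ∑ i, (x i - x0 i) * u i a = ∑ i, (x i - x1 i) * u i a := by
    intro a
    obtain ⟨g, hg⟩ := hF a
    have e1 : ∀ i, (x i - x0 i) * u i a = (x i - x1 i) * u i a + (x1 i - x0 i) * F g i := by
      intro i; rw [hg i]; ring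
    rw [Finset.sum_congr rfl fun i _ => e1 i, Finset.sum_add_distrib, h3 g, add_zero]
  refine ⟨x, z', hx, ?_, ?_, hxa, ?_, ?_, ?_⟩
  · intro i hi
    have e := h2 i hi
    rw [hxs i (by rw [e]; exact hi), e]
  · refine le_trans (le_of_eq ?_) hxc
    rw [Finset.sum_congr rfl fun a _ => by rw [hz a, Finset.mul_sum], Finset.sum_comm]
    refine Finset.sum_congr rfl fun i _ => ?_
    rw [Finset.mul_sum]
    exact Finset.sum_congr rfl fun a _ => by ring
  · rw [Finset.sum_congr rfl fun a _ => by rw [hz a]]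
    exact hxb
  · intro g B hB hB0
    have e : ∑ i, (x i - x0 i) * F g i = ∑ i ∈ Fr, (x i - x1 i) * F g i := by
      have e1 : ∀ i, (x i - x0 i) * F g i = (x i - x1 i) * F g i + (x1 i - x0 i) * F g i := by
        intro i; ring
      rw [Finset.sum_congr rfl fun i _ => e1 i, Finset.sum_add_distrib, h3 g, add_zero]
      symm
      apply Finset.sum_subset (subset_univ _)
      intro i _ hi
      rw [hzero i hi, zero_mul]
    rw [e]
    calc |∑ i ∈ Fr, (x i - x1 i) * F g i|
        ≤ ∑ i ∈ Fr, |(x i - x1 i) * F g i| := Finset.abs_sum_le_sum_abs _ _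
      _ ≤ ∑ _i ∈ Fr, 2 * B := by
          refine Finset.sum_le_sum fun i hi => ?_
          rw [abs_mul]
          have hi0 : |x0 i| ≠ 1 := by
            intro hcon
            rw [hmem] at hi
            apply hi
            rw [h2 i hcon]
            exact hcon
          exact mul_le_mul (hdiff i) (hB i hi0) (abs_nonneg _) (by norm_num)
      _ = (Fr.card : ℝ) * (2 * B) := by rw [Finset.sum_const, nsmul_eq_mul]
      _ ≤ 2 * (Fintype.card H : ℝ) * (2 * B) :=
          mul_le_mul_of_nonneg_right hcard (by linarith)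
      _ = 4 * (Fintype.card H : ℝ) * B := by ring
  · intro t
    have e1 : ∀ i, (x i - x0 i) = (x i - x1 i) + (x1 i - x0 i) := by
      intro i; ring
    rw [Finset.sum_congr rfl fun i _ => e1 i, Finset.sum_add_distrib]
    have e2 : |∑ i ∈ univ.filter (fun i => cl i = t), (x i - x1 i)|
        ≤ 4 * (Fintype.card H : ℝ) := by
      have e3 : ∑ i ∈ univ.filter (fun i => cl i = t), (x i - x1 i)
          = ∑ i ∈ Fr.filter (fun i => cl i = t), (x i - x1 i) := by
        symm
        apply Finset.sum_subset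
        · intro i hi
          rw [Finset.mem_filter] at hi ⊢
          exact ⟨mem_univ _, hi.2⟩
        · intro i hi hi2
          rw [Finset.mem_filter] at hi hi2
          exact hzero i (fun h => hi2 ⟨h, hi.2⟩)
      rw [e3]
      calc |∑ i ∈ Fr.filter (fun i => cl i = t), (x i - x1 i)|
          ≤ ∑ i ∈ Fr.filter (fun i => cl i = t), |x i - x1 i| :=
            Finset.abs_sum_le_sum_abs _ _
        _ ≤ ∑ _i ∈ Fr.filter (fun i => cl i = t), (2 : ℝ) :=
            Finset.sum_le_sum fun i _ => hdiff i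
        _ = ((Fr.filter (fun i => cl i = t)).card : ℝ) * 2 := by
            rw [Finset.sum_const, nsmul_eq_mul]
        _ ≤ (Fr.card : ℝ) * 2 := by
            have : ((Fr.filter (fun i => cl i = t)).card : ℝ) ≤ (Fr.card : ℝ) := by
              exact_mod_cast Finset.card_le_card (Finset.filter_subset _ _)
            linarith
        _ ≤ 4 * (Fintype.card H : ℝ) := by linarith
    calc |∑ i ∈ univ.filter (fun i => cl i = t), (x i - x1 i)
            + ∑ i ∈ univ.filter (fun i => cl i = t), (x1 i - x0 i)|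
        ≤ |∑ i ∈ univ.filter (fun i => cl i = t), (x i - x1 i)|
            + |∑ i ∈ univ.filter (fun i => cl i = t), (x1 i - x0 i)| := abs_add_le _ _
      _ ≤ 4 * (Fintype.card H : ℝ) + 6 := add_le_add e2 (h4 t)
      _ = 6 + 4 * (Fintype.card H : ℝ) := by ring

end P262
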