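import Mathlib
import Vale.Agent.P262.Weights

namespace P262

open Finset

theorem sum_sq_le_aux {d : ℕ} (A : Finset (Fin d)) (z z' : Fin d → ℝ) {X : ℝ}
    (h1 : ∑ a ∈ A, z' a ^ 2 ≤ 48 * X) (h2 : ∑ a, (z a - z' a) ^ 2 ≤ 16)
    (hX : A.Nonempty → 1 ≤ X) (hX0 : A = ∅ → 0 ≤ X) :
    ∑ a ∈ A, z a ^ 2 ≤ 128 * X := by
  rcases A.eq_empty_or_nonempty with h | h
  · have := hX0 h
    rw [h]
    simpa using this
  · have hX1 := hX h
    have h3 : ∑ a ∈ A, (z a - z' a) ^ 2 ≤ 16 :=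
      le_trans (Finset.sum_le_sum_of_subset_of_nonneg (Finset.subset_univ _)
        (fun a _ _ => sq_nonneg _)) h2
    have h4 : ∑ a ∈ A, z a ^ 2 ≤ ∑ a ∈ A, (2 * z' a ^ 2 + 2 * (z a - z' a) ^ 2) := by
      refine Finset.sum_le_sum fun a _ => ?_
      nlinarith [sq_nonneg (z a - 2 * z' a)]
    rw [Finset.sum_add_distrib, ← Finset.mul_sum, ← Finset.mul_sum] at h4
    linarith

theorem weights_lemma2 {d : ℕ} (hd : 1 ≤ d) (ka : Fin d → ℕ) (L k : ℕ) :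
    ∃ α : Fin d → ℝ, (∀ a, 0 ≤ α a) ∧ ∀ z z' : Fin d → ℝ,
      ∑ a, α a * z' a ^ 2 ≤ 24 * ∑ a, α a → ∑ a, (z a - z' a) ^ 2 ≤ 16 →
      (∑ a ∈ univ.filter (fun a => ka a ≤ k ∧ k < ka a + L), z a ^ 2
        ≤ 128 * ((univ.filter (fun a => ka a ≤ k ∧ k < ka a + L)).card : ℝ)) ∧
      (∀ t, ∑ a ∈ univ.filter (fun a => k < ka a ∧ ka a ≤ t), z a ^ 2
        ≤ 128 * (1 + Real.log d) * ((univ.filter (fun a => k < ka a ∧ ka a ≤ t)).card : ℝ)) := by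
  obtain ⟨α, hα, H⟩ := weights_lemma hd ka L k
  refine ⟨α, hα, fun z z' hz hzz => ?_⟩
  have hsc : ∀ a, (Real.sqrt (2 / 3) * z' a) ^ 2 = 2 / 3 * z' a ^ 2 := fun a => by
    rw [mul_pow, Real.sq_sqrt (by norm_num)]
  have hz2 : ∑ a, α a * (Real.sqrt (2 / 3) * z' a) ^ 2 ≤ 16 * ∑ a, α a := by
    have e : ∑ a, α a * (Real.sqrt (2 / 3) * z' a) ^ 2 = 2 / 3 * ∑ a, α a * z' a ^ 2 := by
      rw [Finset.mul_sum]
      exact Finset.sum_congr rfl fun a _ => by rw [hsc a]; ring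
    rw [e]
    linarith
  obtain ⟨H1', H2'⟩ := H (fun a => Real.sqrt (2 / 3) * z' a) hz2
  have hs : ∀ A : Finset (Fin d), ∑ a ∈ A, (Real.sqrt (2 / 3) * z' a) ^ 2
      = 2 / 3 * ∑ a ∈ A, z' a ^ 2 := fun A => by
    rw [Finset.mul_sum]
    exact Finset.sum_congr rfl fun a _ => hsc a
  simp only [hs] at H1' H2'
  have H1 : ∑ a ∈ univ.filter (fun a => ka a ≤ k ∧ k < ka a + L), z' a ^ 2
      ≤ 48 * ((univ.filter (fun a => ka a ≤ k ∧ k < ka a + L)).card : ℝ) := by linarith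
  have H2 : ∀ t, ∑ a ∈ univ.filter (fun a => k < ka a ∧ ka a ≤ t), z' a ^ 2
      ≤ 48 * (1 + Real.log d) * ((univ.filter (fun a => k < ka a ∧ ka a ≤ t)).card : ℝ) :=
    fun t => by
      have := H2' t
      rw [mul_assoc] at this ⊢
      linarith
  have hlog : 0 ≤ Real.log d := Real.log_nonneg (by exact_mod_cast hd)
  have hone : ∀ A : Finset (Fin d), A.Nonempty → (1 : ℝ) ≤ A.card := fun A hA => by
    exact_mod_cast hA.card_pos
  refine ⟨sum_sq_le_aux _ z z' H1 hzz (hone _) (fun _ => by positivity), fun t => ?_⟩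
  have h3 := H2 t
  rw [mul_assoc] at h3 ⊢
  refine sum_sq_le_aux _ z z' h3 hzz (fun hA => ?_) (fun _ => by positivity)
  have := hone _ hA
  nlinarith

end P262
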