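import Mathlib
import Vale.Agent.P262.Core
import Vale.Agent.P262.V2Theta
import Vale.Agent.P262.V2Weights
import Vale.Agent.P262.V2Round

/-! P262: construction of the signs of one splitting step (second version). -/

namespace P262

open Finset

/-- sums over `O` versus sums over `W` -/
theorem sum_O_W2 {N : ℕ} (W O Sp : Finset (Fin N)) (m i1 : Fin N) (hm : m ∈ W)
    (hi1 : i1 ∈ W.erase m)
    (hd : Disjoint O Sp) (hu : O ∪ Sp = (W.erase m).erase i1) (f : Fin N → ℝ)
    (hf : ∀ i, |f i| ≤ 1)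
    (r : ℝ) (hr : (Sp.card : ℝ) ≤ r) (c A : ℝ) (h : |∑ i ∈ W, f i - c| ≤ A) :
    |∑ i ∈ O, f i - c| ≤ A + (r + 2) := by
  have h1 : ∑ i ∈ W, f i = f m + (f i1 + (∑ i ∈ O, f i + ∑ i ∈ Sp, f i)) := by
    rw [← Finset.sum_union hd, hu, Finset.add_sum_erase _ _ hi1, Finset.add_sum_erase _ _ hm]
  have h2 : |∑ i ∈ Sp, f i| ≤ Sp.card := by
    calc |∑ i ∈ Sp, f i| ≤ ∑ i ∈ Sp, |f i| := Finset.abs_sum_le_sum_abs _ _
      _ ≤ ∑ i ∈ Sp, (1 : ℝ) := Finset.sum_le_sum fun i _ => hf i
      _ = Sp.card := by simp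
  have h3 := abs_le.mp (hf m)
  have h4 := abs_le.mp (hf i1)
  have h5 := abs_le.mp h2
  have h6 := abs_le.mp h
  rw [h1] at h6
  rw [abs_le]
  constructor <;> linarith [h3.1, h3.2, h4.1, h4.2, h5.1, h5.2, h6.1, h6.2]

/-- bound used for dead directions -/
theorem dead_bound (vm vi rest y z B t : ℝ) (hvm : |vm| ≤ 1) (ht0 : 0 ≤ t) (ht1 : t ≤ 1)
    (hB : 1 ≤ B) (hr : |rest| ≤ B * t) (hη : |vi| + |y| + |z| ≤ B * t) (σ : ℝ)
    (hσ : σ = 1 ∨ σ = -1) :
    (σ * (vm - vi) + y + z) ^ 2 - (vm + rest) ^ 2 ≤ 5 * B ^ 2 * t := by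
  have hBt : 0 ≤ B * t := by positivity
  have h1 : |σ * (vm - vi) + y + z| ≤ |vm| + B * t := by
    have e : |σ| = 1 := by rcases hσ with h | h <;> rw [h] <;> norm_num
    calc |σ * (vm - vi) + y + z| ≤ |σ * (vm - vi) + y| + |z| := abs_add_le _ _
      _ ≤ |σ * (vm - vi)| + |y| + |z| := by linarith [abs_add_le (σ * (vm - vi)) y]
      _ = |vm - vi| + |y| + |z| := by rw [abs_mul, e, one_mul]
      _ ≤ |vm| + |vi| + |y| + |z| := by linarith [abs_sub vm vi]
      _ ≤ |vm| + B * t := by linarith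
  have h2 : (σ * (vm - vi) + y + z) ^ 2 ≤ (|vm| + B * t) ^ 2 := by
    rw [← sq_abs]
    exact pow_le_pow_left₀ (abs_nonneg _) h1 2
  have h3 : |vm| ^ 2 - 2 * |vm| * |rest| ≤ (vm + rest) ^ 2 := by
    have e1 : (vm + rest) ^ 2 = vm ^ 2 + 2 * (vm * rest) + rest ^ 2 := by ring
    have e2 : -(|vm| * |rest|) ≤ vm * rest := by
      rw [← abs_mul]; exact neg_abs_le _
    rw [e1, sq_abs]
    nlinarith [sq_nonneg rest]
  have h4 : 2 * |vm| * |rest| ≤ 2 * (B * t) := by
    have := mul_le_mul hvm hr (abs_nonneg _) (by norm_num)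
    nlinarith [this]
  have h5 : 2 * |vm| * (B * t) ≤ 2 * (B * t) := by
    nlinarith [mul_le_mul_of_nonneg_right hvm hBt]
  have h6 : (B * t) ^ 2 ≤ B ^ 2 * t := by
    have : t ^ 2 ≤ t := by nlinarith
    have hB2 : 0 ≤ B ^ 2 := sq_nonneg _
    nlinarith [mul_le_mul_of_nonneg_left this hB2]
  have h7 : B * t ≤ B ^ 2 * t := by
    have : B ≤ B ^ 2 := by nlinarith
    exact mul_le_mul_of_nonneg_right this ht0
  nlinarith [h2, h3, h4, h5, h6, h7]

theorem eta_bound (h q l t vi y z : ℝ) (hh : 2 ≤ h) (hq : 1 ≤ q) (hl : 1 ≤ l) (ht : 0 ≤ t)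
    (h1 : |z| ≤ 16 * h * q * l * t) (h2 : |y| ≤ 8 * h * q * l * t)
    (h3 : |vi| ≤ 2 * q * l * t) : |vi| + |y| + |z| ≤ 64 * h * q * l * t := by
  have h5 : 2 * q * l * t ≤ 2 * h * q * l * t := by
    have h6 : 0 ≤ q * l * t := by positivity
    nlinarith
  have h7 : 0 ≤ h * q * l * t := by positivity
  nlinarith

theorem one_le_B2 {d : ℕ} (hd : 1 ≤ d) : 1 ≤ B2 d := by
  have hd1 : (1 : ℝ) ≤ d := by exact_mod_cast hd
  have hhC2 : 2 ≤ hC d := by unfold hC; nlinarith
  have hlam1 : 1 ≤ lam d := one_le_lam hd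
  have hq1 : 1 ≤ q2 d := one_le_q2 hd
  have hB2e : B2 d = 64 * hC d * q2 d * lam d := rfl
  rw [hB2e]
  have h1 : 1 ≤ hC d * q2 d := by nlinarith
  have h2 : 1 ≤ hC d * q2 d * lam d := by nlinarith
  nlinarith

theorem w_sq_bound {d N : ℕ} (S : Sys d N) (m i1 : Fin N) (σ : ℝ) (hσsq : σ ^ 2 = 1) :
    ∑ a, (σ * (S.v m a - S.v i1 a)) ^ 2 ≤ 4 := by
  have h1 : ∀ a, (σ * (S.v m a - S.v i1 a)) ^ 2 ≤ 2 * S.v m a ^ 2 + 2 * S.v i1 a ^ 2 := by
    intro a
    have : (σ * (S.v m a - S.v i1 a)) ^ 2 = σ ^ 2 * (S.v m a - S.v i1 a) ^ 2 := by ring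
    rw [this, hσsq]
    nlinarith [sq_nonneg (S.v m a + S.v i1 a)]
  calc ∑ a, (σ * (S.v m a - S.v i1 a)) ^ 2 ≤ ∑ a, (2 * S.v m a ^ 2 + 2 * S.v i1 a ^ 2) :=
        Finset.sum_le_sum fun a _ => h1 a
    _ = 2 * ∑ a, S.v m a ^ 2 + 2 * ∑ a, S.v i1 a ^ 2 := by
        rw [Finset.sum_add_distrib, Finset.mul_sum, Finset.mul_sum]
    _ ≤ 4 := by linarith [S.norm_le m, S.norm_le i1]

theorem step_core2 {d N : ℕ} (S : Sys d N) (L k : ℕ) (W : Finset (Fin N)) (P Q : Fin d → ℝ)
    (hN : Node2 S k W P Q) (m i1 : Fin N) (hm : m ∈ W) (hi1 : i1 ∈ W.erase m)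
    (hmin : ∀ i ∈ W, m ≤ i) (hmin1 : ∀ i ∈ W.erase m, i1 ≤ i) :
    ∃ (s : Fin N → ℝ) (R w y z : Fin d → ℝ), Signs2 S k W m i1 s ∧
      (∀ a, R a = P a + ∑ i ∈ W.filter (fun i => s i = 1), S.v i a) ∧
      (∀ a, |R a| ≤ 4 * hC d ∨ S.ka a ≤ k) ∧
      StepRel2 S L k P Q R w y z := by
  classical
  have hd1 : (1 : ℝ) ≤ d := by exact_mod_cast S.hd
  have hhC2 : 2 ≤ hC d := by unfold hC; nlinarith
  have hhC : 0 ≤ hC d := by linarith
  have hvabs : ∀ i a, |S.v i a| ≤ 1 := fun i a => abs_mul_le_one_of (S.v i) (S.norm_le i) a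
  have hff : ∀ a b i, |S.v i a * S.v i b| ≤ 1 := by
    intro a b i
    rw [abs_mul]
    exact mul_le_one₀ (hvabs i a) (abs_nonneg _) (hvabs i b)
  have hT1 : 0 ≤ T1 d := T1_pos.le
  have hlam : 0 < lam d := lam_pos S.hd
  have hlam1 : 1 ≤ lam d := one_le_lam S.hd
  have hq1 : 1 ≤ q2 d := one_le_q2 S.hd
  have hmi1 : m ≠ i1 := (Finset.ne_of_mem_erase hi1).symm
  have hi1W : i1 ∈ W := Finset.mem_of_mem_erase hi1
  have hmlt : m < i1 := lt_of_le_of_ne (hmin i1 hi1W) hmi1
  -- the parts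
  set W2 : Finset (Fin N) := (W.erase m).erase i1 with hW2
  have hW2W : ∀ i ∈ W2, i ∈ W := fun i hi => Finset.mem_of_mem_erase (Finset.mem_of_mem_erase hi)
  have hW2m : ∀ i ∈ W2, i ≠ m := fun i hi => Finset.ne_of_mem_erase (Finset.mem_of_mem_erase hi)
  have hW2i1 : ∀ i ∈ W2, i ≠ i1 := fun i hi => Finset.ne_of_mem_erase hi
  have hrk : ∀ i ∈ W.erase m, S.kk i ≤ k → (2 : ℝ) ^ k ≤ q2 d * 2 ^ S.kk i := by
    intro i hi hk
    have hiW := Finset.mem_of_mem_erase hi
    have h1 := hN.rank i hiW hk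
    have h2 : (1 : ℝ) ≤ ((W.filter (fun j => j < i)).card : ℝ) := by
      have : 0 < (W.filter (fun j => j < i)).card := by
        rw [Finset.card_pos]
        refine ⟨m, Finset.mem_filter.mpr ⟨hm, ?_⟩⟩
        exact lt_of_le_of_ne (hmin i hiW) (Finset.ne_of_mem_erase hi).symm
      exact_mod_cast this
    have h3 : (0 : ℝ) < 2 ^ k := by positivity
    nlinarith
  have hsm : ∀ i ∈ W.erase m, ∀ a, S.v i a ^ 2 ≤ 2 * q2 d * S.mu a k :=
    fun i hi a => S.small2 (hrk i hi) a
  set O : Finset (Fin N) := W2.filter (fun i => k < S.kk i) with hO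
  set Sp : Finset (Fin N) := W2.filter (fun i => S.kk i ≤ k) with hSp
  have hdisj : Disjoint O Sp := by
    rw [Finset.disjoint_left]
    intro i hi hi'
    rw [hO, Finset.mem_filter] at hi
    rw [hSp, Finset.mem_filter] at hi'
    exact absurd hi.2 (not_lt.mpr hi'.2)
  have hunion : O ∪ Sp = W2 := by
    ext i
    rw [hO, hSp, Finset.mem_union, Finset.mem_filter, Finset.mem_filter]
    constructor
    · rintro (h | h) <;> exact h.1
    · intro h
      rcases lt_or_ge k (S.kk i) with h' | h'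
      · exact Or.inl ⟨h, h'⟩
      · exact Or.inr ⟨h, h'⟩
  have hOW2 : ∀ i ∈ O, i ∈ W2 := fun i hi => (Finset.mem_filter.mp hi).1
  have hSpW2 : ∀ i ∈ Sp, i ∈ W2 := fun i hi => (Finset.mem_filter.mp hi).1
  have hOW : ∀ i ∈ O, i ∈ W := fun i hi => hW2W i (hOW2 i hi)
  have hSpcard : (Sp.card : ℝ) ≤ q2 d := by
    refine le_trans ?_ hN.nsp
    exact_mod_cast Finset.card_le_card (by
      intro i hi
      rw [hSp, Finset.mem_filter] at hi
      rw [Finset.mem_filter]
      exact ⟨hW2W i hi.1, hi.2⟩)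
  obtain ⟨p, hp1, hp2, hp3⟩ := exists_pairing Sp
  -- the sign of the forced pair
  set cw0 : ℝ := ∑ a ∈ univ.filter (fun a => S.ka a ≤ k), (P a + Q a) * (S.v m a - S.v i1 a)
    with hcw0
  obtain ⟨σ, hσ, hσcw⟩ : ∃ σ : ℝ, (σ = 1 ∨ σ = -1) ∧ σ * cw0 ≤ 0 := by
    rcases le_total cw0 0 with h | h
    · exact ⟨1, Or.inl rfl, by linarith⟩
    · exact ⟨-1, Or.inr rfl, by linarith⟩
  have hσabs : |σ| = 1 := by rcases hσ with h | h <;> rw [h] <;> norm_num
  have hσsq : σ ^ 2 = 1 := by rw [← sq_abs, hσabs]; norm_num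
  -- restoration
  set rich : Finset (Fin d) := univ.filter (fun a => k < S.ka a) with hrich
  set w : Fin d → ℝ := fun a => σ * (S.v m a - S.v i1 a) with hw
  set T : Fin d → ℝ := fun a => if k < S.ka a then -(P a + Q a + w a) else 0 with hT
  have hwb : ∀ a, |w a| ≤ 2 := by
    intro a
    rw [hw]
    simp only
    rw [abs_mul, hσabs, one_mul]
    linarith [abs_sub (S.v m a) (S.v i1 a), hvabs m a, hvabs i1 a]
  have hTb : ∀ a, |T a| ≤ T1 d := by
    intro a
    rw [hT]
    simp only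
    split_ifs with h
    · have e : T1 d = 8 * hC d + 3 := by unfold T1 D1; ring
      obtain ⟨h3, h4⟩ := hN.rich a h
      have h3' := abs_le.mp h3
      have h4' := abs_le.mp h4
      have h2' := abs_le.mp (hwb a)
      rw [abs_le]
      constructor <;> linarith [h3'.1, h3'.2, h4'.1, h4'.2, h2'.1, h2'.2]
    · simpa using hT1
  have hmomO : ∀ a b, |∑ i ∈ O, S.v i a * S.v i b - (if a = b then S.mu a k else 0)|
      ≤ cG d + S.th k * Real.sqrt (S.g a k * S.g b k) + (q2 d + 2) := by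
    intro a b
    exact sum_O_W2 W O Sp m i1 hm hi1 hdisj hunion (fun i => S.v i a * S.v i b) (hff a b) (q2 d)
      hSpcard _ _ (hN.mom a b)
  have hlam2 : 0 < lam d ^ 2 := by positivity
  obtain ⟨ww, hw0, hw1, hw2, hw3, hw4⟩ := restore O S.v (fun i _ => S.norm_le i) rich
    (fun a => S.mu a k) (lam d ^ 2) (S.sig k) (T1 d) hlam2 (S.sig_nonneg k) hT1
    (fun a ha => S.lam_le_sig (by simpa [hrich] using ha))
    (fun a ha => lt_of_lt_of_le hlam2 (S.lam_le_mu (by simpa [hrich] using ha)))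
    (fun a ha b hb => le_trans (hmomO a b) (S.diag_bound2 (by simpa [hrich] using ha)
      (by simpa [hrich] using hb))) T hTb
  set yy : Fin N → ℝ := fun i => ∑ b, ww b * S.v i b with hyy
  have hyb : ∀ i ∈ O, |yy i| ≤ S.xi k := fun i hi => hw4 i hi
  -- square sum of the restoring signs
  have hyy2 : ∑ i ∈ O, yy i ^ 2 ≤ 1 := by
    have e1 : ∑ i ∈ O, yy i ^ 2 = ∑ b, ww b * ∑ i ∈ O, yy i * S.v i b := by
      calc ∑ i ∈ O, yy i ^ 2 = ∑ i ∈ O, ∑ b, ww b * (yy i * S.v i b) := by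
            apply Finset.sum_congr rfl
            intro i _
            have : yy i ^ 2 = yy i * ∑ b, ww b * S.v i b := by rw [sq]
            rw [this, Finset.mul_sum]
            apply Finset.sum_congr rfl
            intro b _
            ring
        _ = ∑ b, ww b * ∑ i ∈ O, yy i * S.v i b := by
            rw [Finset.sum_comm]
            apply Finset.sum_congr rfl
            intro b _
            rw [Finset.mul_sum]
    rw [e1]
    have e2 : ∀ b, ww b * ∑ i ∈ O, yy i * S.v i b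
        ≤ (2 * d * T1 d * S.sig k ^ 2 / lam d ^ 2) * T1 d := by
      intro b
      by_cases hb : b ∈ rich
      · rw [hw1 b hb]
        calc ww b * T b ≤ |ww b * T b| := le_abs_self _
          _ = |ww b| * |T b| := abs_mul _ _
          _ ≤ (2 * d * T1 d * S.sig k ^ 2 / lam d ^ 2) * T1 d :=
            mul_le_mul (hw3 b) (hTb b) (abs_nonneg _) (by positivity)
      · rw [hw0 b hb, zero_mul]
        positivity
    calc ∑ b, ww b * ∑ i ∈ O, yy i * S.v i b
        ≤ ∑ _b : Fin d, (2 * d * T1 d * S.sig k ^ 2 / lam d ^ 2) * T1 d :=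
          Finset.sum_le_sum fun b _ => e2 b
      _ = (d : ℝ) * ((2 * d * T1 d * S.sig k ^ 2 / lam d ^ 2) * T1 d) := by
          rw [Finset.sum_const, Finset.card_univ, Fintype.card_fin, nsmul_eq_mul]
      _ ≤ 1 := S.restore_const k
  set x0 : Fin N → ℝ := st O Sp p yy with hx0
  have hx0b : ∀ i, |x0 i| ≤ 1 := by
    intro i
    rw [hx0]
    unfold st
    split_ifs with h1 h2 h3
    · exact le_trans (hyb i h1) (le_trans (S.xi_le k) (by norm_num))
    · simp
    · simp
    · simp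
  obtain ⟨α, hα, hαz⟩ := weights_lemma2 S.hd S.ka L k
  set u : Fin N → Fin d → ℝ := fun i a => item O Sp p (fun j => S.v j a) i with hu
  set c : Fin d → ℝ := fun a => if S.ka a ≤ k then P a + Q a else 0 with hc
  obtain ⟨x, z', hx1, hx2, hxc, hx3, hx3', hx4, hx5⟩ := round_lemma2 u 2
    (fun i => item_norm S O Sp p i)
    (feat S O Sp p) (fun a => ⟨Sum.inl a, fun i => rfl⟩) S.kk α hα c x0 hx0b
  rw [card_feat] at hx4 hx5
  set s : Fin N → ℝ := fun i => if i = m then σ else if i = i1 then -σ else sg O Sp p x i with hs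
  set z : Fin d → ℝ := fun a => ∑ i, (x i - x0 i) * u i a with hz
  have hsW2 : ∀ i ∈ W2, s i = sg O Sp p x i := by
    intro i hi
    simp [hs, hW2m i hi, hW2i1 i hi]
  have hsm1 : s m = σ := by simp [hs]
  have hsi1 : s i1 = -σ := by simp [hs, hmi1.symm]
  have key : ∀ f : Fin N → ℝ, ∑ i ∈ W2, s i * f i
      = ∑ i ∈ O, yy i * f i + ∑ i, (x i - x0 i) * item O Sp p f i := by
    intro f
    have e0 : ∑ i ∈ W2, s i * f i = ∑ i ∈ O ∪ Sp, sg O Sp p x i * f i := by
      rw [hunion]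
      exact Finset.sum_congr rfl fun i hi => by rw [hsW2 i hi]
    rw [e0, sum_sg O Sp p hdisj hp1 hp2 x f, ← sum_st O Sp p yy f,
      ← Finset.sum_add_distrib]
    apply Finset.sum_congr rfl
    intro i _
    rw [hx0]
    ring
  have keyW : ∀ f : Fin N → ℝ, ∑ i ∈ W, s i * f i
      = σ * (f m - f i1) + ∑ i ∈ W2, s i * f i := by
    intro f
    rw [← Finset.add_sum_erase W _ hm, ← Finset.add_sum_erase (W.erase m) _ hi1, hsm1, hsi1]
    ring
  have hx1' : ∀ i, x i = 1 ∨ x i = -1 := by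
    intro i
    rcases abs_eq (by norm_num : (0:ℝ) ≤ 1) |>.mp (hx1 i) with h | h
    · exact Or.inl h
    · exact Or.inr h
  have hs1 : ∀ i, s i = 1 ∨ s i = -1 := by
    intro i
    simp only [hs]
    by_cases h0 : i = m
    · simp only [h0, if_true]
      exact hσ
    by_cases h0' : i = i1
    · simp only [h0', hmi1.symm, if_true, if_false]
      rcases hσ with h | h
      · right; rw [h]
      · left; rw [h]; norm_num
    simp only [h0, h0', if_false]
    unfold sg
    split_ifs with h1 h2 h3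
    · exact hx1' i
    · exact hx1' i
    · rcases hx1' (p i) with h | h
      · right; rw [h]
      · left; rw [h]; norm_num
    · left; rfl
  have hspair : ∀ i ∈ Sp, p i ≠ i → s (p i) = - s i := by
    intro i hi hne
    have hiO : i ∉ O := fun h => Finset.disjoint_left.mp hdisj h hi
    have hpi := hp1 i hi
    have hpiO : p i ∉ O := fun h => Finset.disjoint_left.mp hdisj h hpi
    rw [hsW2 i (hSpW2 i hi), hsW2 (p i) (hSpW2 _ hpi)]
    rcases lt_or_gt_of_ne hne with h | h
    · -- p i < i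
      have h1 : ¬ i ≤ p i := not_le.mpr h
      have h2 : p i ≤ p (p i) := by rw [hp2 i hi]; exact h.le
      simp [sg, hiO, hpiO, hi, hpi, h1, h2]
    · have h1 : i ≤ p i := le_of_lt h
      have h2 : ¬ p i ≤ p (p i) := by rw [hp2 i hi]; exact not_le.mpr h
      simp only [sg, hiO, hpiO, hi, hpi, h1, h2, if_true, if_false]
      rw [hp2 i hi]
  obtain ⟨hr1, hr2⟩ := hp3 s hs1 hspair
  -- the drift
  set y : Fin d → ℝ := fun a => ∑ i ∈ O, yy i * S.v i a with hy
  have hyz : ∀ a, ∑ i ∈ W2, s i * S.v i a = y a + z a := fun a => key (fun i => S.v i a)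
  have hydrift : ∀ a, S.ka a ≤ k → |y a| ≤ S.sig k / (2 * d) := by
    intro a ha
    have hdr := drift_bound O S.v rich (fun a => S.mu a k) (fun a => S.g a k) (lam d ^ 2)
      (S.sig k) (T1 d) (cG d + (q2 d + 2)) (S.th k) hlam2 (S.sig_nonneg k) hT1
      (by have := (cG_pos (d := d)).le; positivity) (S.th_nonneg k) ww hw0 hw2 hw3
      (fun a => S.mu_nonneg a k)
      (fun a => S.g_nonneg a k) (fun a ha => S.g_le_rich (by simpa [hrich] using ha)) a
      (S.g_le_poor ha) (by
        intro b hb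
        have hb' : k < S.ka b := by simpa [hrich] using hb
        have hab : a ≠ b := by
          rintro rfl
          omega
        have := hmomO a b
        rw [if_neg hab, sub_zero] at this
        linarith)
    exact le_trans hdr (S.drift_const2 k)
  -- geometric bounds
  have hzB : ∀ a B, 0 ≤ B → (∀ i ∈ W2, |S.v i a| ≤ B) → |z a| ≤ 8 * hC d * B := by
    intro a B hB hBv
    have h1 : |∑ i, (x i - x0 i) * item O Sp p (fun i => S.v i a) i| ≤ 4 * hC d * (2 * B) := by
      refine hx4 (Sum.inl a) (2 * B) ?_ (by positivity)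
      intro i _
      have := item_bound O Sp p hp1 (fun i => S.v i a) B hB
        (fun i hi => hBv i (hOW2 i hi))
        (fun i hi => hBv i (hSpW2 i hi)) i
      simpa [feat] using this
    calc |z a| = |∑ i, (x i - x0 i) * item O Sp p (fun i => S.v i a) i| := rfl
      _ ≤ 4 * hC d * (2 * B) := h1
      _ = 8 * hC d * B := by ring
  have hW2e : ∀ i ∈ W2, i ∈ W.erase m := fun i hi => Finset.mem_of_mem_erase hi
  have h34 : ∀ j : ℕ, (3 / 4 : ℝ) ^ j ≤ (15 / 16 : ℝ) ^ j := fun j =>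
    pow_le_pow_left₀ (by norm_num) (by norm_num) j
  have hzgeo : ∀ a, S.ka a ≤ k →
      |z a| ≤ 16 * hC d * q2 d * lam d * (15 / 16 : ℝ) ^ (k - S.ka a) := by
    intro a ha
    have h1 := hzB a (2 * q2 d * lam d * (3 / 4 : ℝ) ^ (k - S.ka a)) (by positivity)
      (fun i hi => S.small2' (hrk i (hW2e i hi)) ha)
    refine le_trans h1 ?_
    have h2 := h34 (k - S.ka a)
    have h3 : 0 ≤ 16 * hC d * q2 d * lam d := by positivity
    calc 8 * hC d * (2 * q2 d * lam d * (3 / 4 : ℝ) ^ (k - S.ka a))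
        = 16 * hC d * q2 d * lam d * (3 / 4 : ℝ) ^ (k - S.ka a) := by ring
      _ ≤ 16 * hC d * q2 d * lam d * (15 / 16 : ℝ) ^ (k - S.ka a) :=
        mul_le_mul_of_nonneg_left h2 h3
  have hygeo : ∀ a, S.ka a ≤ k → |y a| ≤ b1 d * (15 / 16 : ℝ) ^ (k - S.ka a) := by
    intro a ha
    have hb1 : 0 ≤ b1 d := by unfold b1; positivity
    have h1 : (y a) ^ 2 ≤ (∑ i ∈ O, yy i ^ 2) * ∑ i ∈ O, S.v i a ^ 2 :=
      Finset.sum_mul_sq_le_sq_mul_sq O yy (fun i => S.v i a)
    have h2 : ∑ i ∈ O, S.v i a ^ 2 ≤ b1 d ^ 2 * (7 / 8 : ℝ) ^ (k - S.ka a) := by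
      refine le_trans ?_ (hN.momd a ha m hm hmin)
      exact Finset.sum_le_sum_of_subset_of_nonneg (fun i hi => hW2e i (hOW2 i hi))
        (fun i _ _ => sq_nonneg _)
    have h3 : (7 / 8 : ℝ) ^ (k - S.ka a) ≤ ((15 / 16 : ℝ) ^ (k - S.ka a)) ^ 2 := by
      rw [← pow_mul, mul_comm, pow_mul]
      exact pow_le_pow_left₀ (by norm_num) (by norm_num) _
    have h4 : (y a) ^ 2 ≤ (b1 d * (15 / 16 : ℝ) ^ (k - S.ka a)) ^ 2 := by
      calc (y a) ^ 2 ≤ (∑ i ∈ O, yy i ^ 2) * ∑ i ∈ O, S.v i a ^ 2 := h1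
        _ ≤ 1 * (b1 d ^ 2 * (7 / 8 : ℝ) ^ (k - S.ka a)) :=
          mul_le_mul hyy2 h2 (Finset.sum_nonneg fun i _ => sq_nonneg _) (by norm_num)
        _ ≤ b1 d ^ 2 * ((15 / 16 : ℝ) ^ (k - S.ka a)) ^ 2 := by
          rw [one_mul]
          exact mul_le_mul_of_nonneg_left h3 (sq_nonneg _)
        _ = (b1 d * (15 / 16 : ℝ) ^ (k - S.ka a)) ^ 2 := by ring
    exact abs_le_of_sq_le_sq h4 (by positivity)
  set R : Fin d → ℝ := fun a => P a + ∑ i ∈ W.filter (fun i => s i = 1), S.v i a with hR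
  have hRf : ∀ a, R a = (P a + Q a + w a + ∑ i ∈ W2, s i * S.v i a) / 2 := by
    intro a
    have h1 := card_plus W s hs1 (fun i => S.v i a)
    have h2 := hN.sum a
    have h3 := keyW (fun i => S.v i a)
    simp only [hR, hw]
    rw [h1, h3, h2]
    ring
  have hRrich : ∀ a, k < S.ka a → R a = z a / 2 := by
    intro a ha
    rw [hRf a, hyz a]
    have h2 := hw1 a (by simpa [hrich] using ha)
    have h3 : T a = -(P a + Q a + w a) := by simp [hT, ha]
    have h4 : y a = T a := h2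
    rw [h4, h3]
    ring
  refine ⟨s, R, w, y, z, ⟨hs1, ?_, ?_, ?_, hr1, hr2, ?_, ?_⟩, fun a => rfl, ?_,
    ⟨hRrich, ?_, ?_, ?_, ?_, hydrift, ?_, ?_, ?_⟩⟩
  · rw [hsi1, hsm1]
  · -- mom
    intro a b
    rw [keyW (fun i => S.v i a * S.v i b), key (fun i => S.v i a * S.v i b)]
    have h0 : |σ * (S.v m a * S.v m b - S.v i1 a * S.v i1 b)| ≤ 2 := by
      rw [abs_mul, hσabs, one_mul]
      linarith [abs_sub (S.v m a * S.v m b) (S.v i1 a * S.v i1 b), hff a b m, hff a b i1]
    have h1 : |∑ i, (x i - x0 i) * item O Sp p (fun i => S.v i a * S.v i b) i|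
        ≤ 4 * hC d * 2 := by
      refine hx4 (Sum.inr (a, b)) 2 ?_ (by norm_num)
      intro i _
      have := item_bound O Sp p hp1 (fun i => S.v i a * S.v i b) 1 (by norm_num)
        (fun i _ => hff a b i) (fun i _ => hff a b i) i
      simpa [feat] using this
    have h2 : |∑ i ∈ O, yy i * (S.v i a * S.v i b)| ≤ S.xi k * Real.sqrt
        ((∑ i ∈ W, S.v i a * S.v i a) * (∑ i ∈ W, S.v i b * S.v i b)) := by
      calc |∑ i ∈ O, yy i * (S.v i a * S.v i b)|
          ≤ ∑ i ∈ O, |yy i * (S.v i a * S.v i b)| := Finset.abs_sum_le_sum_abs _ _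
        _ ≤ ∑ i ∈ O, S.xi k * (|S.v i a| * |S.v i b|) := by
            apply Finset.sum_le_sum
            intro i hi
            rw [abs_mul, abs_mul]
            exact mul_le_mul_of_nonneg_right (hyb i hi) (by positivity)
        _ = S.xi k * ∑ i ∈ O, |S.v i a| * |S.v i b| := by rw [Finset.mul_sum]
        _ ≤ S.xi k * Real.sqrt
            ((∑ i ∈ W, S.v i a * S.v i a) * (∑ i ∈ W, S.v i b * S.v i b)) := by
            apply mul_le_mul_of_nonneg_left _ (S.xi_nonneg k)
            apply Real.le_sqrt_of_sq_le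
            have hcs := Finset.sum_mul_sq_le_sq_mul_sq O (fun i => |S.v i a|) (fun i => |S.v i b|)
            simp only [sq_abs] at hcs
            refine le_trans hcs ?_
            have e1 : ∀ c, ∑ i ∈ O, S.v i c ^ 2 ≤ ∑ i ∈ W, S.v i c * S.v i c := by
              intro c
              calc ∑ i ∈ O, S.v i c ^ 2 ≤ ∑ i ∈ W, S.v i c ^ 2 :=
                    Finset.sum_le_sum_of_subset_of_nonneg hOW (fun i _ _ => sq_nonneg _)
                _ = ∑ i ∈ W, S.v i c * S.v i c := Finset.sum_congr rfl fun i _ => by ring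
            exact mul_le_mul (e1 a) (e1 b) (Finset.sum_nonneg fun i _ => sq_nonneg _)
              (Finset.sum_nonneg fun i _ => mul_self_nonneg _)
    have h3 := abs_add_le (σ * (S.v m a * S.v m b - S.v i1 a * S.v i1 b))
      (∑ i ∈ O, yy i * (S.v i a * S.v i b)
        + ∑ i, (x i - x0 i) * item O Sp p (fun i => S.v i a * S.v i b) i)
    have h4 := abs_add_le (∑ i ∈ O, yy i * (S.v i a * S.v i b))
      (∑ i, (x i - x0 i) * item O Sp p (fun i => S.v i a * S.v i b) i)
    linarith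
  · -- cls
    intro t ht
    set Fm : ℝ := if S.kk m = t then 1 else 0 with hFm
    set F1 : ℝ := if S.kk i1 = t then 1 else 0 with hF1
    have h0 : ∑ i ∈ W.filter (fun i => S.kk i = t), s i
        = σ * (Fm - F1) + ∑ i ∈ O.filter (fun i => S.kk i = t), x i := by
      have e0 : ∑ i ∈ W.filter (fun i => S.kk i = t), s i
          = ∑ i ∈ W, s i * (if S.kk i = t then 1 else 0) := by
        rw [Finset.sum_filter]
        apply Finset.sum_congr rfl
        intro i _
        split_ifs <;> simp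
      rw [e0, keyW (fun i => if S.kk i = t then 1 else 0)]
      congr 1
      have e1 : ∑ i ∈ W2, s i * (if S.kk i = t then (1 : ℝ) else 0)
          = ∑ i ∈ W2.filter (fun i => S.kk i = t), s i := by
        rw [Finset.sum_filter]
        apply Finset.sum_congr rfl
        intro i _
        split_ifs <;> simp
      rw [e1]
      have e : W2.filter (fun i => S.kk i = t) = O.filter (fun i => S.kk i = t) := by
        ext i
        rw [hO, Finset.mem_filter, Finset.mem_filter, Finset.mem_filter]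
        constructor
        · rintro ⟨h1, h2⟩
          exact ⟨⟨h1, by omega⟩, h2⟩
        · rintro ⟨⟨h1, _⟩, h2⟩
          exact ⟨h1, h2⟩
      rw [e]
      apply Finset.sum_congr rfl
      intro i hi
      have : i ∈ O := (Finset.mem_filter.mp hi).1
      rw [hsW2 i (hOW2 i this)]
      simp [sg, this]
    have h1 : ∑ i ∈ univ.filter (fun i => S.kk i = t), (x i - x0 i)
        = ∑ i ∈ O.filter (fun i => S.kk i = t), (x i - yy i) := by
      have e2 : ∑ i ∈ O.filter (fun i => S.kk i = t), (x i - yy i)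
          = ∑ i ∈ O.filter (fun i => S.kk i = t), (x i - x0 i) := by
        apply Finset.sum_congr rfl
        intro i hi
        have : i ∈ O := (Finset.mem_filter.mp hi).1
        simp [hx0, st, this]
      rw [e2]
      symm
      apply Finset.sum_subset
      · exact Finset.filter_subset_filter _ (Finset.subset_univ _)
      · intro i hi hi'
        rw [Finset.mem_filter] at hi
        have hiO : i ∉ O := fun h => hi' (Finset.mem_filter.mpr ⟨h, hi.2⟩)
        have hiS : i ∉ Sp := by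
          intro h
          rw [hSp, Finset.mem_filter] at h
          omega
        have e3 : x0 i = 1 := by simp [hx0, st, hiO, hiS]
        have e4 : x i = x0 i := hx2 i (by rw [e3]; simp)
        rw [e4]; ring
    have h2 := hx5 t
    rw [h1] at h2
    have h3 : |∑ i ∈ O.filter (fun i => S.kk i = t), yy i|
        ≤ S.xi k * ((W.filter (fun i => S.kk i = t)).card : ℝ) := by
      calc |∑ i ∈ O.filter (fun i => S.kk i = t), yy i|
          ≤ ∑ i ∈ O.filter (fun i => S.kk i = t), |yy i| := Finset.abs_sum_le_sum_abs _ _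
        _ ≤ ∑ i ∈ O.filter (fun i => S.kk i = t), S.xi k :=
            Finset.sum_le_sum fun i hi => hyb i (Finset.mem_filter.mp hi).1
        _ = ((O.filter (fun i => S.kk i = t)).card : ℝ) * S.xi k := by
            rw [Finset.sum_const, nsmul_eq_mul]
        _ ≤ ((W.filter (fun i => S.kk i = t)).card : ℝ) * S.xi k := by
            apply mul_le_mul_of_nonneg_right _ (S.xi_nonneg k)
            exact_mod_cast Finset.card_le_card (Finset.filter_subset_filter _ hOW)
        _ = _ := by ring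
    rw [h0]
    have h4 : ∑ i ∈ O.filter (fun i => S.kk i = t), x i
        = ∑ i ∈ O.filter (fun i => S.kk i = t), yy i
          + ∑ i ∈ O.filter (fun i => S.kk i = t), (x i - yy i) := by
      rw [← Finset.sum_add_distrib]
      apply Finset.sum_congr rfl
      intro i _; ring
    rw [h4]
    have e5 : cE d = 6 + 4 * hC d := rfl
    rw [e5]
    have h6 : |σ * (Fm - F1)| ≤ 1 := by
      rw [abs_mul, hσabs, one_mul, hFm, hF1]
      split_ifs <;> norm_num
    have h7 := abs_add_le (∑ i ∈ O.filter (fun i => S.kk i = t), yy i)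
      (∑ i ∈ O.filter (fun i => S.kk i = t), (x i - yy i))
    have h8 := abs_add_le (σ * (Fm - F1)) (∑ i ∈ O.filter (fun i => S.kk i = t), yy i
      + ∑ i ∈ O.filter (fun i => S.kk i = t), (x i - yy i))
    linarith
  · -- sq
    intro a ha
    have h1 := key (fun i => S.v i a ^ 2)
    rw [h1]
    have hB0 : 0 ≤ 2 * q2 d * S.mu a k := by
      have := S.mu_nonneg a k
      positivity
    have h2 : |∑ i, (x i - x0 i) * item O Sp p (fun i => S.v i a ^ 2) i|
        ≤ 4 * hC d * (2 * (2 * q2 d * S.mu a k)) := by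
      have e : ∀ i, item O Sp p (fun i => S.v i a ^ 2) i = feat S O Sp p (Sum.inr (a, a)) i := by
        intro i
        simp only [feat]
        congr 1
        ext j
        ring
      simp_rw [e]
      refine hx4 (Sum.inr (a, a)) _ ?_ (by positivity)
      intro i _
      rw [← e i]
      apply item_bound O Sp p hp1 (fun i => S.v i a ^ 2) _ hB0
      · intro i hi
        rw [abs_of_nonneg (sq_nonneg _)]
        exact hsm i (hW2e i (hOW2 i hi)) a
      · intro i hi
        rw [abs_of_nonneg (sq_nonneg _)]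
        exact hsm i (hW2e i (hSpW2 i hi)) a
    have h3 : |∑ i ∈ O, yy i * S.v i a ^ 2| ≤ S.xi k * ∑ i ∈ W2, S.v i a ^ 2 := by
      calc |∑ i ∈ O, yy i * S.v i a ^ 2| ≤ ∑ i ∈ O, |yy i * S.v i a ^ 2| :=
            Finset.abs_sum_le_sum_abs _ _
        _ ≤ ∑ i ∈ O, S.xi k * S.v i a ^ 2 := by
            apply Finset.sum_le_sum
            intro i hi
            rw [abs_mul, abs_of_nonneg (sq_nonneg (S.v i a))]
            exact mul_le_mul_of_nonneg_right (hyb i hi) (sq_nonneg _)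
        _ = S.xi k * ∑ i ∈ O, S.v i a ^ 2 := by rw [Finset.mul_sum]
        _ ≤ S.xi k * ∑ i ∈ W2, S.v i a ^ 2 := by
            apply mul_le_mul_of_nonneg_left _ (S.xi_nonneg k)
            exact Finset.sum_le_sum_of_subset_of_nonneg hOW2 (fun i _ _ => sq_nonneg _)
    have h4 := abs_add_le (∑ i ∈ O, yy i * S.v i a ^ 2)
      (∑ i, (x i - x0 i) * item O Sp p (fun i => S.v i a ^ 2) i)
    linarith
  · -- lin
    intro a ha
    rw [hyz a]
    have h1 := hzgeo a ha
    have h2 := hygeo a ha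
    have h3 := abs_add_le (y a) (z a)
    have e : b1 d = 8 * hC d * q2 d * lam d := rfl
    rw [e] at h2
    linarith
  · -- size of R
    intro a
    rcases lt_or_ge k (S.ka a) with h | h
    · left
      rw [hRrich a h, abs_div, abs_of_pos (by norm_num : (0:ℝ) < 2)]
      have := hzB a 1 (by norm_num) (fun i _ => hvabs i a)
      linarith
    · right
      exact h
  · -- poor
    intro a ha
    rw [hRf a, hyz a]
    ring
  · -- hw
    exact w_sq_bound S m i1 σ hσsq
  · -- cw
    have : ∑ a ∈ univ.filter (fun a => S.ka a ≤ k), (P a + Q a) * w a = σ * cw0 := by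
      rw [hcw0, Finset.mul_sum]
      apply Finset.sum_congr rfl
      intro a _
      simp only [hw]
      ring
    rw [this]
    exact hσcw
  · -- cz
    have : ∑ a ∈ univ.filter (fun a => S.ka a ≤ k), (P a + Q a) * z a
        = ∑ a, c a * (∑ i, (x i - x0 i) * u i a) := by
      rw [Finset.sum_filter]
      apply Finset.sum_congr rfl
      intro a _
      simp only [hc, hz]
      split_ifs <;> simp
    rw [this]
    exact hxc
  · -- z1
    have h := hαz z z' (by
      have h := hx3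
      norm_num at h
      exact h) (by
      have h := hx3'
      norm_num at h
      exact h)
    exact h.1
  · have h := hαz z z' (by
      have h := hx3
      norm_num at h
      exact h) (by
      have h := hx3'
      norm_num at h
      exact h)
    exact h.2
  · -- dead
    intro a ha
    have hrest := hN.rest a ha m hm hmin
    have hQP : Q a - P a = S.v m a + ∑ i ∈ W.erase m, S.v i a := by
      rw [hN.sum a, ← Finset.add_sum_erase W (fun i => S.v i a) hm]
      ring
    rw [hQP]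
    have hB21 : 1 ≤ B2 d := one_le_B2 S.hd
    have ht0 : (0 : ℝ) ≤ (15 / 16 : ℝ) ^ (k - S.ka a) := by positivity
    have ht1 : (15 / 16 : ℝ) ^ (k - S.ka a) ≤ 1 := pow_le_one₀ (by norm_num) (by norm_num)
    have hvi : |S.v i1 a| ≤ 2 * q2 d * lam d * (15 / 16 : ℝ) ^ (k - S.ka a) := by
      refine le_trans (S.small2' (hrk i1 hi1) ha) ?_
      exact mul_le_mul_of_nonneg_left (h34 _) (by positivity)
    have hη : |S.v i1 a| + |y a| + |z a| ≤ B2 d * (15 / 16 : ℝ) ^ (k - S.ka a) :=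
      eta_bound (hC d) (q2 d) (lam d) _ _ _ _ hhC2 hq1 hlam1 ht0 (hzgeo a ha) (hygeo a ha) hvi
    exact dead_bound (S.v m a) (S.v i1 a) _ (y a) (z a) (B2 d) _ (hvabs m a) ht0 ht1 hB21
      hrest hη σ hσ

end P262
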