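import Mathlib
import Vale.Agent.P262.Path

/-! P262: energy bound along a path, second version. -/

namespace P262

open Finset

theorem tenure2 {d : ℕ} (ka : Fin d → ℕ) (G : ℝ) (hG : 0 ≤ G) (K : ℕ)
    (P R z : ℕ → Fin d → ℝ) (hP0 : P 0 = 0)
    (hstep : ∀ k < K, P (k + 1) = P k ∨ P (k + 1) = R k)
    (hrich : ∀ k < K, ∀ a, k < ka a → R k a = z k a / 2)
    (hz2 : ∀ k < K, ∀ t, ∑ a ∈ univ.filter (fun a => k < ka a ∧ ka a ≤ t), z k a ^ 2
      ≤ 4 * G * ((univ.filter (fun a => k < ka a ∧ ka a ≤ t)).card : ℝ)) :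
    ∀ k ≤ K, ∃ j ≤ k, (∀ i, j ≤ i → i ≤ k → P i = P k) ∧
      (∑ a ∈ univ.filter (fun a => ka a < j), P (ka a) a ^ 2
        ≤ G * ((univ.filter (fun a => ka a < j)).card : ℝ)) ∧
      ∀ t, ∑ a ∈ univ.filter (fun a => j ≤ ka a ∧ ka a ≤ t), P k a ^ 2
        ≤ G * ((univ.filter (fun a => j ≤ ka a ∧ ka a ≤ t)).card : ℝ) := by
  intro k
  induction k with
  | zero =>
    intro _
    refine ⟨0, le_rfl, fun i h1 h2 => by rw [Nat.le_zero.1 h2], by simp, fun t => ?_⟩
    rw [hP0]
    simp only [Pi.zero_apply, ne_eq, OfNat.ofNat_ne_zero, not_false_eq_true, zero_pow,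
      Finset.sum_const_zero]
    positivity
  | succ k ih =>
    intro hk
    obtain ⟨j, hj, hconst, hlow, hup⟩ := ih (by omega)
    rcases hstep k (by omega) with h | h
    · refine ⟨j, by omega, fun i h1 h2 => ?_, hlow, fun t => ?_⟩
      · rcases Nat.lt_or_ge i (k + 1) with h3 | h3
        · rw [hconst i h1 (by omega), h]
        · rw [show i = k + 1 by omega]
      · rw [h]; exact hup t
    · refine ⟨k + 1, le_rfl, fun i h1 h2 => by rw [show i = k + 1 by omega], ?_, fun t => ?_⟩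
      · -- split at j
        have hsplit : univ.filter (fun a => ka a < k + 1)
            = univ.filter (fun a => ka a < j) ∪ univ.filter (fun a => j ≤ ka a ∧ ka a ≤ k) := by
          ext a
          simp only [Finset.mem_filter, Finset.mem_univ, true_and, Finset.mem_union]
          omega
        have hdisj : Disjoint (univ.filter (fun a => ka a < j))
            (univ.filter (fun a => j ≤ ka a ∧ ka a ≤ k)) := by
          rw [Finset.disjoint_left]
          intro a h1 h2
          simp only [Finset.mem_filter, Finset.mem_univ, true_and] at h1 h2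
          omega
        rw [hsplit, Finset.sum_union hdisj, Finset.card_union_of_disjoint hdisj]
        push_cast
        have h3 : ∑ a ∈ univ.filter (fun a => j ≤ ka a ∧ ka a ≤ k), P (ka a) a ^ 2
            = ∑ a ∈ univ.filter (fun a => j ≤ ka a ∧ ka a ≤ k), P k a ^ 2 := by
          refine Finset.sum_congr rfl fun a ha => ?_
          simp only [Finset.mem_filter, Finset.mem_univ, true_and] at ha
          rw [hconst (ka a) ha.1 ha.2]
        rw [h3]
        have := hup k
        linarith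
      · set T := univ.filter (fun a => k + 1 ≤ ka a ∧ ka a ≤ t) with hT
        have hT2 : T = univ.filter (fun a => k < ka a ∧ ka a ≤ t) := by
          rw [hT]; rfl
        rcases T.eq_empty_or_nonempty with h0 | h0
        · rw [h0]; simp
        · have h4 : ∑ a ∈ T, P (k + 1) a ^ 2 = ∑ a ∈ T, z k a ^ 2 / 4 := by
            refine Finset.sum_congr rfl fun a ha => ?_
            rw [hT] at ha
            simp only [Finset.mem_filter, Finset.mem_univ, true_and] at ha
            rw [h, hrich k (by omega) a (by omega)]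
            ring
          have h5 := hz2 k (by omega) t
          rw [← hT2] at h5
          rw [← Finset.sum_div] at h4
          linarith

theorem activation2 {d : ℕ} (ka : Fin d → ℕ) (G : ℝ) (hG : 0 ≤ G) (K : ℕ)
    (P R z : ℕ → Fin d → ℝ) (hP0 : P 0 = 0)
    (hstep : ∀ k < K, P (k + 1) = P k ∨ P (k + 1) = R k)
    (hrich : ∀ k < K, ∀ a, k < ka a → R k a = z k a / 2)
    (hz2 : ∀ k < K, ∀ t, ∑ a ∈ univ.filter (fun a => k < ka a ∧ ka a ≤ t), z k a ^ 2
      ≤ 4 * G * ((univ.filter (fun a => k < ka a ∧ ka a ≤ t)).card : ℝ)) :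
    ∑ a, P (min (ka a) K) a ^ 2 ≤ G * d := by
  obtain ⟨j, hj, hconst, hlow, hup⟩ := tenure2 ka G hG K P R z hP0 hstep hrich hz2 K le_rfl
  set t := ∑ a, ka a with ht
  have hkt : ∀ a, ka a ≤ t := fun a => Finset.single_le_sum (fun i _ => Nat.zero_le (ka i))
    (Finset.mem_univ a)
  have hsplit : (univ : Finset (Fin d))
      = univ.filter (fun a => ka a < j) ∪ univ.filter (fun a => j ≤ ka a ∧ ka a ≤ t) := by
    ext a
    simp only [Finset.mem_filter, Finset.mem_univ, true_and, Finset.mem_union, true_iff]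
    have := hkt a
    omega
  have hdisj : Disjoint (univ.filter (fun a => ka a < j))
      (univ.filter (fun a => j ≤ ka a ∧ ka a ≤ t)) := by
    rw [Finset.disjoint_left]
    intro a h1 h2
    simp only [Finset.mem_filter, Finset.mem_univ, true_and] at h1 h2
    omega
  have hcard : (d : ℝ) = ((univ.filter (fun a => ka a < j)).card : ℝ)
      + ((univ.filter (fun a => j ≤ ka a ∧ ka a ≤ t)).card : ℝ) := by
    have := congrArg Finset.card hsplit
    rw [Finset.card_union_of_disjoint hdisj, Finset.card_univ, Fintype.card_fin] at this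
    exact_mod_cast this
  rw [hsplit, Finset.sum_union hdisj, hcard]
  have h1 : ∑ a ∈ univ.filter (fun a => ka a < j), P (min (ka a) K) a ^ 2
      = ∑ a ∈ univ.filter (fun a => ka a < j), P (ka a) a ^ 2 := by
    refine Finset.sum_congr rfl fun a ha => ?_
    simp only [Finset.mem_filter, Finset.mem_univ, true_and] at ha
    rw [min_eq_left (by omega)]
  have h2 : ∑ a ∈ univ.filter (fun a => j ≤ ka a ∧ ka a ≤ t), P (min (ka a) K) a ^ 2
      = ∑ a ∈ univ.filter (fun a => j ≤ ka a ∧ ka a ≤ t), P K a ^ 2 := by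
    refine Finset.sum_congr rfl fun a ha => ?_
    simp only [Finset.mem_filter, Finset.mem_univ, true_and] at ha
    rw [hconst (min (ka a) K) (by omega) (min_le_right _ _)]
  rw [h1, h2]
  have := hup t
  linarith

/-- one step of the energy -/
theorem energy_step {d : ℕ} (Nk A Dd : Finset (Fin d)) (hAD : Disjoint A Dd) (hN : Nk = A ∪ Dd)
    (P Q R w y z : Fin d → ℝ) (c V : ℝ) (D : Fin d → ℝ) (hc0 : 0 ≤ c) (hc2 : c ≤ 2) (hV : 0 ≤ V)
    (hP : ∑ a ∈ Nk, P a ^ 2 ≤ V) (hQ : ∑ a ∈ Nk, Q a ^ 2 ≤ V)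
    (hR : ∀ a ∈ Nk, R a = (P a + Q a + w a + y a + z a) / 2)
    (hw : ∑ a, w a ^ 2 ≤ 4)
    (hcw : ∑ a ∈ Nk, (P a + Q a) * w a ≤ 0)
    (hcz : ∑ a ∈ Nk, (P a + Q a) * z a ≤ 0)
    (hy : ∀ a ∈ Nk, |y a| ≤ c)
    (hz : ∑ a ∈ A, z a ^ 2 ≤ 128 * (A.card : ℝ))
    (hD : ∀ a ∈ Dd, (w a + y a + z a) ^ 2 - (Q a - P a) ^ 2 ≤ D a) :
    ∑ a ∈ Nk, R a ^ 2 ≤ V + c * (Real.sqrt d * Real.sqrt V) + 102 * (A.card : ℝ)
      + 1 / 4 * ∑ a ∈ Dd, D a := by
  have e1 : 4 * ∑ a ∈ Nk, R a ^ 2 = 2 * ∑ a ∈ Nk, P a ^ 2 + 2 * ∑ a ∈ Nk, Q a ^ 2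
      + 2 * ∑ a ∈ Nk, (P a + Q a) * w a + 2 * ∑ a ∈ Nk, (P a + Q a) * z a
      + 2 * ∑ a ∈ Nk, (P a + Q a) * y a
      + ∑ a ∈ Nk, ((w a + y a + z a) ^ 2 - (Q a - P a) ^ 2) := by
    simp only [Finset.mul_sum, ← Finset.sum_add_distrib]
    refine Finset.sum_congr rfl fun a ha => ?_
    rw [hR a ha]
    ring
  have e2 : ∑ a ∈ Nk, |P a + Q a| ≤ 2 * (Real.sqrt d * Real.sqrt V) := by
    have h1 : (∑ a ∈ Nk, |P a + Q a|) ^ 2 ≤ (Nk.card : ℝ) * ∑ a ∈ Nk, |P a + Q a| ^ 2 :=
      sq_sum_le_card_mul_sum_sq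
    have h2 : ∑ a ∈ Nk, |P a + Q a| ^ 2 ≤ 4 * V := by
      have h3 : ∑ a ∈ Nk, |P a + Q a| ^ 2 ≤ ∑ a ∈ Nk, (2 * P a ^ 2 + 2 * Q a ^ 2) := by
        refine Finset.sum_le_sum fun a _ => ?_
        rw [sq_abs]
        nlinarith [sq_nonneg (P a - Q a)]
      rw [Finset.sum_add_distrib, ← Finset.mul_sum, ← Finset.mul_sum] at h3
      linarith
    have h4 : (Nk.card : ℝ) ≤ d := by
      have := Finset.card_le_univ Nk
      rw [Fintype.card_fin] at this
      exact_mod_cast this
    have h5 : (∑ a ∈ Nk, |P a + Q a|) ^ 2 ≤ (2 * (Real.sqrt d * Real.sqrt V)) ^ 2 := by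
      have e : (2 * (Real.sqrt d * Real.sqrt V)) ^ 2 = d * (4 * V) := by
        rw [mul_pow, mul_pow, Real.sq_sqrt (Nat.cast_nonneg d), Real.sq_sqrt hV]
        ring
      rw [e]
      refine h1.trans ?_
      exact mul_le_mul h4 h2 (Finset.sum_nonneg fun a _ => by positivity) (Nat.cast_nonneg d)
    exact le_of_sq_le_sq h5 (by positivity)
  have e3 : ∑ a ∈ Nk, (P a + Q a) * y a ≤ c * (2 * (Real.sqrt d * Real.sqrt V)) := by
    calc ∑ a ∈ Nk, (P a + Q a) * y a ≤ ∑ a ∈ Nk, c * |P a + Q a| := by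
          refine Finset.sum_le_sum fun a ha => ?_
          calc (P a + Q a) * y a ≤ |(P a + Q a) * y a| := le_abs_self _
            _ = |P a + Q a| * |y a| := abs_mul _ _
            _ ≤ |P a + Q a| * c := mul_le_mul_of_nonneg_left (hy a ha) (abs_nonneg _)
            _ = c * |P a + Q a| := mul_comm _ _
      _ = c * ∑ a ∈ Nk, |P a + Q a| := by rw [Finset.mul_sum]
      _ ≤ c * (2 * (Real.sqrt d * Real.sqrt V)) := mul_le_mul_of_nonneg_left e2 hc0
  have e4 : ∑ a ∈ Nk, ((w a + y a + z a) ^ 2 - (Q a - P a) ^ 2)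
      ≤ 408 * (A.card : ℝ) + ∑ a ∈ Dd, D a := by
    rw [hN, Finset.sum_union hAD]
    refine add_le_add ?_ (Finset.sum_le_sum hD)
    rcases A.eq_empty_or_nonempty with h0 | h0
    · rw [h0]; simp
    · have hcard : (1 : ℝ) ≤ (A.card : ℝ) := by exact_mod_cast Finset.card_pos.2 h0
      have h1 : ∑ a ∈ A, ((w a + y a + z a) ^ 2 - (Q a - P a) ^ 2)
          ≤ ∑ a ∈ A, (3 * w a ^ 2 + 12 + 3 * z a ^ 2) := by
        refine Finset.sum_le_sum fun a ha => ?_
        have haN : a ∈ Nk := by rw [hN]; exact Finset.mem_union_left _ ha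
        have h2 : y a ^ 2 ≤ 4 := by
          have h3 := hy a haN
          have h4 := abs_nonneg (y a)
          rw [← sq_abs]
          nlinarith
        nlinarith [sq_nonneg (w a - y a), sq_nonneg (w a - z a), sq_nonneg (y a - z a),
          sq_nonneg (Q a - P a)]
      have h5 : ∑ a ∈ A, w a ^ 2 ≤ 4 :=
        (Finset.sum_le_univ_sum_of_nonneg fun a => sq_nonneg _).trans hw
      have h6 : ∑ a ∈ A, (3 * w a ^ 2 + 12 + 3 * z a ^ 2)
          = 3 * ∑ a ∈ A, w a ^ 2 + 12 * (A.card : ℝ) + 3 * ∑ a ∈ A, z a ^ 2 := by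
        rw [Finset.sum_add_distrib, Finset.sum_add_distrib, ← Finset.mul_sum, ← Finset.mul_sum,
          Finset.sum_const, nsmul_eq_mul]
        ring
      rw [h6] at h1
      linarith
  have e5 : 4 * ∑ a ∈ Nk, R a ^ 2 ≤ 4 * V + 4 * (c * (Real.sqrt d * Real.sqrt V))
      + 408 * (A.card : ℝ) + ∑ a ∈ Dd, D a := by
    rw [e1]
    linarith
  linarith

theorem path_bound2 {d : ℕ} (ka : Fin d → ℕ) (L : ℕ) (ℓ M : ℝ) (hℓ : 1 ≤ ℓ) (hM0 : 0 ≤ M)
    (hM : 16 * M * (15 / 16 : ℝ) ^ L ≤ 1) (c : ℕ → ℝ) (hc0 : ∀ k, 0 ≤ c k)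
    (hc : ∀ K, ∑ k ∈ range K, c k ≤ 2)
    (K : ℕ) (P Q R w y z : ℕ → Fin d → ℝ) (hP0 : P 0 = 0) (hQ0 : Q 0 = 0)
    (hstep : ∀ k < K, (P (k + 1) = P k ∧ Q (k + 1) = R k) ∨
      (P (k + 1) = R k ∧ Q (k + 1) = Q k))
    (hrich : ∀ k < K, ∀ a, k < ka a → R k a = z k a / 2)
    (hpoor : ∀ k < K, ∀ a, ka a ≤ k → R k a = (P k a + Q k a + w k a + y k a + z k a) / 2)
    (hw : ∀ k < K, ∑ a, w k a ^ 2 ≤ 4)
    (hcw : ∀ k < K, ∑ a ∈ univ.filter (fun a => ka a ≤ k), (P k a + Q k a) * w k a ≤ 0)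
    (hcz : ∀ k < K, ∑ a ∈ univ.filter (fun a => ka a ≤ k), (P k a + Q k a) * z k a ≤ 0)
    (hy : ∀ k < K, ∀ a, ka a ≤ k → |y k a| ≤ c k)
    (hz1 : ∀ k < K, ∑ a ∈ univ.filter (fun a => ka a ≤ k ∧ k < ka a + L), z k a ^ 2
      ≤ 128 * ((univ.filter (fun a => ka a ≤ k ∧ k < ka a + L)).card : ℝ))
    (hz2 : ∀ k < K, ∀ t, ∑ a ∈ univ.filter (fun a => k < ka a ∧ ka a ≤ t), z k a ^ 2
      ≤ 128 * ℓ * ((univ.filter (fun a => k < ka a ∧ ka a ≤ t)).card : ℝ))
    (hdead : ∀ k < K, ∀ a, ka a ≤ k →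
      (w k a + y k a + z k a) ^ 2 - (Q k a - P k a) ^ 2 ≤ M * (15 / 16 : ℝ) ^ (k - ka a)) :
    ∑ a, P K a ^ 2 ≤ 200 * (ℓ * d + L * d) ∧ ∑ a, Q K a ^ 2 ≤ 200 * (ℓ * d + L * d) := by
  classical
  have hd0 : (0 : ℝ) ≤ d := Nat.cast_nonneg d
  have hL0 : (0 : ℝ) ≤ L := Nat.cast_nonneg L
  have hactP : ∑ a, P (min (ka a) K) a ^ 2 ≤ 32 * ℓ * d := by
    have h := activation2 ka (32 * ℓ) (by linarith) K P R z hP0 (fun k hk => by
      rcases hstep k hk with h | h
      · exact Or.inl h.1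
      · exact Or.inr h.1) hrich (fun k hk t => by
        have := hz2 k hk t
        linarith)
    linarith
  have hactQ : ∑ a, Q (min (ka a) K) a ^ 2 ≤ 32 * ℓ * d := by
    have h := activation2 ka (32 * ℓ) (by linarith) K Q R z hQ0 (fun k hk => by
      rcases hstep k hk with h | h
      · exact Or.inr h.2
      · exact Or.inl h.2) hrich (fun k hk t => by
        have := hz2 k hk t
        linarith)
    linarith
  set X : Fin d → ℝ := fun a => P (min (ka a) K) a ^ 2 + Q (min (ka a) K) a ^ 2 with hX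
  have hX0 : ∀ a, 0 ≤ X a := fun a => by simp only [hX]; positivity
  have hXsum : ∑ a, X a ≤ 64 * ℓ * d := by
    simp only [hX]
    rw [Finset.sum_add_distrib]
    linarith
  set Nk : ℕ → Finset (Fin d) := fun k => univ.filter (fun a => ka a ≤ k) with hNk
  set A : ℕ → Finset (Fin d) := fun k => univ.filter (fun a => ka a ≤ k ∧ k < ka a + L) with hA
  set Dd : ℕ → Finset (Fin d) := fun k => univ.filter (fun a => ka a + L ≤ k) with hDd
  set E : ℕ → Finset (Fin d) := fun k => univ.filter (fun a => ka a = k) with hE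
  set D : ℕ → Fin d → ℝ := fun k a => M * (15 / 16 : ℝ) ^ (k - ka a) with hDdef
  set V : ℕ → ℝ := fun k => max (∑ a ∈ Nk k, P k a ^ 2) (∑ a ∈ Nk k, Q k a ^ 2) with hV
  have hV0 : ∀ k, 0 ≤ V k := fun k =>
    le_trans (Finset.sum_nonneg fun a _ => sq_nonneg _) (le_max_left _ _)
  have hck : ∀ k, c k ≤ 2 := by
    intro k
    refine le_trans ?_ (hc (k + 1))
    exact Finset.single_le_sum (f := c) (fun i _ => hc0 i) (Finset.mem_range.2 (Nat.lt_succ_self k))
  set inc : ℕ → ℝ := fun k => 102 * ((A k).card : ℝ) + 1 / 4 * ∑ a ∈ Dd k, D k a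
    + ∑ a ∈ E (k + 1), X a with hinc
  have hD0 : ∀ k a, 0 ≤ D k a := fun k a => by simp only [hDdef]; positivity
  have hinc0 : ∀ k, 0 ≤ inc k := by
    intro k
    have h1 : 0 ≤ ∑ a ∈ Dd k, D k a := Finset.sum_nonneg fun a _ => hD0 k a
    have h2 : 0 ≤ ∑ a ∈ E (k + 1), X a := Finset.sum_nonneg fun a _ => hX0 a
    simp only [hinc]
    positivity
  -- one step
  have hone : ∀ k < K, V (k + 1) ≤ V k + c k * (Real.sqrt d * Real.sqrt (V k)) + inc k := by
    intro k hk
    have hdisj : Disjoint (A k) (Dd k) := by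
      rw [Finset.disjoint_left]
      intro a h1 h2
      simp only [hA, hDd, Finset.mem_filter, Finset.mem_univ, true_and] at h1 h2
      omega
    have hun : Nk k = A k ∪ Dd k := by
      ext a
      simp only [hNk, hA, hDd, Finset.mem_filter, Finset.mem_univ, true_and, Finset.mem_union]
      omega
    have hR := energy_step (Nk k) (A k) (Dd k) hdisj hun (P k) (Q k) (R k) (w k) (y k) (z k)
      (c k) (V k) (D k) (hc0 k) (hck k) (hV0 k) (le_max_left _ _) (le_max_right _ _)
      (fun a ha => hpoor k hk a (by simpa [hNk] using ha)) (hw k hk) (hcw k hk) (hcz k hk)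
      (fun a ha => hy k hk a (by simpa [hNk] using ha)) (hz1 k hk)
      (fun a ha => hdead k hk a (by
        simp only [hDd, Finset.mem_filter, Finset.mem_univ, true_and] at ha
        omega))
    have hsplit : Nk (k + 1) = Nk k ∪ E (k + 1) := by
      ext a
      simp only [hNk, hE, Finset.mem_filter, Finset.mem_univ, true_and, Finset.mem_union]
      omega
    have hdisj2 : Disjoint (Nk k) (E (k + 1)) := by
      rw [Finset.disjoint_left]
      intro a h1 h2
      simp only [hNk, hE, Finset.mem_filter, Finset.mem_univ, true_and] at h1 h2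
      omega
    have hnewP : ∑ a ∈ E (k + 1), P (k + 1) a ^ 2 ≤ ∑ a ∈ E (k + 1), X a := by
      refine Finset.sum_le_sum fun a ha => ?_
      simp only [hE, Finset.mem_filter, Finset.mem_univ, true_and] at ha
      have h1 : min (ka a) K = k + 1 := by omega
      simp only [hX, h1]
      have := sq_nonneg (Q (k + 1) a)
      linarith
    have hnewQ : ∑ a ∈ E (k + 1), Q (k + 1) a ^ 2 ≤ ∑ a ∈ E (k + 1), X a := by
      refine Finset.sum_le_sum fun a ha => ?_
      simp only [hE, Finset.mem_filter, Finset.mem_univ, true_and] at ha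
      have h1 : min (ka a) K = k + 1 := by omega
      simp only [hX, h1]
      have := sq_nonneg (P (k + 1) a)
      linarith
    have hpk : ∑ a ∈ Nk k, P k a ^ 2 ≤ V k := le_max_left _ _
    have hqk : ∑ a ∈ Nk k, Q k a ^ 2 ≤ V k := le_max_right _ _
    have hcr : 0 ≤ c k * (Real.sqrt d * Real.sqrt (V k)) :=
      mul_nonneg (hc0 k) (by positivity)
    have hA0 : (0 : ℝ) ≤ ((A k).card : ℝ) := Nat.cast_nonneg _
    have hDs : 0 ≤ ∑ a ∈ Dd k, D k a := Finset.sum_nonneg fun a _ => hD0 k a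
    have goalP : ∑ a ∈ Nk (k + 1), P (k + 1) a ^ 2
        ≤ V k + c k * (Real.sqrt d * Real.sqrt (V k)) + inc k := by
      rw [hsplit, Finset.sum_union hdisj2]
      simp only [hinc]
      rcases hstep k hk with h | h
      · have : ∑ a ∈ Nk k, P (k + 1) a ^ 2 ≤ V k := by rw [h.1]; exact hpk
        linarith
      · have : ∑ a ∈ Nk k, P (k + 1) a ^ 2 = ∑ a ∈ Nk k, R k a ^ 2 := by rw [h.1]
        linarith
    have goalQ : ∑ a ∈ Nk (k + 1), Q (k + 1) a ^ 2
        ≤ V k + c k * (Real.sqrt d * Real.sqrt (V k)) + inc k := by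
      rw [hsplit, Finset.sum_union hdisj2]
      simp only [hinc]
      rcases hstep k hk with h | h
      · have : ∑ a ∈ Nk k, Q (k + 1) a ^ 2 = ∑ a ∈ Nk k, R k a ^ 2 := by rw [h.2]
        linarith
      · have : ∑ a ∈ Nk k, Q (k + 1) a ^ 2 ≤ V k := by rw [h.2]; exact hqk
        linarith
    exact max_le goalP goalQ
  -- total of the increments
  have hwin : ∀ a, (((range K).filter (fun k => ka a ≤ k ∧ k < ka a + L)).card : ℝ) ≤ L := by
    intro a
    have h1 : (range K).filter (fun k => ka a ≤ k ∧ k < ka a + L) ⊆ Ico (ka a) (ka a + L) := by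
      intro k hk
      rw [Finset.mem_filter] at hk
      exact Finset.mem_Ico.2 hk.2
    have h2 := Finset.card_le_card h1
    rw [Nat.card_Ico] at h2
    have h3 : ka a + L - ka a = L := by omega
    rw [h3] at h2
    exact_mod_cast h2
  have hswap : ∀ (p : ℕ → Fin d → Prop) [∀ k a, Decidable (p k a)] (f : ℕ → Fin d → ℝ),
      ∑ k ∈ range K, ∑ a ∈ univ.filter (fun a => p k a), f k a
        = ∑ a, ∑ k ∈ (range K).filter (fun k => p k a), f k a := by
    intro p _ f
    simp only [Finset.sum_filter]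
    exact Finset.sum_comm
  have hsumA : ∑ k ∈ range K, ((A k).card : ℝ) ≤ L * d := by
    have h1 := hswap (fun k a => ka a ≤ k ∧ k < ka a + L) (fun _ _ => (1 : ℝ))
    simp only [Finset.sum_const, nsmul_eq_mul, mul_one] at h1
    simp only [hA]
    rw [h1]
    calc ∑ a, (((range K).filter (fun k => ka a ≤ k ∧ k < ka a + L)).card : ℝ)
        ≤ ∑ _a : Fin d, (L : ℝ) := Finset.sum_le_sum fun a _ => hwin a
      _ = L * d := by simp [mul_comm]
  have hsumD : ∑ k ∈ range K, ∑ a ∈ Dd k, D k a ≤ d := by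
    simp only [hDd]
    rw [hswap (fun k a => ka a + L ≤ k) D]
    have hone' : ∀ a, ∑ k ∈ (range K).filter (fun k => ka a + L ≤ k), D k a ≤ 1 := by
      intro a
      have h2 : (range K).filter (fun k => ka a + L ≤ k) ⊆ Ico (ka a + L) (ka a + L + K) := by
        intro k hk
        rw [Finset.mem_filter, Finset.mem_range] at hk
        rw [Finset.mem_Ico]
        omega
      have h3 : ∑ k ∈ (range K).filter (fun k => ka a + L ≤ k), D k a
          ≤ ∑ k ∈ Ico (ka a + L) (ka a + L + K), D k a :=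
        Finset.sum_le_sum_of_subset_of_nonneg h2 fun k _ _ => hD0 k a
      have h4 : ∑ k ∈ Ico (ka a + L) (ka a + L + K), D k a
          = M * (15 / 16 : ℝ) ^ L * ∑ i ∈ range K, (15 / 16 : ℝ) ^ i := by
        rw [Finset.sum_Ico_eq_sum_range, Finset.mul_sum]
        have h5 : ka a + L + K - (ka a + L) = K := by omega
        rw [h5]
        refine Finset.sum_congr rfl fun i _ => ?_
        simp only [hDdef]
        have h6 : ka a + L + i - ka a = L + i := by omega
        rw [h6, pow_add]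
        ring
      have h7 : ∑ i ∈ range K, (15 / 16 : ℝ) ^ i ≤ 16 := by
        have h8 := geom_sum_eq (show (15 / 16 : ℝ) ≠ 1 by norm_num) K
        rw [h8]
        have h9 : (0 : ℝ) ≤ (15 / 16) ^ K := by positivity
        rw [div_le_iff_of_neg (by norm_num)]
        linarith
      have h8 : 0 ≤ M * (15 / 16 : ℝ) ^ L := by positivity
      calc ∑ k ∈ (range K).filter (fun k => ka a + L ≤ k), D k a
          ≤ M * (15 / 16 : ℝ) ^ L * ∑ i ∈ range K, (15 / 16 : ℝ) ^ i := by
            rw [← h4]; exact h3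
        _ ≤ M * (15 / 16 : ℝ) ^ L * 16 := mul_le_mul_of_nonneg_left h7 h8
        _ ≤ 1 := by linarith
    calc ∑ a, ∑ k ∈ (range K).filter (fun k => ka a + L ≤ k), D k a
        ≤ ∑ _a : Fin d, (1 : ℝ) := Finset.sum_le_sum fun a _ => hone' a
      _ = d := by simp
  have hsumE : ∑ k ∈ range K, ∑ a ∈ E (k + 1), X a ≤ 64 * ℓ * d := by
    refine le_trans ?_ hXsum
    simp only [hE]
    rw [hswap (fun k a => ka a = k + 1) (fun _ a => X a)]
    refine Finset.sum_le_sum fun a _ => ?_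
    rw [Finset.sum_const, nsmul_eq_mul]
    have h1 : ((range K).filter (fun k => ka a = k + 1)).card ≤ 1 := by
      rw [Finset.card_le_one]
      intro k hk k' hk'
      rw [Finset.mem_filter] at hk hk'
      omega
    have h2 : ((((range K).filter (fun k => ka a = k + 1)).card : ℕ) : ℝ) ≤ 1 := by
      exact_mod_cast h1
    calc ((((range K).filter (fun k => ka a = k + 1)).card : ℕ) : ℝ) * X a ≤ 1 * X a :=
          mul_le_mul_of_nonneg_right h2 (hX0 a)
      _ = X a := one_mul _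
  set T : ℝ := 102 * (L * d) + 1 / 4 * d + 64 * ℓ * d with hT
  have hsuminc : ∀ k ≤ K, ∑ j ∈ range k, inc j ≤ T := by
    intro k hk
    have h1 : ∑ j ∈ range k, inc j ≤ ∑ j ∈ range K, inc j :=
      Finset.sum_le_sum_of_subset_of_nonneg (Finset.range_subset_range.2 hk) fun j _ _ => hinc0 j
    refine h1.trans ?_
    simp only [hinc]
    rw [Finset.sum_add_distrib, Finset.sum_add_distrib, ← Finset.mul_sum, ← Finset.mul_sum]
    linarith
  have hℓd : (d : ℝ) ≤ ℓ * d := le_mul_of_one_le_left hd0 hℓ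
  have hLd : 0 ≤ (L : ℝ) * d := mul_nonneg hL0 hd0
  set B : ℝ := 10 / 9 * (T + 10 * d) with hB
  have hT0 : 0 ≤ T := by
    rw [hT]
    have : 0 ≤ 64 * ℓ * d := by positivity
    linarith
  have hB0 : 0 ≤ B := by rw [hB]; positivity
  have hroot : 2 * (Real.sqrt d * Real.sqrt B) + T ≤ B := by
    have h1 : 2 * (Real.sqrt d * Real.sqrt B) ≤ B / 10 + 10 * d := by
      have h2 := Real.sq_sqrt hd0
      have h3 := Real.sq_sqrt hB0
      nlinarith [sq_nonneg (10 * Real.sqrt d - Real.sqrt B)]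
    have h4 : 9 / 10 * B = T + 10 * d := by rw [hB]; ring
    linarith
  have hmain : ∀ k ≤ K, V k ≤ (Real.sqrt d * Real.sqrt B) * ∑ j ∈ range k, c j
      + ∑ j ∈ range k, inc j := by
    intro k
    induction k with
    | zero =>
      intro _
      have : V 0 = 0 := by
        simp only [hV, hP0, hQ0]
        simp
      rw [this]
      simp
    | succ k ih =>
      intro hk
      have h1 := ih (by omega)
      have h2 := hone k (by omega)
      have hVB : V k ≤ B := by
        have h3 := hsuminc k (by omega)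
        have h4 : (Real.sqrt d * Real.sqrt B) * ∑ j ∈ range k, c j
            ≤ (Real.sqrt d * Real.sqrt B) * 2 :=
          mul_le_mul_of_nonneg_left (hc k) (by positivity)
        linarith
      have h5 : c k * (Real.sqrt d * Real.sqrt (V k)) ≤ c k * (Real.sqrt d * Real.sqrt B) := by
        refine mul_le_mul_of_nonneg_left ?_ (hc0 k)
        exact mul_le_mul_of_nonneg_left (Real.sqrt_le_sqrt hVB) (Real.sqrt_nonneg _)
      rw [Finset.sum_range_succ, Finset.sum_range_succ]
      have h6 : (Real.sqrt d * Real.sqrt B) * (∑ j ∈ range k, c j + c k)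
          = (Real.sqrt d * Real.sqrt B) * ∑ j ∈ range k, c j
            + c k * (Real.sqrt d * Real.sqrt B) := by ring
      rw [h6]
      linarith
  have hVK : V K ≤ B := by
    have h1 := hmain K le_rfl
    have h3 := hsuminc K le_rfl
    have h4 : (Real.sqrt d * Real.sqrt B) * ∑ j ∈ range K, c j
        ≤ (Real.sqrt d * Real.sqrt B) * 2 :=
      mul_le_mul_of_nonneg_left (hc K) (by positivity)
    linarith
  have hfin : B + 32 * ℓ * d ≤ 200 * (ℓ * d + L * d) := by
    rw [hB, hT]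
    nlinarith
  have hsplitK : ∀ f : Fin d → ℝ, ∑ a, f a = ∑ a ∈ Nk K, f a
      + ∑ a ∈ univ.filter (fun a => ¬ ka a ≤ K), f a := by
    intro f
    simp only [hNk]
    exact (Finset.sum_filter_add_sum_filter_not univ (fun a => ka a ≤ K) f).symm
  constructor
  · rw [hsplitK]
    have h1 : ∑ a ∈ Nk K, P K a ^ 2 ≤ V K := le_max_left _ _
    have h2 : ∑ a ∈ univ.filter (fun a => ¬ ka a ≤ K), P K a ^ 2
        ≤ ∑ a, P (min (ka a) K) a ^ 2 := by
      have h3 : ∑ a ∈ univ.filter (fun a => ¬ ka a ≤ K), P K a ^ 2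
          = ∑ a ∈ univ.filter (fun a => ¬ ka a ≤ K), P (min (ka a) K) a ^ 2 := by
        refine Finset.sum_congr rfl fun a ha => ?_
        simp only [Finset.mem_filter, Finset.mem_univ, true_and] at ha
        have : min (ka a) K = K := by omega
        rw [this]
      rw [h3]
      exact Finset.sum_le_univ_sum_of_nonneg fun a => sq_nonneg _
    linarith
  · rw [hsplitK]
    have h1 : ∑ a ∈ Nk K, Q K a ^ 2 ≤ V K := le_max_right _ _
    have h2 : ∑ a ∈ univ.filter (fun a => ¬ ka a ≤ K), Q K a ^ 2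
        ≤ ∑ a, Q (min (ka a) K) a ^ 2 := by
      have h3 : ∑ a ∈ univ.filter (fun a => ¬ ka a ≤ K), Q K a ^ 2
          = ∑ a ∈ univ.filter (fun a => ¬ ka a ≤ K), Q (min (ka a) K) a ^ 2 := by
        refine Finset.sum_congr rfl fun a ha => ?_
        simp only [Finset.mem_filter, Finset.mem_univ, true_and] at ha
        have : min (ka a) K = K := by omega
        rw [this]
      rw [h3]
      exact Finset.sum_le_univ_sum_of_nonneg fun a => sq_nonneg _
    linarith

end P262
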