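import Mathlib
import Vale.Agent.P262.V2Child
import Vale.Agent.P262.V2Core
import Vale.Agent.P262.V2Path
import Vale.Agent.P262.FinalB
import Vale.Agent.P262.FinalC
import Vale.Agent.P262.FinalD

/-! P262: the tree and the final bound, second version. -/

namespace P262

open Finset

theorem root_node2 {d N : ℕ} (S : Sys d N) : Node2 S 0 univ (0 : Fin d → ℝ) 0 := by
  have hd : (1 : ℝ) ≤ d := by exact_mod_cast S.hd
  have hhC : (1 : ℝ) ≤ hC d := by unfold hC; nlinarith
  have hcE : (0 : ℝ) ≤ cE2 d := by unfold cE2; linarith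
  have hcG : (0 : ℝ) ≤ cG d := by unfold cG; linarith
  have hq : (d : ℝ) ≤ q2 d := by
    unfold q2 q12
    linarith
  have hq1 : (1 : ℝ) ≤ q2 d := le_trans hd hq
  have hlam : (1 : ℝ) ≤ lam d := one_le_lam S.hd
  have hth : S.th 0 = 0 := by simp [Sys.th]
  have hmu : ∀ a, S.mu a 0 = S.μ a := fun a => by simp [Sys.mu]
  have hc0 : ((univ.filter (fun i => S.kk i = 0)).card : ℝ) ≤ d := by
    simpa using S.cnt 0
  have hprod : (1 : ℝ) ≤ hC d * q2 d := by nlinarith
  have hb : lam d ≤ hC d * q2 d * lam d := by nlinarith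
  have hb1 : lam d ≤ b1 d := by unfold b1; nlinarith
  have hB2 : 1 ≤ B2 d := by unfold B2; nlinarith
  refine ⟨?_, ?_, ?_, ?_, ?_, ?_, ?_, ?_⟩
  · intro a
    simp [S.sum_zero a]
  · intro i _ hi
    have hi0 : S.kk i = 0 := Nat.le_zero.mp hi
    have hsub : univ.filter (fun j => j < i) ⊆ univ.filter (fun i => S.kk i = 0) := by
      intro j hj
      simp only [Finset.mem_filter, Finset.mem_univ, true_and] at hj ⊢
      have := S.mono hj.le
      omega
    have hcard : ((univ.filter (fun j => j < i)).card : ℝ)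
        ≤ ((univ.filter (fun i => S.kk i = 0)).card : ℝ) := by
      exact_mod_cast Finset.card_le_card hsub
    rw [hi0]
    simp only [pow_zero, mul_one]
    linarith
  · have hsub : univ.filter (fun i => S.kk i ≤ 0) ⊆ univ.filter (fun i => S.kk i = 0) := by
      intro j hj
      simp only [Finset.mem_filter, Finset.mem_univ, true_and] at hj ⊢
      omega
    have hcard : ((univ.filter (fun i => S.kk i ≤ 0)).card : ℝ)
        ≤ ((univ.filter (fun i => S.kk i = 0)).card : ℝ) := by
      exact_mod_cast Finset.card_le_card hsub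
    linarith
  · intro t _
    rw [hth]
    have := S.cnt t
    simp only [pow_zero, mul_one]
    linarith
  · intro a b
    rw [hth, hmu]
    have h1 := S.gram a b
    have h2 : ∑ i, S.v i a * S.v i b - (if a = b then S.μ a else 0) = 0 := by
      rw [h1]; ring
    rw [h2]
    simp
    exact hcG
  · intro a _
    have : 0 ≤ 4 * hC d := by linarith
    simp [this]
  · intro a ha m hm _
    have hka : S.ka a = 0 := Nat.le_zero.mp ha
    rw [hka]
    simp only [Nat.sub_self, pow_zero, mul_one]
    have h1 : ∑ i ∈ univ.erase m, S.v i a ^ 2 ≤ ∑ i, S.v i a ^ 2 :=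
      Finset.sum_le_sum_of_subset_of_nonneg (Finset.erase_subset _ _)
        (fun _ _ _ => sq_nonneg _)
    have h2 : ∑ i, S.v i a ^ 2 = S.μ a := by
      have := S.gram a a
      simp only [if_true] at this
      rw [← this]
      exact Finset.sum_congr rfl fun i _ => by ring
    have h3 : S.μ a < lam d ^ 2 := by
      have := S.ka_lt a
      rw [hka] at this
      simpa using this
    have h4 : lam d ^ 2 ≤ b1 d ^ 2 := pow_le_pow_left₀ (by linarith) hb1 2
    linarith
  · intro a ha m hm _
    have hka : S.ka a = 0 := Nat.le_zero.mp ha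
    rw [hka]
    simp only [Nat.sub_self, pow_zero, mul_one]
    have h1 : S.v m a + ∑ i ∈ univ.erase m, S.v i a = 0 :=
      (Finset.add_sum_erase univ (fun i => S.v i a) (Finset.mem_univ m)).trans (S.sum_zero a)
    have h2 : ∑ i ∈ univ.erase m, S.v i a = - S.v m a := by linarith
    rw [h2, abs_neg]
    have h3 : S.v m a ^ 2 ≤ 1 := by
      refine le_trans ?_ (S.norm_le m)
      exact Finset.single_le_sum (f := fun a => S.v m a ^ 2) (fun _ _ => sq_nonneg _)
        (Finset.mem_univ a)
    have h4 : |S.v m a| ≤ 1 := by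
      rw [← sq_abs] at h3
      nlinarith [abs_nonneg (S.v m a)]
    linarith

theorem step2 {d N : ℕ} (S : Sys d N) (L k : ℕ) (W : Finset (Fin N)) (P Q : Fin d → ℝ)
    (hN : Node2 S k W P Q) (hW : 2 ≤ W.card) :
    ∃ (W1 W2 : Finset (Fin N)) (R w y z : Fin d → ℝ),
      Disjoint W1 W2 ∧ W = W1 ∪ W2 ∧ W1.Nonempty ∧ W2.Nonempty ∧
      Node2 S (k + 1) W1 P R ∧ Node2 S (k + 1) W2 R Q ∧ StepRel2 S L k P Q R w y z := by
  classical
  have hne : W.Nonempty := Finset.card_pos.1 (by omega)
  set m := W.min' hne with hmdef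
  have hm : m ∈ W := Finset.min'_mem _ _
  have hmin : ∀ i ∈ W, m ≤ i := fun i hi => Finset.min'_le _ _ hi
  have hne1 : (W.erase m).Nonempty := by
    apply Finset.card_pos.1
    rw [Finset.card_erase_of_mem hm]
    omega
  set i1 := (W.erase m).min' hne1 with hi1def
  have hi1 : i1 ∈ W.erase m := Finset.min'_mem _ _
  have hmin1 : ∀ i ∈ W.erase m, i1 ≤ i := fun i hi => Finset.min'_le _ _ hi
  obtain ⟨s, R, w, y, z, hs, hR, hRb, hrel⟩ := step_core2 S L k W P Q hN m i1 hm hi1 hmin hmin1
  have hdisj : Disjoint (W.filter (fun i => s i = 1)) (W.filter (fun i => - s i = 1)) := by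
    rw [Finset.disjoint_left]
    intro i h1 h2
    have e1 := (Finset.mem_filter.1 h1).2
    have e2 := (Finset.mem_filter.1 h2).2
    linarith
  have hunion : W = W.filter (fun i => s i = 1) ∪ W.filter (fun i => - s i = 1) := by
    ext i
    rw [Finset.mem_union, Finset.mem_filter, Finset.mem_filter]
    constructor
    · intro hi
      rcases hs.sign i with h | h
      · exact Or.inl ⟨hi, h⟩
      · exact Or.inr ⟨hi, by rw [h]; norm_num⟩
    · rintro (h | h) <;> exact h.1
  have hi1W : i1 ∈ W := Finset.mem_of_mem_erase hi1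
  have hsumW : ∀ a, ∑ i ∈ W, S.v i a = ∑ i ∈ W.filter (fun i => s i = 1), S.v i a
      + ∑ i ∈ W.filter (fun i => - s i = 1), S.v i a := by
    intro a
    conv_lhs => rw [hunion]
    rw [Finset.sum_union hdisj]
  have hQ : ∀ a, Q a = R a + ∑ i ∈ W.filter (fun i => - s i = 1), S.v i a := by
    intro a
    rw [hN.sum a, hsumW a, hR a]
    ring
  have hrichR : ∀ a, k < S.ka a → |R a| ≤ 4 * hC d := by
    intro a ha
    rcases hRb a with h | h
    · exact h
    · omega
  refine ⟨W.filter (fun i => s i = 1), W.filter (fun i => - s i = 1), R, w, y, z, hdisj, hunion,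
    ?_, ?_, ?_, ?_, hrel⟩
  · rcases hs.sign m with h | h
    · exact ⟨m, Finset.mem_filter.2 ⟨hm, h⟩⟩
    · exact ⟨i1, Finset.mem_filter.2 ⟨hi1W, by rw [hs.opp, h]; norm_num⟩⟩
  · rcases hs.sign m with h | h
    · exact ⟨i1, Finset.mem_filter.2 ⟨hi1W, by rw [hs.opp, h]; norm_num⟩⟩
    · exact ⟨m, Finset.mem_filter.2 ⟨hm, by rw [h]; norm_num⟩⟩
  · exact child2 S k W P Q hN m i1 hm hi1 hmin hmin1 s hs P R hR
      (fun a ha => ⟨(hN.rich a ha).1, hrichR a ha⟩)
  · exact child2 S k W P Q hN m i1 hm hi1 hmin hmin1 (fun i => - s i) hs.neg R Q hQ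
      (fun a ha => ⟨hrichR a ha, (hN.rich a ha).2⟩)

/-- the history of a path of length `K` from the root, second version -/
structure Hist2 {d N : ℕ} (S : Sys d N) (L K : ℕ) (P Q R w y z : ℕ → Fin d → ℝ) : Prop where
  P0 : P 0 = 0
  Q0 : Q 0 = 0
  step : ∀ k < K, (P (k + 1) = P k ∧ Q (k + 1) = R k) ∨
    (P (k + 1) = R k ∧ Q (k + 1) = Q k)
  rel : ∀ k < K, StepRel2 S L k (P k) (Q k) (R k) (w k) (y k) (z k)

theorem hist_bound2 {d N : ℕ} (S : Sys d N) :
    ∃ L : ℕ, ∀ (K : ℕ) (P Q R w y z : ℕ → Fin d → ℝ),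
    Hist2 S L K P Q R w y z →
      ∑ a, P K a ^ 2 ≤ 1000000 * (d * (1 + Real.log d)) ∧
      ∑ a, Q K a ^ 2 ≤ 1000000 * (d * (1 + Real.log d)) := by
  obtain ⟨L, hL1, hL2⟩ := exists_L2 S.hd
  refine ⟨L, fun K P Q R w y z H => ?_⟩
  have hd1 : (1 : ℝ) ≤ d := by exact_mod_cast S.hd
  have hlog : 0 ≤ Real.log d := Real.log_nonneg hd1
  set ℓ : ℝ := 1 + Real.log d with hℓ
  have hℓ1 : 1 ≤ ℓ := by rw [hℓ]; linarith
  have key := path_bound2 S.ka L ℓ (5 * B2 d ^ 2) hℓ1 (by positivity) hL1
    (fun k => S.sig k / (2 * d)) (fun k => div_nonneg (S.sig_nonneg k) (by positivity))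
    (fun K => by
      rw [← Finset.sum_div, div_le_iff₀ (by positivity)]
      have := S.sum_sig_le K
      linarith)
    K P Q R w y z H.P0 H.Q0 H.step (fun k hk => (H.rel k hk).rich)
    (fun k hk => (H.rel k hk).poor) (fun k hk => (H.rel k hk).hw) (fun k hk => (H.rel k hk).cw)
    (fun k hk => (H.rel k hk).cz) (fun k hk => (H.rel k hk).hy)
    (fun k hk => (H.rel k hk).z1) (fun k hk => (H.rel k hk).z2) (fun k hk => (H.rel k hk).dead)
  have hconst : 200 * (ℓ * d + L * d) ≤ 1000000 * (d * ℓ) := by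
    have c1 : (L : ℝ) * d ≤ 1000 * ℓ * d := mul_le_mul_of_nonneg_right hL2 (by linarith)
    have c2 : 0 ≤ (d : ℝ) * ℓ := by positivity
    linarith
  exact ⟨key.1.trans hconst, key.2.trans hconst⟩

theorem Hist2.extend {d N : ℕ} {S : Sys d N} {L K : ℕ} {P Q R w y z : ℕ → Fin d → ℝ}
    (H : Hist2 S L K P Q R w y z) {P1 Q1 R0 w0 y0 z0 : Fin d → ℝ}
    (h : (P1 = P K ∧ Q1 = R0) ∨ (P1 = R0 ∧ Q1 = Q K))
    (hr : StepRel2 S L K (P K) (Q K) R0 w0 y0 z0) :
    Hist2 S L (K + 1) (Function.update P (K + 1) P1) (Function.update Q (K + 1) Q1)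
      (Function.update R K R0) (Function.update w K w0) (Function.update y K y0)
      (Function.update z K z0) := by
  refine ⟨?_, ?_, ?_, ?_⟩
  · rw [Function.update_of_ne (by omega)]
    exact H.P0
  · rw [Function.update_of_ne (by omega)]
    exact H.Q0
  · intro k hk
    rcases Nat.lt_or_ge k K with h1 | h1
    · have e1 : k + 1 ≠ K + 1 := by omega
      have e2 : k ≠ K + 1 := by omega
      have e3 : k ≠ K := by omega
      rw [Function.update_of_ne e1, Function.update_of_ne e1, Function.update_of_ne e2,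
        Function.update_of_ne e2, Function.update_of_ne e3]
      exact H.step k h1
    · have e : k = K := by omega
      subst e
      have e2 : k ≠ k + 1 := by omega
      rw [Function.update_self, Function.update_self,
        Function.update_self, Function.update_of_ne e2, Function.update_of_ne e2]
      exact h
  · intro k hk
    rcases Nat.lt_or_ge k K with h1 | h1
    · have e2 : k ≠ K + 1 := by omega
      have e3 : k ≠ K := by omega
      rw [Function.update_of_ne e2, Function.update_of_ne e2, Function.update_of_ne e3,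
        Function.update_of_ne e3, Function.update_of_ne e3, Function.update_of_ne e3]
      exact H.rel k h1
    · have e : k = K := by omega
      subst e
      have e2 : k ≠ k + 1 := by omega
      rw [Function.update_self, Function.update_self, Function.update_self,
        Function.update_self, Function.update_of_ne e2, Function.update_of_ne e2]
      exact hr

theorem tree2 {d N : ℕ} (S : Sys d N) (L : ℕ) (B : ℝ)
    (hB : ∀ (K : ℕ) (P Q R w y z : ℕ → Fin d → ℝ), Hist2 S L K P Q R w y z →
      ∑ a, P K a ^ 2 ≤ B ∧ ∑ a, Q K a ^ 2 ≤ B) :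
    ∀ (n K : ℕ) (W : Finset (Fin N)) (P Q R w y z : ℕ → Fin d → ℝ), W.card ≤ n →
      Node2 S K W (P K) (Q K) → Hist2 S L K P Q R w y z →
      ∃ l : List (Fin N), l.Nodup ∧ (∀ i, i ∈ l ↔ i ∈ W) ∧
        ∀ j, ∑ a, (P K a + ((l.take j).map (fun i => S.v i a)).sum) ^ 2 ≤ B := by
  classical
  intro n
  induction n with
  | zero =>
    intro K W P Q R w y z hcard _ H
    have hW : W = ∅ := Finset.card_eq_zero.1 (by omega)
    refine ⟨[], List.nodup_nil, fun i => by simp [hW], fun j => ?_⟩
    simpa using (hB K P Q R w y z H).1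
  | succ n ih =>
    intro K W P Q R w y z hcard hN H
    rcases Nat.lt_or_ge W.card 2 with hW2 | hW2
    · rcases Nat.eq_zero_or_pos W.card with hc0 | hc0
      · have hW : W = ∅ := Finset.card_eq_zero.1 hc0
        refine ⟨[], List.nodup_nil, fun i => by simp [hW], fun j => ?_⟩
        simpa using (hB K P Q R w y z H).1
      · have hc1 : W.card = 1 := by omega
        obtain ⟨m, hm⟩ := Finset.card_eq_one.1 hc1
        refine ⟨[m], List.nodup_singleton m, fun i => by simp [hm], fun j => ?_⟩
        rcases Nat.eq_zero_or_pos j with hj | hj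
        · subst hj
          simpa using (hB K P Q R w y z H).1
        · obtain ⟨t, ht⟩ : ∃ t, j = t + 1 := ⟨j - 1, by omega⟩
          subst ht
          have h1 := (hB K P Q R w y z H).2
          have h2 : ∀ a, P K a + (((([m] : List (Fin N)).take (t + 1)).map
              (fun i => S.v i a)).sum) = Q K a := by
            intro a
            rw [hN.sum a, hm]
            simp
          simp only [h2]
          exact h1
    · obtain ⟨W1, W2, R0, w0, y0, z0, hdisj, hWeq, hne1, hne2, hN1, hN2, hrel⟩ :=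
        step2 S L K W (P K) (Q K) hN hW2
      have hc : W.card = W1.card + W2.card := by
        rw [hWeq, Finset.card_union_of_disjoint hdisj]
      have hp1 := Finset.card_pos.2 hne1
      have hp2 := Finset.card_pos.2 hne2
      have H1 := H.extend (P1 := P K) (Q1 := R0) (Or.inl ⟨rfl, rfl⟩) hrel
      have H2 := H.extend (P1 := R0) (Q1 := Q K) (Or.inr ⟨rfl, rfl⟩) hrel
      obtain ⟨l1, hnd1, hmem1, hb1⟩ := ih (K + 1) W1 _ _ _ _ _ _ (by omega)
        (by rw [Function.update_self, Function.update_self]; exact hN1) H1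
      obtain ⟨l2, hnd2, hmem2, hb2⟩ := ih (K + 1) W2 _ _ _ _ _ _ (by omega)
        (by rw [Function.update_self, Function.update_self]; exact hN2) H2
      rw [Function.update_self] at hb1 hb2
      refine ⟨l1 ++ l2, ?_, ?_, ?_⟩
      · rw [List.nodup_append]
        refine ⟨hnd1, hnd2, ?_⟩
        intro a ha b hb hab
        subst hab
        exact Finset.disjoint_left.1 hdisj ((hmem1 a).1 ha) ((hmem2 a).1 hb)
      · intro i
        rw [List.mem_append, hmem1, hmem2, hWeq, Finset.mem_union]
      · intro j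
        rcases Nat.lt_or_ge l1.length j with hj | hj
        · obtain ⟨t, ht⟩ : ∃ t, j = l1.length + t := ⟨j - l1.length, by omega⟩
          have htake : (l1 ++ l2).take j = l1 ++ l2.take t := by
            rw [ht, List.take_length_add_append]
          have hsum : ∀ a, P K a + (((l1 ++ l2).take j).map (fun i => S.v i a)).sum
              = R0 a + ((l2.take t).map (fun i => S.v i a)).sum := by
            intro a
            have e1 : (l1.map (fun i => S.v i a)).sum = ∑ i ∈ W1, S.v i a := by
              rw [← List.sum_toFinset _ hnd1]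
              refine Finset.sum_congr ?_ fun _ _ => rfl
              ext i
              rw [List.mem_toFinset, hmem1]
            rw [htake, List.map_append, List.sum_append, e1, hN1.sum a]
            ring
          simp only [hsum]
          exact hb2 t
        · have htake : (l1 ++ l2).take j = l1.take j := List.take_append_of_le_length hj
          rw [htake]
          exact hb1 j

/-- an ordering of `Fin N` all of whose prefix sums are small. -/
theorem order_sys2 {d N : ℕ} (S : Sys d N) :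
    ∃ l : List (Fin N), l.Nodup ∧ (∀ i, i ∈ l) ∧
      ∀ n, ∑ a, (((l.take n).map (fun i => S.v i a)).sum) ^ 2
        ≤ 1000000 * (d * (1 + Real.log d)) := by
  obtain ⟨L, hL⟩ := hist_bound2 S
  have H0 : Hist2 S L 0 (fun _ => (0 : Fin d → ℝ)) (fun _ => 0) (fun _ => 0) (fun _ => 0)
      (fun _ => 0) (fun _ => 0) :=
    ⟨rfl, rfl, fun k hk => absurd hk (Nat.not_lt_zero k), fun k hk => absurd hk (Nat.not_lt_zero k)⟩
  obtain ⟨l, hnd, hmem, hb⟩ := tree2 S L _ hL
    (univ : Finset (Fin N)).card 0 univ _ _ _ _ _ _ le_rfl (root_node2 S) H0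
  refine ⟨l, hnd, fun i => (hmem i).2 (Finset.mem_univ i), fun n => ?_⟩
  simpa using hb n

/-- From an ordering of the system to the permutation, general bound. -/
theorem steinitz_of_order2 {d N : ℕ} (hd : 1 ≤ d) (B : ℝ) (hB : 0 ≤ B)
    (horder : ∀ S : Sys d N, ∃ l : List (Fin N), l.Nodup ∧ (∀ i, i ∈ l) ∧
      ∀ n, ∑ a, (((l.take n).map (fun i => S.v i a)).sum) ^ 2 ≤ B ^ 2)
    (w : Fin N → EuclideanSpace ℝ (Fin d))
    (hw : ∀ i, ‖w i‖ ≤ 1) (h0 : ∑ i, w i = 0) :
    ∃ π : Equiv.Perm (Fin N), ∀ k : ℕ, k ≤ N →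
      ‖∑ i ∈ univ.filter (fun i : Fin N => (i : ℕ) < k), w (π i)‖ ≤ B := by
  classical
  obtain ⟨S, σ, e, hS⟩ := exists_sys hd w hw h0
  obtain ⟨l, hnd, hmem, hbd⟩ := horder S
  have hlen : l.length = N := by
    have h1 := List.toFinset_card_of_nodup hnd
    have h2 : l.toFinset = univ := by
      ext i
      simp [hmem i]
    rw [h2, Finset.card_univ, Fintype.card_fin] at h1
    exact h1.symm
  let τ : Fin N ≃ Fin N :=
    (finCongr hlen.symm).trans (List.Nodup.getEquivOfForallMemList l hnd hmem)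
  refine ⟨τ.trans σ, ?_⟩
  intro k _
  have hsum : ∀ a, e (∑ i ∈ univ.filter (fun i : Fin N => (i : ℕ) < k), w ((τ.trans σ) i)) a
      = ((l.take k).map (fun i => S.v i a)).sum := by
    intro a
    rw [← sum_take_eq l (fun i => S.v i a) k, map_sum]
    have h1 : (∑ x ∈ univ.filter (fun i : Fin N => (i : ℕ) < k), e (w ((τ.trans σ) x))) a
        = ∑ x ∈ univ.filter (fun i : Fin N => (i : ℕ) < k), e (w ((τ.trans σ) x)) a := by
      simp
    rw [h1]
    refine Finset.sum_nbij' (fun i => Fin.cast hlen.symm i) (fun i => Fin.cast hlen i)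
      ?_ ?_ ?_ ?_ ?_
    · intro i hi
      simpa using hi
    · intro i hi
      simpa using hi
    · intro i _
      rfl
    · intro i _
      rfl
    · intro i _
      rw [hS]
      rfl
  rw [← e.norm_map]
  have h2 : ‖e (∑ i ∈ univ.filter (fun i : Fin N => (i : ℕ) < k), w ((τ.trans σ) i))‖ ^ 2
      ≤ B ^ 2 := by
    rw [EuclideanSpace.norm_sq_eq]
    have h3 : ∀ a, ‖e (∑ i ∈ univ.filter (fun i : Fin N => (i : ℕ) < k), w ((τ.trans σ) i)) a‖ ^ 2
        = (((l.take k).map (fun i => S.v i a)).sum) ^ 2 := by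
      intro a
      rw [hsum a, Real.norm_eq_abs, sq_abs]
    rw [Finset.sum_congr rfl fun a _ => h3 a]
    exact hbd k
  exact le_of_sq_le_sq h2 hB

/-- `S_2(d) ≤ C √(d (1 + log d))` -/
theorem steinitz2 {d N : ℕ} (hd : 1 ≤ d) (w : Fin N → EuclideanSpace ℝ (Fin d))
    (hw : ∀ i, ‖w i‖ ≤ 1) (h0 : ∑ i, w i = 0) :
    ∃ π : Equiv.Perm (Fin N), ∀ k : ℕ, k ≤ N →
      ‖∑ i ∈ univ.filter (fun i : Fin N => (i : ℕ) < k), w (π i)‖
        ≤ 1000 * Real.sqrt (d * (1 + Real.log d)) := by
  have hlog : 0 ≤ Real.log d := Real.log_nonneg (by exact_mod_cast hd)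
  refine steinitz_of_order2 hd _ (by positivity) (fun S => ?_) w hw h0
  obtain ⟨l, h1, h2, h3⟩ := order_sys2 S
  refine ⟨l, h1, h2, fun n => (h3 n).trans (le_of_eq ?_)⟩
  rw [mul_pow, Real.sq_sqrt (by positivity)]
  norm_num

end P262
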