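import Mathlib
import Vale.Agent.P262.V2Defs

/-! P262: the root node, second version. -/

namespace P262

open Finset

theorem root_node2_pf {d N : ℕ} (S : Sys d N) : Node2 S 0 univ (0 : Fin d → ℝ) 0 := by
  have hd : (1 : ℝ) ≤ d := by exact_mod_cast S.hd
  have hhC : (1 : ℝ) ≤ hC d := by unfold hC; nlinarith
  have hcE : (0 : ℝ) ≤ cE2 d := by unfold cE2; linarith
  have hcG : (0 : ℝ) ≤ cG d := by unfold cG; linarith
  have hlam : (1 : ℝ) ≤ lam d := by
    have h1 : (1 : ℝ) ≤ (d : ℝ) ^ 5 := one_le_pow₀ hd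
    unfold lam; linarith
  have hq : (d : ℝ) ≤ q2 d := by
    unfold q2 q12
    linarith
  have hq1 : (1 : ℝ) ≤ q2 d := le_trans hd hq
  have hprod : lam d ≤ hC d * q2 d * lam d := by
    have h1 : 1 * 1 ≤ hC d * q2 d := mul_le_mul hhC hq1 zero_le_one (by linarith)
    have h2 : (1 * 1) * lam d ≤ hC d * q2 d * lam d :=
      mul_le_mul_of_nonneg_right h1 (by linarith)
    linarith
  have hb1 : lam d ≤ b1 d := by
    unfold b1
    have : 8 * hC d * q2 d * lam d = 8 * (hC d * q2 d * lam d) := by ring
    linarith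
  have hB2 : 1 ≤ B2 d := by
    unfold B2
    have : 64 * hC d * q2 d * lam d = 64 * (hC d * q2 d * lam d) := by ring
    linarith
  have hth : S.th 0 = 0 := by simp [Sys.th]
  have hmu : ∀ a, S.mu a 0 = S.μ a := fun a => by simp [Sys.mu]
  have hc0 : ((univ.filter (fun i => S.kk i = 0)).card : ℝ) ≤ d := by
    simpa using S.cnt 0
  refine ⟨?_, ?_, ?_, ?_, ?_, ?_, ?_, ?_⟩
  · intro a
    simp [S.sum_zero a]
  · intro i _ hi
    have hi0 : S.kk i = 0 := Nat.le_zero.mp hi
    have hsub : univ.filter (fun j => j < i) ⊆ univ.filter (fun i => S.kk i = 0) := by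
      intro j hj
      simp only [Finset.mem_filter, Finset.mem_univ, true_and] at hj ⊢
      have := S.mono hj.le
      omega
    have hcard : ((univ.filter (fun j => j < i)).card : ℝ)
        ≤ ((univ.filter (fun i => S.kk i = 0)).card : ℝ) := by
      exact_mod_cast Finset.card_le_card hsub
    rw [hi0]
    simp only [pow_zero, mul_one]
    linarith
  · have hsub : univ.filter (fun i => S.kk i ≤ 0) ⊆ univ.filter (fun i => S.kk i = 0) := by
      intro j hj
      simp only [Finset.mem_filter, Finset.mem_univ, true_and] at hj ⊢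
      omega
    have hcard : ((univ.filter (fun i => S.kk i ≤ 0)).card : ℝ)
        ≤ ((univ.filter (fun i => S.kk i = 0)).card : ℝ) := by
      exact_mod_cast Finset.card_le_card hsub
    linarith
  · intro t _
    rw [hth]
    have := S.cnt t
    simp only [pow_zero, mul_one]
    linarith
  · intro a b
    rw [hth, hmu]
    have h1 := S.gram a b
    have h2 : ∑ i, S.v i a * S.v i b - (if a = b then S.μ a else 0) = 0 := by
      rw [h1]; ring
    rw [h2]
    simp
    exact hcG
  · intro a _
    have : 0 ≤ 4 * hC d := by linarith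
    simp only [Pi.zero_apply, abs_zero]
    exact ⟨this, this⟩
  · intro a ha m _ _
    have ha0 : S.ka a = 0 := Nat.le_zero.mp ha
    have h1 : ∑ i ∈ univ.erase m, S.v i a ^ 2 ≤ ∑ i, S.v i a ^ 2 :=
      Finset.sum_le_sum_of_subset_of_nonneg (Finset.erase_subset _ _)
        (fun i _ _ => sq_nonneg _)
    have h2 : ∑ i, S.v i a ^ 2 = S.μ a := by
      have := S.gram a a
      rw [if_pos rfl] at this
      rw [← this]
      exact Finset.sum_congr rfl fun i _ => sq _
    have h3 := S.ka_lt a
    rw [ha0, pow_zero, mul_one] at h3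
    rw [ha0]
    simp only [Nat.sub_zero, pow_zero, mul_one]
    have h4 : lam d ^ 2 ≤ b1 d ^ 2 := pow_le_pow_left₀ (by linarith) hb1 2
    linarith
  · intro a ha m hm _
    have ha0 : S.ka a = 0 := Nat.le_zero.mp ha
    have h1 := Finset.add_sum_erase univ (fun i => S.v i a) hm
    rw [S.sum_zero a] at h1
    have h2 : ∑ i ∈ univ.erase m, S.v i a = - S.v m a := by
      linarith
    have h3 : S.v m a ^ 2 ≤ 1 :=
      (Finset.single_le_sum (f := fun a => S.v m a ^ 2) (fun b _ => sq_nonneg _)
        (Finset.mem_univ a)).trans (S.norm_le m)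
    rw [h2, abs_neg, ha0]
    simp only [Nat.sub_zero, pow_zero, mul_one]
    have h4 : |S.v m a| ≤ 1 := by
      rw [← sq_le_one_iff_abs_le_one]
      exact h3
    linarith

end P262
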