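import Mathlib
import Vale.Agent.P262.FinalB

/-! P262, second version: from an ordering of a system to the statement. -/

namespace P262

open Finset

/-- From an ordering of the system to the permutation. -/
theorem steinitz2_of {d N : ℕ} (hd : 1 ≤ d)
    (horder : ∀ S : Sys d N, ∃ l : List (Fin N), l.Nodup ∧ (∀ i, i ∈ l) ∧
      ∀ n, ∑ a, (((l.take n).map (fun i => S.v i a)).sum) ^ 2
        ≤ 1000000 * (d * (1 + Real.log d)))
    (w : Fin N → EuclideanSpace ℝ (Fin d))
    (hw : ∀ i, ‖w i‖ ≤ 1) (h0 : ∑ i, w i = 0) :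
    ∃ π : Equiv.Perm (Fin N), ∀ k : ℕ, k ≤ N →
      ‖∑ i ∈ univ.filter (fun i : Fin N => (i : ℕ) < k), w (π i)‖
        ≤ 1000 * Real.sqrt (d * (1 + Real.log d)) := by
  classical
  obtain ⟨S, σ, e, hS⟩ := exists_sys hd w hw h0
  obtain ⟨l, hnd, hmem, hbd⟩ := horder S
  have hlen : l.length = N := by
    have h1 := List.toFinset_card_of_nodup hnd
    have h2 : l.toFinset = univ := by
      ext i
      simp [hmem i]
    rw [h2, Finset.card_univ, Fintype.card_fin] at h1
    exact h1.symm
  let τ : Fin N ≃ Fin N :=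
    (finCongr hlen.symm).trans (List.Nodup.getEquivOfForallMemList l hnd hmem)
  refine ⟨τ.trans σ, ?_⟩
  intro k _
  have hlog : 0 ≤ Real.log d := Real.log_nonneg (by exact_mod_cast hd)
  have hsum : ∀ a, e (∑ i ∈ univ.filter (fun i : Fin N => (i : ℕ) < k), w ((τ.trans σ) i)) a
      = ((l.take k).map (fun i => S.v i a)).sum := by
    intro a
    rw [← sum_take_eq l (fun i => S.v i a) k, map_sum]
    have h1 : (∑ x ∈ univ.filter (fun i : Fin N => (i : ℕ) < k), e (w ((τ.trans σ) x))) a
        = ∑ x ∈ univ.filter (fun i : Fin N => (i : ℕ) < k), e (w ((τ.trans σ) x)) a := by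
      simp
    rw [h1]
    refine Finset.sum_nbij' (fun i => Fin.cast hlen.symm i) (fun i => Fin.cast hlen i)
      ?_ ?_ ?_ ?_ ?_
    · intro i hi
      simpa using hi
    · intro i hi
      simpa using hi
    · intro i _
      rfl
    · intro i _
      rfl
    · intro i _
      rw [hS]
      rfl
  rw [← e.norm_map]
  have h2 : ‖e (∑ i ∈ univ.filter (fun i : Fin N => (i : ℕ) < k), w ((τ.trans σ) i))‖ ^ 2
      ≤ (1000 * Real.sqrt (d * (1 + Real.log d))) ^ 2 := by
    rw [EuclideanSpace.norm_sq_eq]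
    have h3 : ∀ a, ‖e (∑ i ∈ univ.filter (fun i : Fin N => (i : ℕ) < k), w ((τ.trans σ) i)) a‖ ^ 2
        = (((l.take k).map (fun i => S.v i a)).sum) ^ 2 := by
      intro a
      rw [hsum a, Real.norm_eq_abs, sq_abs]
    rw [Finset.sum_congr rfl fun a _ => h3 a]
    refine le_trans (hbd k) (le_of_eq ?_)
    rw [mul_pow, Real.sq_sqrt (by positivity)]
    norm_num
  have h4 : 0 ≤ 1000 * Real.sqrt (d * (1 + Real.log d)) := by positivity
  exact le_of_sq_le_sq h2 h4

end P262
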