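import Mathlib
import Vale.Agent.P262.V2Child
import Vale.Agent.P262.V2Core

/-! P262: the splitting step, second version. -/

namespace P262

open Finset

theorem step2_pf {d N : ℕ} (S : Sys d N) (L k : ℕ) (W : Finset (Fin N)) (P Q : Fin d → ℝ)
    (hN : Node2 S k W P Q) (hW : 2 ≤ W.card) :
    ∃ (W1 W2 : Finset (Fin N)) (R w y z : Fin d → ℝ),
      Disjoint W1 W2 ∧ W = W1 ∪ W2 ∧ W1.Nonempty ∧ W2.Nonempty ∧
      Node2 S (k + 1) W1 P R ∧ Node2 S (k + 1) W2 R Q ∧ StepRel2 S L k P Q R w y z := by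
  classical
  have hWne : W.Nonempty := Finset.card_pos.1 (by omega)
  set m : Fin N := W.min' hWne with hm'
  have hm : m ∈ W := W.min'_mem hWne
  have hmin : ∀ i ∈ W, m ≤ i := fun i hi => W.min'_le i hi
  have hWe : (W.erase m).Nonempty := by
    rw [← Finset.card_pos, Finset.card_erase_of_mem hm]
    omega
  set i1 : Fin N := (W.erase m).min' hWe with hi1'
  have hi1 : i1 ∈ W.erase m := (W.erase m).min'_mem hWe
  have hmin1 : ∀ i ∈ W.erase m, i1 ≤ i := fun i hi => (W.erase m).min'_le i hi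
  obtain ⟨s, R, w, y, z, hs, hR, hRr, hrel⟩ := step_core2 S L k W P Q hN m i1 hm hi1 hmin hmin1
  set W1 : Finset (Fin N) := W.filter (fun i => s i = 1) with hW1
  set W2 : Finset (Fin N) := W.filter (fun i => - s i = 1) with hW2
  have hdisj : Disjoint W1 W2 := by
    rw [Finset.disjoint_left]
    intro i hi hi'
    have e1 := (Finset.mem_filter.1 hi).2
    have e2 := (Finset.mem_filter.1 hi').2
    rw [e1] at e2
    norm_num at e2
  have hunion : W = W1 ∪ W2 := by
    ext i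
    rw [Finset.mem_union, hW1, hW2, Finset.mem_filter, Finset.mem_filter]
    constructor
    · intro hi
      rcases hs.sign i with h | h
      · exact Or.inl ⟨hi, h⟩
      · exact Or.inr ⟨hi, by rw [h]; norm_num⟩
    · rintro (h | h) <;> exact h.1
  have hi1W : i1 ∈ W := Finset.mem_of_mem_erase hi1
  have hne : W1.Nonempty ∧ W2.Nonempty := by
    rcases hs.sign m with h | h
    · refine ⟨⟨m, Finset.mem_filter.2 ⟨hm, h⟩⟩, ⟨i1, Finset.mem_filter.2 ⟨hi1W, ?_⟩⟩⟩
      rw [hs.opp, h]; norm_num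
    · refine ⟨⟨i1, Finset.mem_filter.2 ⟨hi1W, ?_⟩⟩, ⟨m, Finset.mem_filter.2 ⟨hm, ?_⟩⟩⟩
      · rw [hs.opp, h]; norm_num
      · rw [h]; norm_num
  have hsumW : ∀ f : Fin N → ℝ, ∑ i ∈ W, f i = ∑ i ∈ W1, f i + ∑ i ∈ W2, f i := by
    intro f
    rw [← Finset.sum_union hdisj, ← hunion]
  have hRrich : ∀ a, k < S.ka a → |R a| ≤ 4 * hC d := by
    intro a ha
    rcases hRr a with h | h
    · exact h
    · omega
  refine ⟨W1, W2, R, w, y, z, hdisj, hunion, hne.1, hne.2, ?_, ?_, hrel⟩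
  · exact child2 S k W P Q hN m i1 hm hi1 hmin hmin1 s hs P R hR
      fun a ha => ⟨(hN.rich a ha).1, hRrich a ha⟩
  · refine child2 S k W P Q hN m i1 hm hi1 hmin hmin1 (fun i => - s i) hs.neg R Q
      (fun a => ?_) fun a ha => ⟨hRrich a ha, (hN.rich a ha).2⟩
    rw [hN.sum a, hsumW (fun i => S.v i a), hR a]
    ring

end P262
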